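import Vale.Agent.P146.H706G.LawNN

/-!
Plan R2, row F2: **the pointwise weight** `χ = tr (Y C1²) / (1 - a + κ)`, `a` the normalized scalar
product of the two matrices (regularized), as a function of the matrices and as a function of the
coordinates: size, Lipschitz bounds, growth, independence of a row, and the splitting of
`χ_b - χ` into the deep part and the rest.
-/

open MeasureTheory ProbabilityTheory Finset

namespace Vale.Agent.P146.H350

open Vale.Agent.P157.Lv Vale.Agent.P146.H425 Vale.Agent.P146.H325 Vale.Agent.P146.H332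
  Vale.Agent.P146.H712 Vale.Agent.P146.R1 Vale.Agent.P146.R1C Vale.Agent.P146.H706
  Vale.Agent.P146.R1S Vale.Agent.P146.H191

set_option linter.unusedSectionVars false

section det

variable {n : ℕ}

/-- the Frobenius scalar product -/
def ipf (A C : Fin n → Fin n → ℝ) : ℝ := ∑ i, ∑ j, A i j * C i j

/-- the regularized Frobenius norm -/
noncomputable def mq (A : Fin n → Fin n → ℝ) : ℝ := max (H191.fro A) 1

/-- the regularized quotient `⟨A, C⟩ / (|A| |C|)` -/
noncomputable def aq (A C : Fin n → Fin n → ℝ) : ℝ := ipf A C / (mq A * mq C)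

/-- the weight `1 / (1 - a + κ)` -/
noncomputable def gq (κ : ℝ) (A C : Fin n → Fin n → ℝ) : ℝ := 1 / (1 - aq A C + κ)

lemma one_le_mq (A : Fin n → Fin n → ℝ) : 1 ≤ mq A := le_max_right _ _

lemma mq_pos (A : Fin n → Fin n → ℝ) : 0 < mq A := one_pos.trans_le (one_le_mq A)

lemma fro_le_mq (A : Fin n → Fin n → ℝ) : H191.fro A ≤ mq A := le_max_left _ _

lemma mq_eq {A : Fin n → Fin n → ℝ} (h : 1 ≤ H191.fro A) : mq A = H191.fro A := max_eq_left h

lemma abs_ipf_le (A C : Fin n → Fin n → ℝ) : |ipf A C| ≤ H191.fro A * H191.fro C := cs_fro A C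

lemma abs_aq_le (A C : Fin n → Fin n → ℝ) : |aq A C| ≤ 1 := by
  unfold aq
  rw [abs_div, abs_of_pos (mul_pos (mq_pos A) (mq_pos C)), div_le_one (mul_pos (mq_pos A) (mq_pos C))]
  exact (abs_ipf_le A C).trans (mul_le_mul (fro_le_mq A) (fro_le_mq C) (H191.fro_nonneg _)
    (mq_pos A).le)

lemma aq_le (A C : Fin n → Fin n → ℝ) : aq A C ≤ 1 := (abs_le.1 (abs_aq_le A C)).2

lemma aq_mul {A C : Fin n → Fin n → ℝ} (hA : 1 ≤ H191.fro A) (hC : 1 ≤ H191.fro C) :
    aq A C * (H191.fro A * H191.fro C) = ipf A C := by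
  unfold aq
  rw [mq_eq hA, mq_eq hC]
  have : 0 < H191.fro A * H191.fro C := mul_pos (by linarith) (by linarith)
  field_simp

lemma aq_nonneg {A C : Fin n → Fin n → ℝ} (h : 0 ≤ ipf A C) : 0 ≤ aq A C :=
  div_nonneg h (mul_pos (mq_pos A) (mq_pos C)).le

/-- a matrix with a diagonal equal to one has norm at least one -/
lemma one_le_fro (hn : 0 < n) {A : Fin n → Fin n → ℝ} (hA : ∀ i, A i i = 1) :
    1 ≤ H191.fro A := by
  have h1 : (1 : ℝ) ≤ H191.fro A ^ 2 := by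
    rw [H191.fro_sq]
    calc (1 : ℝ) = A ⟨0, hn⟩ ⟨0, hn⟩ ^ 2 := by rw [hA]; norm_num
      _ ≤ ∑ j, A ⟨0, hn⟩ j ^ 2 :=
        Finset.single_le_sum (f := fun j => A ⟨0, hn⟩ j ^ 2) (fun _ _ => sq_nonneg _)
          (Finset.mem_univ _)
      _ ≤ ∑ i, ∑ j, A i j ^ 2 :=
        Finset.single_le_sum (f := fun i => ∑ j, A i j ^ 2)
          (fun _ _ => Finset.sum_nonneg fun _ _ => sq_nonneg _) (Finset.mem_univ _)
  nlinarith [H191.fro_nonneg A]

lemma gq_den (κ : ℝ) (A C : Fin n → Fin n → ℝ) : κ ≤ 1 - aq A C + κ := by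
  linarith [aq_le A C]

lemma gq_mul {κ : ℝ} (hκ : 0 < κ) (A C : Fin n → Fin n → ℝ) :
    gq κ A C * (1 - aq A C + κ) = 1 := by
  unfold gq
  have := hκ.trans_le (gq_den κ A C)
  field_simp

lemma gq_pos {κ : ℝ} (hκ : 0 < κ) (A C : Fin n → Fin n → ℝ) : 0 < gq κ A C :=
  one_div_pos.2 (hκ.trans_le (gq_den κ A C))

lemma gq_le {κ : ℝ} (hκ : 0 < κ) (A C : Fin n → Fin n → ℝ) : gq κ A C ≤ 1 / κ :=
  one_div_le_one_div_of_le hκ (gq_den κ A C)

/-- Lipschitz bound of the weight in the quotient -/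
lemma gq_lip {κ : ℝ} (hκ : 0 < κ) (A C A' C' : Fin n → Fin n → ℝ) :
    |gq κ A' C' - gq κ A C| ≤ 1 / κ * gq κ A C * |aq A' C' - aq A C| := by
  have h1 := gq_mul hκ A C
  have h2 := gq_mul hκ A' C'
  have e : gq κ A' C' - gq κ A C = gq κ A' C' * gq κ A C * (aq A' C' - aq A C) := by
    linear_combination gq κ A C * h2 - gq κ A' C' * h1
  rw [e, abs_mul, abs_of_pos (mul_pos (gq_pos hκ _ _) (gq_pos hκ _ _))]
  exact mul_le_mul_of_nonneg_right (mul_le_mul_of_nonneg_right (gq_le hκ _ _) (gq_pos hκ _ _).le)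
    (abs_nonneg _)

lemma gq_lip' {κ : ℝ} (hκ : 0 < κ) (A C A' C' : Fin n → Fin n → ℝ) :
    |gq κ A' C' - gq κ A C| ≤ 1 / κ ^ 2 * |aq A' C' - aq A C| := by
  refine (gq_lip hκ A C A' C').trans (mul_le_mul_of_nonneg_right ?_ (abs_nonneg _))
  calc 1 / κ * gq κ A C ≤ 1 / κ * (1 / κ) :=
        mul_le_mul_of_nonneg_left (gq_le hκ _ _) (one_div_pos.2 hκ).le
    _ = 1 / κ ^ 2 := by rw [pow_two, one_div_mul_one_div]

/-! ### the quotient is Lipschitz -/

lemma fro_sub_abs (A A' : Fin n → Fin n → ℝ) :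
    |H191.fro A' - H191.fro A| ≤ H191.fro fun i j => A' i j - A i j := by
  have h1 := H191.fro_add (fun i j => A' i j - A i j) A
  have h2 := H191.fro_add (fun i j => A i j - A' i j) A'
  have e1 : H191.fro (fun i j => A' i j - A i j + A i j) = H191.fro A' :=
    fro_congr fun i j => by ring
  have e2 : H191.fro (fun i j => A i j - A' i j + A' i j) = H191.fro A :=
    fro_congr fun i j => by ring
  have e3 : H191.fro (fun i j => A i j - A' i j) = H191.fro fun i j => A' i j - A i j := by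
    rw [← fro_neg]
    exact fro_congr fun i j => by ring
  rw [e1] at h1
  rw [e2, e3] at h2
  rw [abs_le]
  constructor <;> linarith

lemma mq_sub_abs (A A' : Fin n → Fin n → ℝ) :
    |mq A' - mq A| ≤ H191.fro fun i j => A' i j - A i j := by
  unfold mq
  refine (abs_max_sub_max_le_abs _ _ _).trans (fro_sub_abs A A')

/-- the normalized matrix -/
noncomputable def nq (A : Fin n → Fin n → ℝ) (i j : Fin n) : ℝ := 1 / mq A * A i j

lemma fro_nq_le (A : Fin n → Fin n → ℝ) : H191.fro (nq A) ≤ 1 := by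
  unfold nq
  rw [fro_const_mul, abs_of_pos (one_div_pos.2 (mq_pos A)), one_div_mul_eq_div,
    div_le_one (mq_pos A)]
  exact fro_le_mq A

lemma aq_eq_nq (A C : Fin n → Fin n → ℝ) : aq A C = ipf (nq A) (nq C) := by
  unfold aq ipf nq
  rw [Finset.sum_div]
  refine Finset.sum_congr rfl fun i _ => ?_
  rw [Finset.sum_div]
  refine Finset.sum_congr rfl fun j _ => ?_
  have := mq_pos A
  have := mq_pos C
  field_simp

lemma nq_lip (A A' : Fin n → Fin n → ℝ) :
    (H191.fro fun i j => nq A' i j - nq A i j) ≤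
      2 * ((H191.fro fun i j => A' i j - A i j) / mq A) := by
  have hA := mq_pos A
  have hA' := mq_pos A'
  set δ := H191.fro fun i j => A' i j - A i j with hδ
  have e : ∀ i j, nq A' i j - nq A i j =
      1 / mq A * (A' i j - A i j) + (1 / mq A' - 1 / mq A) * A' i j := fun i j => by
    unfold nq
    ring
  rw [fro_congr e]
  refine (H191.fro_add (fun i j => 1 / mq A * (A' i j - A i j))
    fun i j => (1 / mq A' - 1 / mq A) * A' i j).trans ?_
  rw [fro_const_mul, fro_const_mul, ← hδ, abs_of_pos (one_div_pos.2 hA)]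
  have h1 : |1 / mq A' - 1 / mq A| * H191.fro A' ≤ δ / mq A := by
    have h2 : 1 / mq A' - 1 / mq A = (mq A - mq A') / (mq A' * mq A) := by
      field_simp
    rw [h2, abs_div, abs_of_pos (mul_pos hA' hA), div_mul_eq_mul_div,
      div_le_div_iff₀ (mul_pos hA' hA) hA]
    have h3 : |mq A - mq A'| ≤ δ := by
      rw [abs_sub_comm]
      exact mq_sub_abs A A'
    have h4 := fro_le_mq A'
    have h5 : |mq A - mq A'| * H191.fro A' ≤ δ * mq A' :=
      mul_le_mul h3 h4 (H191.fro_nonneg _) ((abs_nonneg _).trans h3)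
    calc |mq A - mq A'| * H191.fro A' * mq A ≤ δ * mq A' * mq A :=
          mul_le_mul_of_nonneg_right h5 hA.le
      _ = δ * (mq A' * mq A) := by ring
  have h6 : 1 / mq A * δ = δ / mq A := by ring
  rw [h6]
  linarith

/-- **The quotient is Lipschitz, relative touches.** -/
theorem aq_lip (A C A' C' : Fin n → Fin n → ℝ) :
    |aq A' C' - aq A C| ≤ 2 * ((H191.fro fun i j => A' i j - A i j) / mq A) +
      2 * ((H191.fro fun i j => C' i j - C i j) / mq C) := by
  rw [aq_eq_nq, aq_eq_nq]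
  have e : ipf (nq A') (nq C') - ipf (nq A) (nq C) =
      ipf (fun i j => nq A' i j - nq A i j) (nq C') +
        ipf (nq A) (fun i j => nq C' i j - nq C i j) := by
    unfold ipf
    rw [← Finset.sum_sub_distrib, ← Finset.sum_add_distrib]
    refine Finset.sum_congr rfl fun i _ => ?_
    rw [← Finset.sum_sub_distrib, ← Finset.sum_add_distrib]
    exact Finset.sum_congr rfl fun j _ => by ring
  rw [e]
  refine (abs_add_le _ _).trans (add_le_add ?_ ?_)
  · refine (abs_ipf_le _ _).trans ?_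
    calc (H191.fro fun i j => nq A' i j - nq A i j) * H191.fro (nq C')
        ≤ (H191.fro fun i j => nq A' i j - nq A i j) * 1 :=
          mul_le_mul_of_nonneg_left (fro_nq_le _) (H191.fro_nonneg _)
      _ = H191.fro fun i j => nq A' i j - nq A i j := mul_one _
      _ ≤ _ := nq_lip A A'
  · refine (abs_ipf_le _ _).trans ?_
    calc H191.fro (nq A) * (H191.fro fun i j => nq C' i j - nq C i j)
        ≤ 1 * (H191.fro fun i j => nq C' i j - nq C i j) :=
          mul_le_mul_of_nonneg_right (fro_nq_le _) (H191.fro_nonneg _)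
      _ = H191.fro fun i j => nq C' i j - nq C i j := one_mul _
      _ ≤ _ := nq_lip C C'

/-- the weight `G` is Lipschitz -/
theorem gq_touch {κ : ℝ} (hκ : 0 < κ) (A C A' C' : Fin n → Fin n → ℝ) :
    |gq κ A' C' - gq κ A C| ≤ 2 / κ * gq κ A C *
      ((H191.fro fun i j => A' i j - A i j) / mq A +
        (H191.fro fun i j => C' i j - C i j) / mq C) := by
  refine (gq_lip hκ A C A' C').trans ?_
  have h1 := aq_lip A C A' C'
  have h2 : 0 ≤ 1 / κ * gq κ A C := (mul_pos (one_div_pos.2 hκ) (gq_pos hκ _ _)).le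
  refine (mul_le_mul_of_nonneg_left h1 h2).trans (le_of_eq ?_)
  ring

/-! ### the deep form -/

/-- `tr (Y M M)` -/
def wq (Y M : Fin n → Fin n → ℝ) : ℝ := ∑ i, ∑ j, Y i j * ∑ l, M i l * M l j

/-- `tr (Y M N)`, in the form used for the Cauchy-Schwarz inequality -/
def wb (Y M N : Fin n → Fin n → ℝ) : ℝ := ∑ l, ∑ i, ∑ j, Y i j * (M i l * N j l)

lemma wq_eq {Y M : Fin n → Fin n → ℝ} (hM : ∀ i l, M i l = M l i) : wq Y M = wb Y M M := by
  unfold wq wb
  rw [Finset.sum_comm]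
  conv_rhs => rw [Finset.sum_comm]
  rw [Finset.sum_comm]
  refine Finset.sum_congr rfl fun i _ => ?_
  conv_rhs => rw [Finset.sum_comm]
  refine Finset.sum_congr rfl fun j _ => ?_
  rw [Finset.mul_sum]
  exact Finset.sum_congr rfl fun l _ => by rw [hM l j]

lemma wb_nonneg {Y : Fin n → Fin n → ℝ}
    (hY : ∀ v : Fin n → ℝ, 0 ≤ ∑ i, ∑ j, Y i j * (v i * v j)) (M : Fin n → Fin n → ℝ) :
    0 ≤ wb Y M M := Finset.sum_nonneg fun l _ => hY fun i => M i l

lemma wq_nonneg {Y M : Fin n → Fin n → ℝ}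
    (hY : ∀ v : Fin n → ℝ, 0 ≤ ∑ i, ∑ j, Y i j * (v i * v j)) (hM : ∀ i l, M i l = M l i) :
    0 ≤ wq Y M := by
  rw [wq_eq hM]
  exact wb_nonneg hY M

lemma wb_comm {Y : Fin n → Fin n → ℝ} (hs : ∀ i j, Y i j = Y j i) (M N : Fin n → Fin n → ℝ) :
    wb Y M N = wb Y N M := by
  unfold wb
  refine Finset.sum_congr rfl fun l _ => ?_
  rw [Finset.sum_comm]
  exact Finset.sum_congr rfl fun i _ => Finset.sum_congr rfl fun j _ => by rw [hs j i]; ring

/-- Cauchy-Schwarz in the form `Y` -/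
lemma wb_cs {Y : Fin n → Fin n → ℝ} (hs : ∀ i j, Y i j = Y j i)
    (hY : ∀ v : Fin n → ℝ, 0 ≤ ∑ i, ∑ j, Y i j * (v i * v j)) (M N : Fin n → Fin n → ℝ) :
    |wb Y M N| ≤ √(wb Y M M) * √(wb Y N N) := by
  have hM := wb_nonneg hY M
  have hN := wb_nonneg hY N
  have q : ∀ t : ℝ, 0 ≤ wb Y N N * (t * t) + (-2 * wb Y M N) * t + wb Y M M := by
    intro t
    have h := wb_nonneg hY fun i l => M i l - t * N i l
    have e : wb Y (fun i l => M i l - t * N i l) (fun i l => M i l - t * N i l) =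
        wb Y M M - t * wb Y M N - t * wb Y N M + t * t * wb Y N N := by
      unfold wb
      simp only [Finset.mul_sum, ← Finset.sum_sub_distrib, ← Finset.sum_add_distrib]
      exact Finset.sum_congr rfl fun l _ => Finset.sum_congr rfl fun i _ =>
        Finset.sum_congr rfl fun j _ => by ring
    rw [e, wb_comm hs N M] at h
    linarith
  have hd := discrim_le_zero q
  unfold discrim at hd
  rw [← Real.sqrt_mul hM]
  refine Real.abs_le_sqrt ?_
  nlinarith

/-- the rest of the difference of two weights -/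
noncomputable def rhoq (κ : ℝ) (Y M1 M2 C1 C2 : Fin n → Fin n → ℝ) : ℝ :=
  wq Y M1 * gq κ M1 M2 - wq Y C1 * gq κ C1 C2

/-- **The rest is a touch of the two matrices, in the form `Y`.** -/
theorem rhoq_le {κ : ℝ} (hκ : 0 < κ) {Y M1 M2 C1 C2 : Fin n → Fin n → ℝ}
    (hs : ∀ i j, Y i j = Y j i) (hY : ∀ v : Fin n → ℝ, 0 ≤ ∑ i, ∑ j, Y i j * (v i * v j))
    (hM : ∀ i l, M1 i l = M1 l i) (hC : ∀ i l, C1 i l = C1 l i) :
    |rhoq κ Y M1 M2 C1 C2| ≤
      gq κ M1 M2 * (√(wq Y fun i l => M1 i l - C1 i l) * (√(wq Y M1) + √(wq Y C1))) +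
      wq Y C1 * (2 / κ * gq κ C1 C2 *
        ((H191.fro fun i j => M1 i j - C1 i j) / mq C1 +
          (H191.fro fun i j => M2 i j - C2 i j) / mq C2)) := by
  have hD : ∀ i l, M1 i l - C1 i l = M1 l i - C1 l i := fun i l => by rw [hM i l, hC i l]
  have e : rhoq κ Y M1 M2 C1 C2 = gq κ M1 M2 * (wq Y M1 - wq Y C1) +
      wq Y C1 * (gq κ M1 M2 - gq κ C1 C2) := by
    unfold rhoq
    ring
  have h1 : |wq Y M1 - wq Y C1| ≤
      √(wq Y fun i l => M1 i l - C1 i l) * (√(wq Y M1) + √(wq Y C1)) := by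
    rw [wq_eq hM, wq_eq hC, wq_eq hD]
    have e1 : wb Y M1 M1 - wb Y C1 C1 = wb Y (fun i l => M1 i l - C1 i l) M1 +
        wb Y C1 (fun i l => M1 i l - C1 i l) := by
      unfold wb
      simp only [← Finset.sum_sub_distrib, ← Finset.sum_add_distrib]
      exact Finset.sum_congr rfl fun l _ => Finset.sum_congr rfl fun i _ =>
        Finset.sum_congr rfl fun j _ => by ring
    rw [e1]
    refine (abs_add_le _ _).trans ?_
    have a1 := wb_cs hs hY (fun i l => M1 i l - C1 i l) M1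
    have a2 := wb_cs hs hY C1 (fun i l => M1 i l - C1 i l)
    calc _ ≤ _ := add_le_add a1 a2
      _ = _ := by ring
  have h2 := gq_touch hκ C1 C2 M1 M2
  rw [e]
  refine (abs_add_le _ _).trans (add_le_add ?_ ?_)
  · rw [abs_mul, abs_of_pos (gq_pos hκ _ _)]
    exact mul_le_mul_of_nonneg_left h1 (gq_pos hκ _ _).le
  · rw [abs_mul, abs_of_nonneg (wq_nonneg hY hC)]
    exact mul_le_mul_of_nonneg_left h2 (wq_nonneg hY hC)

end det

/-! ### functions -/

section fn

variable {ι : Type} [Fintype ι] {n : ℕ}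

lemma eg_ipf {A C : (ι → ℝ) → Fin n → Fin n → ℝ} (hA : ∀ i l, EG fun w => A w i l)
    (hC : ∀ i l, EG fun w => C w i l) : EG fun w => ipf (A w) (C w) :=
  EG.sum _ fun i _ => EG.sum _ fun j _ => (hA i j).mul (hC i j)

lemma meas_mq {A : (ι → ℝ) → Fin n → Fin n → ℝ} (hA : ∀ i l, EG fun w => A w i l) :
    Measurable fun w => mq (A w) := (eg_fro hA).meas.max measurable_const

lemma meas_aq {A C : (ι → ℝ) → Fin n → Fin n → ℝ} (hA : ∀ i l, EG fun w => A w i l)
    (hC : ∀ i l, EG fun w => C w i l) : Measurable fun w => aq (A w) (C w) :=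
  (eg_ipf hA hC).meas.div ((meas_mq hA).mul (meas_mq hC))

lemma eg_aq {A C : (ι → ℝ) → Fin n → Fin n → ℝ} (hA : ∀ i l, EG fun w => A w i l)
    (hC : ∀ i l, EG fun w => C w i l) : EG fun w => aq (A w) (C w) :=
  EG.of_bdd (meas_aq hA hC) fun w => abs_aq_le _ _

lemma eg_gq {κ : ℝ} (hκ : 0 < κ) {A C : (ι → ℝ) → Fin n → Fin n → ℝ}
    (hA : ∀ i l, EG fun w => A w i l) (hC : ∀ i l, EG fun w => C w i l) :
    EG fun w => gq κ (A w) (C w) := by
  refine EG.of_bdd (C := 1 / κ) ?_ fun w => ?_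
  · exact measurable_const.div ((measurable_const.sub (meas_aq hA hC)).add measurable_const)
  · rw [abs_of_pos (gq_pos hκ _ _)]
    exact gq_le hκ _ _

lemma eg_wq {Y M : (ι → ℝ) → Fin n → Fin n → ℝ} (hY : ∀ i l, EG fun w => Y w i l)
    (hM : ∀ i l, EG fun w => M w i l) : EG fun w => wq (Y w) (M w) :=
  EG.sum _ fun i _ => EG.sum _ fun j _ => (hY i j).mul
    (EG.sum _ fun l _ => (hM i l).mul (hM l j))

/-- The weight `tr (Y M1²) / (1 - a(M1, M2) + κ)`. -/
noncomputable def chq (κ : ℝ) (Y M1 M2 : (ι → ℝ) → Fin n → Fin n → ℝ) (w : ι → ℝ) : ℝ :=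
  wq (Y w) (M1 w) * gq κ (M1 w) (M2 w)

lemma eg_chq {κ : ℝ} (hκ : 0 < κ) {Y M1 M2 : (ι → ℝ) → Fin n → Fin n → ℝ}
    (hY : ∀ i l, EG fun w => Y w i l) (h1 : ∀ i l, EG fun w => M1 w i l)
    (h2 : ∀ i l, EG fun w => M2 w i l) : EG (chq κ Y M1 M2) :=
  (eg_wq hY h1).mul (eg_gq hκ h1 h2)

lemma chq_nonneg {κ : ℝ} (hκ : 0 < κ) {Y M1 M2 : (ι → ℝ) → Fin n → Fin n → ℝ} {w : ι → ℝ}
    (hY : ∀ v : Fin n → ℝ, 0 ≤ ∑ i, ∑ j, Y w i j * (v i * v j))
    (h1 : ∀ i l, M1 w i l = M1 w l i) : 0 ≤ chq κ Y M1 M2 w :=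
  mul_nonneg (wq_nonneg hY h1) (gq_pos hκ _ _).le

/-- the splitting of the difference of the weights -/
lemma chq_split (κ : ℝ) (Yb Y M1 M2 C1 C2 : (ι → ℝ) → Fin n → Fin n → ℝ) (w : ι → ℝ) :
    chq κ Yb M1 M2 w - chq κ Y C1 C2 w =
      (∑ i, ∑ j, (Yb w i j - Y w i j) * ∑ l, C1 w i l * C1 w l j) * gq κ (C1 w) (C2 w) +
        rhoq κ (Yb w) (M1 w) (M2 w) (C1 w) (C2 w) := by
  have e : ∑ i, ∑ j, (Yb w i j - Y w i j) * ∑ l, C1 w i l * C1 w l j =
      wq (Yb w) (C1 w) - wq (Y w) (C1 w) := by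
    unfold wq
    rw [← Finset.sum_sub_distrib]
    refine Finset.sum_congr rfl fun i _ => ?_
    rw [← Finset.sum_sub_distrib]
    exact Finset.sum_congr rfl fun j _ => by ring
  rw [e]
  unfold chq rhoq
  ring

lemma eg_rhoq {κ : ℝ} (hκ : 0 < κ) {Y M1 M2 C1 C2 : (ι → ℝ) → Fin n → Fin n → ℝ}
    (hY : ∀ i l, EG fun w => Y w i l) (h1 : ∀ i l, EG fun w => M1 w i l)
    (h2 : ∀ i l, EG fun w => M2 w i l) (h3 : ∀ i l, EG fun w => C1 w i l)
    (h4 : ∀ i l, EG fun w => C2 w i l) :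
    EG fun w => rhoq κ (Y w) (M1 w) (M2 w) (C1 w) (C2 w) :=
  ((eg_wq hY h1).mul (eg_gq hκ h1 h2)).sub ((eg_wq hY h3).mul (eg_gq hκ h3 h4))

end fn

section row

variable {n : ℕ} {b : Fin n} {κ : ℝ} {Y M1 M2 : MF n}

/-- matrices which do not depend on the row -/
lemma Ifz.eq {M : MF n} (h : Ifz b M) (z w : K4 (Pair n) → ℝ) :
    M (sw (lf (row b)) z w) = M z := funext fun i => funext fun l => h i l z w

lemma ind_chq (hY : Ifz b Y) (h1 : Ifz b M1) (h2 : Ifz b M2) :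
    Ind (lf (row b)) (chq κ Y M1 M2) := fun z w => by
  unfold chq
  rw [Ifz.eq hY, Ifz.eq h1, Ifz.eq h2]

/-- **The frozen weight as data of 706's law change.** -/
theorem fzn_chq (hκ : 0 < κ) (eY : ∀ i l, EG fun w => Y w i l) (e1 : ∀ i l, EG fun w => M1 w i l)
    (e2 : ∀ i l, EG fun w => M2 w i l) (hY : Ifz b Y) (h1 : Ifz b M1) (h2 : Ifz b M2)
    (hYp : ∀ w, ∀ v : Fin n → ℝ, 0 ≤ ∑ i, ∑ j, Y w i j * (v i * v j))
    (s1 : ∀ w i l, M1 w i l = M1 w l i) : Fzn b (chq κ Y M1 M2) M1 M2 where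
  eχ := eg_chq hκ eY e1 e2
  iχ := ind_chq hY h1 h2
  χ0 w := chq_nonneg hκ (hYp w) (s1 w)
  e1 := e1
  e2 := e2
  i1 := h1
  i2 := h2

lemma fr_chq (hY : Ifz b Y) (h1 : Ifz b M1) (h2 : Ifz b M2) : Fr b (chq κ Y M1 M2) :=
  Fr.of_ind (ind_chq hY h1 h2)

/-- frozen matrices from independence -/
lemma Frz.of_ifz {M : MF n} (e : ∀ i l, EG fun w => M w i l) (h : Ifz b M)
    (s : ∀ w i l, M w i l = M w l i) : Frz b M where
  eg := e
  fr i l := Fr.of_ind (h i l)
  sy := s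

end row

end Vale.Agent.P146.H350
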