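import Vale.Agent.P146.H350.F2Row
import Vale.Agent.P146.H191.F1Sum

/-!
Plan R2, row F2: **(F2*), one row, for a position system**: the exact single-site identity at two
positions `a1`, `a2` (times `s1`, `s2`) with frozen symmetric matrices `M1`, `M2` and a frozen
scalar weight `χ`. The terms with the Hessian at the first time cancel.
-/

open MeasureTheory ProbabilityTheory Finset

namespace Vale.Agent.P146.H350

open Vale.Agent.P157.Lv Vale.Agent.P146.H425 Vale.Agent.P146.H325 Vale.Agent.P146.H332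
  Vale.Agent.P146.H712 Vale.Agent.P146.R1 Vale.Agent.P146.R1C Vale.Agent.P146.H706
  Vale.Agent.P146.R1S Vale.Agent.P146.H191

set_option linter.unusedSectionVars false

variable {n : ℕ}

/-- matrix times vector -/
def mv (M : Fin n → Fin n → ℝ) (f : Fin n → ℝ) (i : Fin n) : ℝ := ∑ j, M i j * f j

/-- the scalar product -/
def dt (f g : Fin n → ℝ) : ℝ := ∑ i, f i * g i

/-- `tr (A B C Hᵀ)` -/
def t4 (A B C H : Fin n → Fin n → ℝ) : ℝ :=
  ∑ i, ∑ l, (∑ p, A i p * B p l) * ∑ j, C l j * H i j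

/-- a bilinear form -/
def bf (Z : Fin n → Fin n → ℝ) (f g : Fin n → ℝ) : ℝ := ∑ i, ∑ l, Z i l * (f i * g l)

lemma bf_mm (M N : Fin n → Fin n → ℝ) (hM : ∀ i l, M i l = M l i) (f g : Fin n → ℝ) :
    bf (fun i l => ∑ p, M i p * N p l) f g = dt (mv M f) (mv N g) := by
  unfold bf dt mv
  calc ∑ i, ∑ l, (∑ p, M i p * N p l) * (f i * g l)
      = ∑ i, ∑ l, ∑ p, (M p i * f i) * (N p l * g l) := by
        refine Finset.sum_congr rfl fun i _ => Finset.sum_congr rfl fun l _ => ?_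
        rw [Finset.sum_mul]
        exact Finset.sum_congr rfl fun p _ => by rw [hM p i]; ring
    _ = ∑ i, ∑ p, ∑ l, (M p i * f i) * (N p l * g l) :=
        Finset.sum_congr rfl fun i _ => Finset.sum_comm
    _ = ∑ p, ∑ i, ∑ l, (M p i * f i) * (N p l * g l) := Finset.sum_comm
    _ = ∑ p, (∑ j, M p j * f j) * ∑ j, N p j * g j := by
        refine Finset.sum_congr rfl fun p _ => ?_
        rw [Finset.sum_mul_sum]

lemma t4_eq (A B C H : Fin n → Fin n → ℝ) :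
    t4 A B C H = (Matrix.of A * Matrix.of B * Matrix.of C * (Matrix.of H).transpose).trace := by
  unfold t4
  simp only [Matrix.trace, Matrix.diag, Matrix.mul_apply, Matrix.of_apply, Matrix.transpose_apply]
  refine Finset.sum_congr rfl fun i _ => ?_
  simp only [Finset.mul_sum, Finset.sum_mul]
  rw [Finset.sum_comm]
  exact Finset.sum_congr rfl fun j _ => Finset.sum_congr rfl fun l _ =>
    Finset.sum_congr rfl fun p _ => by ring

lemma of_symm {A : Fin n → Fin n → ℝ} (h : ∀ i l, A i l = A l i) :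
    (Matrix.of A).transpose = Matrix.of A := by
  ext i j
  exact h j i

/-- reversal -/
lemma t4_rev {A B C H : Fin n → Fin n → ℝ} (hA : ∀ i l, A i l = A l i)
    (hB : ∀ i l, B i l = B l i) (hC : ∀ i l, C i l = C l i) (hH : ∀ i l, H i l = H l i) :
    t4 A B C H = t4 C B A H := by
  rw [t4_eq, t4_eq, of_symm hH, ← Matrix.trace_transpose, Matrix.transpose_mul,
    Matrix.transpose_mul, Matrix.transpose_mul, of_symm hA, of_symm hB, of_symm hC, of_symm hH,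
    Matrix.trace_mul_comm]
  simp only [Matrix.mul_assoc]

/-- the other contraction -/
lemma t4_alt {A B C H : Fin n → Fin n → ℝ} (hA : ∀ i l, A i l = A l i)
    (hB : ∀ i l, B i l = B l i) :
    ∑ i, ∑ l, (∑ p, A i p * B p l) * ∑ j, C i j * H l j = t4 B A C H := by
  unfold t4
  rw [Finset.sum_comm]
  refine Finset.sum_congr rfl fun i _ => Finset.sum_congr rfl fun l _ => ?_
  congr 1
  exact Finset.sum_congr rfl fun p _ => by rw [hA l p, hB p i]; ring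

lemma t4_cyc {A B : Fin n → Fin n → ℝ} (hA : ∀ i l, A i l = A l i)
    (hB : ∀ i l, B i l = B l i) : t4 B B A A = t4 A A B B ∧ t4 A B B A = t4 A A B B := by
  have eA := of_symm hA
  have eB := of_symm hB
  constructor
  · rw [t4_eq, t4_eq, eA, eB, Matrix.mul_assoc, Matrix.trace_mul_comm]
    simp only [Matrix.mul_assoc]
  · rw [t4_eq, t4_eq, eA, eB, Matrix.trace_mul_comm]
    simp only [Matrix.mul_assoc]

section sys

variable {k x : ℝ} {S : CS n k x} {s1 s2 β : ℝ} {a1 a2 : Fin 4 → ℝ} {b : Fin n}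
  {φ χ : (K4 (Pair n) → ℝ) → ℝ} {ψ' : K4 (Pair n) → (K4 (Pair n) → ℝ) → ℝ} {M1 M2 : MF n}

/-- the rest `N = U - (k/β) M y` as a vector -/
noncomputable def Nv (S : CS n k x) (s : ℝ) (a : Fin 4 → ℝ) (β : ℝ) (b : Fin n) (M : MF n)
    (w : K4 (Pair n) → ℝ) (i : Fin n) : ℝ := Nr a k b (fun w i l => M w i l / β) (Uz S s b) i w

/-- **The left side of (F2*)**, row `b`. -/
noncomputable def n2row (S : CS n k x) (s1 s2 β : ℝ) (a1 a2 : Fin 4 → ℝ)
    (ψ' : K4 (Pair n) → (K4 (Pair n) → ℝ) → ℝ) (b : Fin n) (χ : (K4 (Pair n) → ℝ) → ℝ)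
    (M1 M2 : MF n) (w : K4 (Pair n) → ℝ) : ℝ :=
  χ w * (dt (mv (M2 w) (Nv S s1 a1 β b M1 w)) (mv (M2 w) (Nv S s1 a1 β b M1 w)) +
    dt (mv (M1 w) (Nv S s2 a2 β b M2 w)) (mv (M1 w) (Nv S s2 a2 β b M2 w)) -
    2 * dt (mv (M1 w) (Nv S s1 a1 β b M1 w)) (mv (M2 w) (Nv S s2 a2 β b M2 w)) +
    k / β * (dt (mv (M2 w) (Nv S s1 a1 β b M1 w)) (mv (M2 w) (mv (M1 w) (dv a1 ψ' b w))) +
      dt (mv (M1 w) (Nv S s2 a2 β b M2 w)) (mv (M1 w) (mv (M2 w) (dv a2 ψ' b w))) -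
      2 * dt (mv (M1 w) (Nv S s1 a1 β b M1 w)) (mv (M2 w) (mv (M2 w) (dv a2 ψ' b w)))))

/-- **The right side of (F2*)**, row `b`. -/
noncomputable def m2row (S : CS n k x) (s1 s2 β : ℝ) (a1 a2 : Fin 4 → ℝ)
    (ψ' : K4 (Pair n) → (K4 (Pair n) → ℝ) → ℝ) (b : Fin n) (χ : (K4 (Pair n) → ℝ) → ℝ)
    (M1 M2 : MF n) (w : K4 (Pair n) → ℝ) : ℝ :=
  χ w * (dt (mv (M2 w) (Uv S s1 a1 b w)) (mv (M2 w) (Uv S s1 a1 b w)) +
    dt (mv (M1 w) (Uv S s2 a2 b w)) (mv (M1 w) (Uv S s2 a2 b w)) -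
    2 * dt (mv (M1 w) (Uv S s1 a1 b w)) (mv (M2 w) (Uv S s2 a2 b w)) -
    (vr a2 - vr a1) * (2 * (k ^ 2 / β) * t4 (M1 w) (M1 w) (M2 w) (S.H s2 b (H712.lp a2 w)) -
      k ^ 2 / β ^ 2 * t4 (M1 w) (M1 w) (M2 w) (M2 w)) -
    k / β * (dt (mv (M2 w) (Uv S s1 a1 b w)) (mv (M2 w) (mv (M1 w) (dv a1 ψ' b w))) +
      dt (mv (M1 w) (Uv S s2 a2 b w)) (mv (M1 w) (mv (M2 w) (dv a2 ψ' b w))) -
      2 * dt (mv (M1 w) (mv (M1 w) (dv a1 ψ' b w))) (mv (M2 w) (Uv S s2 a2 b w))))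

/-! ### pointwise evaluation -/

lemma qY_cm (hA : ∀ w i l, M1 w i l = M1 w l i) (f g : Fin n → (K4 (Pair n) → ℝ) → ℝ)
    (w : K4 (Pair n) → ℝ) :
    qY (cm χ (mm M1 M2)) f g w =
      χ w * dt (mv (M1 w) fun i => f i w) (mv (M2 w) fun i => g i w) := by
  rw [← bf_mm (M1 w) (M2 w) (hA w)]
  unfold qY cm mm bf
  rw [Finset.mul_sum]
  refine Finset.sum_congr rfl fun i _ => ?_
  rw [Finset.mul_sum]
  exact Finset.sum_congr rfl fun l _ => by ring

lemma LV_mv (a : Fin 4 → ℝ) (i : Fin n) (w : K4 (Pair n) → ℝ) :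
    LV a b ψ' (fun w i l => M1 w i l / β) i w = 1 / β * mv (M1 w) (dv a ψ' b w) i := by
  unfold LV mv dv
  rw [← sum_rw' (fun e => dr a ψ' e w) b fun j => M1 w i j, Finset.mul_sum]
  exact Finset.sum_congr rfl fun e _ => by ring

lemma mv_smul (M : Fin n → Fin n → ℝ) (c : ℝ) (f : Fin n → ℝ) :
    mv M (fun i => c * f i) = fun i => c * mv M f i := by
  funext i
  unfold mv
  rw [Finset.mul_sum]
  exact Finset.sum_congr rfl fun j _ => by ring

lemma dt_smul (c : ℝ) (f g : Fin n → ℝ) : dt f (fun i => c * g i) = c * dt f g := by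
  unfold dt
  rw [Finset.mul_sum]
  exact Finset.sum_congr rfl fun j _ => by ring

lemma dt_comm (f g : Fin n → ℝ) : dt f g = dt g f :=
  Finset.sum_congr rfl fun _ _ => mul_comm _ _

lemma tr_a (A B C : MF n) (H : Fin n → Fin n → ℝ) (hC : ∀ w i, C w i b = 0)
    (w : K4 (Pair n) → ℝ) :
    ∑ i, ∑ l, cm χ (mm A B) w i l * ∑ e ∈ row b, (C w l (oth b e) / β) * H i (oth b e) =
      χ w / β * t4 (A w) (B w) (C w) H := by
  have e1 : ∀ l i, ∑ e ∈ row b, (C w l (oth b e) / β) * H i (oth b e) =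
      ∑ j, (C w l j / β) * H i j := fun l i =>
    sum_row_all b (G := fun j => (C w l j / β) * H i j) (by simp only [hC, zero_div, zero_mul])
  unfold t4
  rw [Finset.mul_sum]
  refine Finset.sum_congr rfl fun i _ => ?_
  rw [Finset.mul_sum]
  refine Finset.sum_congr rfl fun l _ => ?_
  rw [e1]
  unfold cm mm
  have e2 : ∑ j, (C w l j / β) * H i j = 1 / β * ∑ j, C w l j * H i j := by
    rw [Finset.mul_sum]
    exact Finset.sum_congr rfl fun j _ => by ring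
  rw [e2]
  ring

lemma tr_b (A B C : MF n) (hA : ∀ w i l, A w i l = A w l i) (hB : ∀ w i l, B w i l = B w l i)
    (H : Fin n → Fin n → ℝ) (hC : ∀ w i, C w i b = 0) (w : K4 (Pair n) → ℝ) :
    ∑ i, ∑ l, cm χ (mm A B) w i l * ∑ e ∈ row b, (C w i (oth b e) / β) * H l (oth b e) =
      χ w / β * t4 (B w) (A w) (C w) H := by
  have e1 : ∀ l i, ∑ e ∈ row b, (C w i (oth b e) / β) * H l (oth b e) =
      ∑ j, (C w i j / β) * H l j := fun l i =>
    sum_row_all b (G := fun j => (C w i j / β) * H l j) (by simp only [hC, zero_div, zero_mul])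
  rw [← t4_alt (hA w) (hB w), Finset.mul_sum]
  refine Finset.sum_congr rfl fun i _ => ?_
  rw [Finset.mul_sum]
  refine Finset.sum_congr rfl fun l _ => ?_
  rw [e1]
  unfold cm mm
  have e2 : ∑ j, (C w i j / β) * H l j = 1 / β * ∑ j, C w i j * H l j := by
    rw [Finset.mul_sum]
    exact Finset.sum_congr rfl fun j _ => by ring
  rw [e2]
  ring

lemma tr_c (A B C D : MF n) (hC : ∀ w i, C w i b = 0) (w : K4 (Pair n) → ℝ) :
    ∑ i, ∑ l, cm χ (mm A B) w i l * ∑ e ∈ row b, (C w i (oth b e) / β) *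
      (D w l (oth b e) / β) = χ w / β ^ 2 * t4 (A w) (B w) (D w) (C w) := by
  have e1 : ∀ l i, ∑ e ∈ row b, (C w i (oth b e) / β) * (D w l (oth b e) / β) =
      ∑ j, (C w i j / β) * (D w l j / β) := fun l i =>
    sum_row_all b (G := fun j => (C w i j / β) * (D w l j / β))
      (by simp only [hC, zero_div, zero_mul])
  unfold t4
  rw [Finset.mul_sum]
  refine Finset.sum_congr rfl fun i _ => ?_
  rw [Finset.mul_sum]
  refine Finset.sum_congr rfl fun l _ => ?_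
  rw [e1]
  unfold cm mm
  have e2 : ∑ j, (C w i j / β) * (D w l j / β) = 1 / β ^ 2 * ∑ j, D w l j * C w i j := by
    rw [Finset.mul_sum]
    refine Finset.sum_congr rfl fun j _ => ?_
    rw [div_mul_div_comm, ← pow_two, div_eq_mul_one_div]
    ring
  rw [e2]
  ring

lemma Im_six (h : EG φ) {f1 f2 f3 g1 g2 g3 : (K4 (Pair n) → ℝ) → ℝ} (c : ℝ) (hf1 : EG f1)
    (hf2 : EG f2) (hf3 : EG f3) (hg1 : EG g1) (hg2 : EG g2) (hg3 : EG g3) :
    Im φ (fun w => f1 w + f2 w - 2 * f3 w + c * (g1 w + g2 w - 2 * g3 w)) =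
      Im φ f1 + Im φ f2 - 2 * Im φ f3 + c * (Im φ g1 + Im φ g2 - 2 * Im φ g3) := by
  rw [Im_add h ((hf1.add hf2).sub (hf3.const_mul 2)) (((hg1.add hg2).sub
    (hg3.const_mul 2)).const_mul c), Im_const_mul, Im_sub h (hf1.add hf2) (hf3.const_mul 2),
    Im_sub h (hg1.add hg2) (hg3.const_mul 2), Im_add h hf1 hf2, Im_add h hg1 hg2,
    Im_const_mul, Im_const_mul]

/-- **(F2*), row `b`.** -/
theorem f2_mrow (hs1 : 0 < s1) (hs2 : 0 < s2) (hc : cv a1 a2 = vr a1) (h : Den φ ψ')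
    (hχ : EG χ) (hχb : Fr b χ) (hM1 : Frz b M1) (hM2 : Frz b M2)
    (h1b : ∀ w i, M1 w i b = 0) (h2b : ∀ w i, M2 w i b = 0) :
    Im φ (n2row S s1 s2 β a1 a2 ψ' b χ M1 M2) = Im φ (m2row S s1 s2 β a1 a2 ψ' b χ M1 M2) := by
  have fM1 : Fz b M1 := Fz.of b hM1
  have fM2 : Fz b M2 := Fz.of b hM2
  have fL : ∀ {M : MF n}, Fz b M → Fz b (fun w i l => M w i l / β) := by
    intro M hM
    have e : ∀ i l, (fun w => M w i l / β) = fun w => 1 / β * M w i l := fun i l =>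
      funext fun w => by ring
    refine ⟨fun i l => ?_, fun i l => ?_⟩
    · show EG fun w => M w i l / β
      rw [e]
      exact (hM.eg i l).const_mul _
    · show Fr b fun w => M w i l / β
      rw [e]
      exact (hM.fr i l).const_mul _
  have fL1 := fL fM1
  have fL2 := fL fM2
  have fZ11 : Fz b (cm χ (mm M2 M2)) := Fz.cm hχ hχb (fM2.mm fM2)
  have fZ22 : Fz b (cm χ (mm M1 M1)) := Fz.cm hχ hχb (fM1.mm fM1)
  have fZ12 : Fz b (cm χ (mm M1 M2)) := Fz.cm hχ hχb (fM1.mm fM2)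
  have k11 := bil_row (a := a1) (a' := a1) (k := k) (U := Uz S s1 b) (U' := Uz S s1 b)
    (H := fun z i l => S.H s1 b z i l) (H' := fun z i l => S.H s1 b z i l) h fZ11 fL1 fL1
    (eg_Uz S s1 b) (eg_Uz S s1 b) (fun i l => S.eg_H hs1 b i l) (fun i l => S.eg_H hs1 b i l)
    (fun i e he => pd_Uz S hs1 b i he) (fun i e he => pd_Uz S hs1 b i he)
  have k22 := bil_row (a := a2) (a' := a2) (k := k) (U := Uz S s2 b) (U' := Uz S s2 b)
    (H := fun z i l => S.H s2 b z i l) (H' := fun z i l => S.H s2 b z i l) h fZ22 fL2 fL2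
    (eg_Uz S s2 b) (eg_Uz S s2 b) (fun i l => S.eg_H hs2 b i l) (fun i l => S.eg_H hs2 b i l)
    (fun i e he => pd_Uz S hs2 b i he) (fun i e he => pd_Uz S hs2 b i he)
  have k12 := bil_row (a := a1) (a' := a2) (k := k) (U := Uz S s1 b) (U' := Uz S s2 b)
    (H := fun z i l => S.H s1 b z i l) (H' := fun z i l => S.H s2 b z i l) h fZ12 fL1 fL2
    (eg_Uz S s1 b) (eg_Uz S s2 b) (fun i l => S.eg_H hs1 b i l) (fun i l => S.eg_H hs2 b i l)
    (fun i e he => pd_Uz S hs1 b i he) (fun i e he => pd_Uz S hs2 b i he)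
  -- the traces
  set τ : (K4 (Pair n) → ℝ) → ℝ := fun w =>
    χ w / β * t4 (M2 w) (M2 w) (M1 w) (S.H s1 b (H712.lp a1 w)) with hτ
  set T : (K4 (Pair n) → ℝ) → ℝ := fun w =>
    χ w / β * t4 (M1 w) (M1 w) (M2 w) (S.H s2 b (H712.lp a2 w)) with hT
  set R : (K4 (Pair n) → ℝ) → ℝ := fun w =>
    χ w / β ^ 2 * t4 (M1 w) (M1 w) (M2 w) (M2 w) with hR
  have sH1 : ∀ w i l, S.H s1 b (H712.lp a1 w) i l = S.H s1 b (H712.lp a1 w) l i := fun w i l =>
    S.H_comm s1 b _ i l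
  have sH2 : ∀ w i l, S.H s2 b (H712.lp a2 w) i l = S.H s2 b (H712.lp a2 w) l i := fun w i l =>
    S.H_comm s2 b _ i l
  have s1' := hM1.sy
  have s2' := hM2.sy
  have A11 : Im φ (fun w => ∑ i, ∑ l, cm χ (mm M2 M2) w i l *
      ∑ e ∈ row b, (M1 w l (oth b e) / β) * S.H s1 b (H712.lp a1 w) i (oth b e)) = Im φ τ :=
    Im_congr fun w => tr_a M2 M2 M1 _ h1b w
  have B11 : Im φ (fun w => ∑ i, ∑ l, cm χ (mm M2 M2) w i l *
      ∑ e ∈ row b, (M1 w i (oth b e) / β) * S.H s1 b (H712.lp a1 w) l (oth b e)) = Im φ τ :=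
    Im_congr fun w => tr_b M2 M2 M1 s2' s2' _ h1b w
  have C11 : Im φ (fun w => ∑ i, ∑ l, cm χ (mm M2 M2) w i l *
      ∑ e ∈ row b, (M1 w i (oth b e) / β) * (M1 w l (oth b e) / β)) = Im φ R :=
    Im_congr fun w => by
      rw [tr_c M2 M2 M1 M1 h1b w, (t4_cyc (s1' w) (s2' w)).1]
  have A22 : Im φ (fun w => ∑ i, ∑ l, cm χ (mm M1 M1) w i l *
      ∑ e ∈ row b, (M2 w l (oth b e) / β) * S.H s2 b (H712.lp a2 w) i (oth b e)) = Im φ T :=
    Im_congr fun w => tr_a M1 M1 M2 _ h2b w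
  have B22 : Im φ (fun w => ∑ i, ∑ l, cm χ (mm M1 M1) w i l *
      ∑ e ∈ row b, (M2 w i (oth b e) / β) * S.H s2 b (H712.lp a2 w) l (oth b e)) = Im φ T :=
    Im_congr fun w => tr_b M1 M1 M2 s1' s1' _ h2b w
  have C22 : Im φ (fun w => ∑ i, ∑ l, cm χ (mm M1 M1) w i l *
      ∑ e ∈ row b, (M2 w i (oth b e) / β) * (M2 w l (oth b e) / β)) = Im φ R :=
    Im_congr fun w => tr_c M1 M1 M2 M2 h2b w
  have A12 : Im φ (fun w => ∑ i, ∑ l, cm χ (mm M1 M2) w i l *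
      ∑ e ∈ row b, (M2 w l (oth b e) / β) * S.H s1 b (H712.lp a1 w) i (oth b e)) = Im φ τ :=
    Im_congr fun w => (tr_a M1 M2 M2 (S.H s1 b (H712.lp a1 w)) h2b w).trans (by
      rw [t4_rev (s1' w) (s2' w) (s2' w) (sH1 w)])
  have B12 : Im φ (fun w => ∑ i, ∑ l, cm χ (mm M1 M2) w i l *
      ∑ e ∈ row b, (M1 w i (oth b e) / β) * S.H s2 b (H712.lp a2 w) l (oth b e)) = Im φ T :=
    Im_congr fun w => (tr_b M1 M2 M1 s1' s2' (S.H s2 b (H712.lp a2 w)) h1b w).trans (by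
      rw [t4_rev (s2' w) (s1' w) (s1' w) (sH2 w)])
  have C12 : Im φ (fun w => ∑ i, ∑ l, cm χ (mm M1 M2) w i l *
      ∑ e ∈ row b, (M1 w i (oth b e) / β) * (M2 w l (oth b e) / β)) = Im φ R :=
    Im_congr fun w => by
      rw [tr_c M1 M2 M1 M2 h1b w, (t4_cyc (s1' w) (s2' w)).2]
  rw [A11, B11, C11] at k11
  rw [A22, B22, C22] at k22
  rw [A12, B12, C12] at k12
  rw [cv_self] at k11 k22
  rw [hc] at k12
  -- exponential growth
  have eU1 : ∀ i, EG fun w : K4 (Pair n) → ℝ => Uz S s1 b i (H712.lp a1 w) := fun i =>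
    eg_lp a1 (eg_Uz S s1 b i)
  have eU2 : ∀ i, EG fun w : K4 (Pair n) → ℝ => Uz S s2 b i (H712.lp a2 w) := fun i =>
    eg_lp a2 (eg_Uz S s2 b i)
  have eN1 : ∀ i, EG (Nr a1 k b (fun w i l => M1 w i l / β) (Uz S s1 b) i) := fun i =>
    (eU1 i).sub ((eg_Ly fL1.eg i).const_mul _)
  have eN2 : ∀ i, EG (Nr a2 k b (fun w i l => M2 w i l / β) (Uz S s2 b) i) := fun i =>
    (eU2 i).sub ((eg_Ly fL2.eg i).const_mul _)
  have eV1 : ∀ i, EG (LV a1 b ψ' (fun w i l => M1 w i l / β) i) := fun i => eg_LV h fL1.eg i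
  have eV2 : ∀ i, EG (LV a2 b ψ' (fun w i l => M2 w i l / β) i) := fun i => eg_LV h fL2.eg i
  have eH2 : ∀ i l, EG fun w : K4 (Pair n) → ℝ => S.H s2 b (H712.lp a2 w) i l := fun i l =>
    eg_lp a2 (S.eg_H hs2 b i l)
  have eT : EG T := by
    have e : T = fun w => 1 / β * (χ w * ∑ i, ∑ l, (∑ p, M1 w i p * M1 w p l) *
        ∑ j, M2 w l j * S.H s2 b (H712.lp a2 w) i j) := by
      funext w
      simp only [hT, t4]
      ring
    rw [e]
    exact (hχ.mul (EG.sum _ fun i _ => EG.sum _ fun l _ =>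
      (EG.sum _ fun p _ => (hM1.eg i p).mul (hM1.eg p l)).mul
        (EG.sum _ fun j _ => (hM2.eg l j).mul (eH2 i j)))).const_mul _
  have eR : EG R := by
    have e : R = fun w => 1 / β ^ 2 * (χ w * ∑ i, ∑ l, (∑ p, M1 w i p * M1 w p l) *
        ∑ j, M2 w l j * M2 w i j) := by
      funext w
      simp only [hR, t4]
      ring
    rw [e]
    exact (hχ.mul (EG.sum _ fun i _ => EG.sum _ fun l _ =>
      (EG.sum _ fun p _ => (hM1.eg i p).mul (hM1.eg p l)).mul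
        (EG.sum _ fun j _ => (hM2.eg l j).mul (hM2.eg i j)))).const_mul _
  have dLV1 : ∀ (w : K4 (Pair n) → ℝ), (fun i => LV a1 b ψ' (fun w i l => M1 w i l / β) i w) =
      fun i => 1 / β * mv (M1 w) (dv a1 ψ' b w) i := fun w => funext fun i =>
    LV_mv a1 i w
  have dLV2 : ∀ (w : K4 (Pair n) → ℝ), (fun i => LV a2 b ψ' (fun w i l => M2 w i l / β) i w) =
      fun i => 1 / β * mv (M2 w) (dv a2 ψ' b w) i := fun w => funext fun i =>
    LV_mv (M1 := M2) a2 i w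
  -- the left side
  have hl : Im φ (n2row S s1 s2 β a1 a2 ψ' b χ M1 M2) =
      Im φ (qY (cm χ (mm M2 M2)) (Nr a1 k b (fun w i l => M1 w i l / β) (Uz S s1 b))
        (Nr a1 k b (fun w i l => M1 w i l / β) (Uz S s1 b))) +
      Im φ (qY (cm χ (mm M1 M1)) (Nr a2 k b (fun w i l => M2 w i l / β) (Uz S s2 b))
        (Nr a2 k b (fun w i l => M2 w i l / β) (Uz S s2 b))) -
      2 * Im φ (qY (cm χ (mm M1 M2)) (Nr a1 k b (fun w i l => M1 w i l / β) (Uz S s1 b))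
        (Nr a2 k b (fun w i l => M2 w i l / β) (Uz S s2 b))) +
      k * (Im φ (qY (cm χ (mm M2 M2)) (Nr a1 k b (fun w i l => M1 w i l / β) (Uz S s1 b))
          (LV a1 b ψ' (fun w i l => M1 w i l / β))) +
        Im φ (qY (cm χ (mm M1 M1)) (Nr a2 k b (fun w i l => M2 w i l / β) (Uz S s2 b))
          (LV a2 b ψ' (fun w i l => M2 w i l / β))) -
        2 * Im φ (qY (cm χ (mm M1 M2)) (Nr a1 k b (fun w i l => M1 w i l / β) (Uz S s1 b))
          (LV a2 b ψ' (fun w i l => M2 w i l / β)))) := by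
    rw [← Im_six h.eg k (eg_qY fZ11.eg eN1 eN1) (eg_qY fZ22.eg eN2 eN2) (eg_qY fZ12.eg eN1 eN2)
      (eg_qY fZ11.eg eN1 eV1) (eg_qY fZ22.eg eN2 eV2) (eg_qY fZ12.eg eN1 eV2)]
    refine Im_congr fun w => ?_
    rw [qY_cm s2', qY_cm s1', qY_cm s1', qY_cm s2', qY_cm s1', qY_cm s1', dLV1 w, dLV2 w]
    simp only [mv_smul, dt_smul]
    unfold n2row Nv
    ring
  -- the right side
  have hr : Im φ (m2row S s1 s2 β a1 a2 ψ' b χ M1 M2) =
      (Im φ (qY (cm χ (mm M2 M2)) (fun i w => Uz S s1 b i (H712.lp a1 w))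
        (fun i w => Uz S s1 b i (H712.lp a1 w))) +
      Im φ (qY (cm χ (mm M1 M1)) (fun i w => Uz S s2 b i (H712.lp a2 w))
        (fun i w => Uz S s2 b i (H712.lp a2 w))) -
      2 * Im φ (qY (cm χ (mm M1 M2)) (fun i w => Uz S s1 b i (H712.lp a1 w))
        (fun i w => Uz S s2 b i (H712.lp a2 w))) +
      (-k) * (Im φ (qY (cm χ (mm M2 M2)) (LV a1 b ψ' (fun w i l => M1 w i l / β))
          (fun i w => Uz S s1 b i (H712.lp a1 w))) +
        Im φ (qY (cm χ (mm M1 M1)) (LV a2 b ψ' (fun w i l => M2 w i l / β))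
          (fun i w => Uz S s2 b i (H712.lp a2 w))) -
        2 * Im φ (qY (cm χ (mm M1 M2)) (LV a1 b ψ' (fun w i l => M1 w i l / β))
          (fun i w => Uz S s2 b i (H712.lp a2 w))))) -
      (vr a2 - vr a1) * (2 * k ^ 2) * Im φ T + (vr a2 - vr a1) * k ^ 2 * Im φ R := by
    have g1 := eg_qY fZ11.eg eU1 eU1
    have g2 := eg_qY fZ22.eg eU2 eU2
    have g3 := eg_qY fZ12.eg eU1 eU2
    have g4 := eg_qY fZ11.eg eV1 eU1
    have g5 := eg_qY fZ22.eg eV2 eU2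
    have g6 := eg_qY fZ12.eg eV1 eU2
    rw [← Im_six h.eg (-k) g1 g2 g3 g4 g5 g6, ← Im_const_mul, ← Im_const_mul,
      ← Im_sub h.eg (((g1.add g2).sub (g3.const_mul 2)).add (((g4.add g5).sub
        (g6.const_mul 2)).const_mul (-k))) (eT.const_mul _),
      ← Im_add h.eg ((((g1.add g2).sub (g3.const_mul 2)).add (((g4.add g5).sub
        (g6.const_mul 2)).const_mul (-k))).sub (eT.const_mul _)) (eR.const_mul _)]
    refine Im_congr fun w => ?_
    rw [qY_cm s2', qY_cm s1', qY_cm s1', qY_cm s2', qY_cm s1', qY_cm s1', dLV1 w, dLV2 w]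
    simp only [mv_smul]
    rw [dt_comm (fun i => 1 / β * mv (M2 w) (mv (M1 w) (dv a1 ψ' b w)) i),
      dt_comm (fun i => 1 / β * mv (M1 w) (mv (M2 w) (dv a2 ψ' b w)) i),
      dt_comm (fun i => 1 / β * mv (M1 w) (mv (M1 w) (dv a1 ψ' b w)) i)]
    simp only [dt_smul]
    rw [dt_comm _ (mv (M1 w) (mv (M1 w) (dv a1 ψ' b w)))]
    unfold m2row Uv
    simp only [hT, hR]
    ring
  rw [hl, hr]
  linear_combination k11 + k22 - 2 * k12

end sys

end Vale.Agent.P146.H350
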