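import Vale.Agent.P146.H191.F1S

/-!
Plan R2, row F2: **the bilinear row identity at two positions** (same site, two times) under a law
with a general smooth density, and the exact single-site form (F2*) of the two-time identity.

For frozen matrices `Z`, `L1`, `L2` (which do not see the row `b`) and the rests
`N_i = U_i - k L_i y_i`:
`E <N1, Z N2> + k E <N1, Z L2 d2> = E <U1, Z U2> - k² s12 (E tr (Z L2 H1) + E tr (L1 Z H2)
  - E tr (L1 Z L2)) - k E <L1 d1, Z U2>`.
-/

open MeasureTheory ProbabilityTheory Finset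

namespace Vale.Agent.P146.H350

open Vale.Agent.P157.Lv Vale.Agent.P146.H425 Vale.Agent.P146.H325 Vale.Agent.P146.H332
  Vale.Agent.P146.H712 Vale.Agent.P146.R1 Vale.Agent.P146.R1C Vale.Agent.P146.H706
  Vale.Agent.P146.R1S Vale.Agent.P146.H191

set_option linter.unusedSectionVars false

/-- The covariance of two linear positions. -/
def cv (a c : Fin 4 → ℝ) : ℝ := a 0 * c 0 + a 1 * c 1 + a 2 * c 2 + a 3 * c 3

lemma cv_comm (a c : Fin 4 → ℝ) : cv a c = cv c a := by unfold cv; ring

lemma cv_self (a : Fin 4 → ℝ) : cv a a = vr a := by unfold cv vr; ring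

section gen

variable {κ : Type} [Fintype κ] [DecidableEq κ] {φ : (K4 κ → ℝ) → ℝ}
  {ψ' : K4 κ → (K4 κ → ℝ) → ℝ}

/-- **Integration by parts under the law with the density `φ`, two positions.** -/
theorem ibp2 (h : Den φ ψ') (a a' : Fin 4 → ℝ) {e : κ} {c : (K4 κ → ℝ) → ℝ}
    {f f' : (κ → ℝ) → ℝ} (hc : EG c) (hci : ∀ j : K4 κ, bs j = e → PD j c (fun _ => 0))
    (hf : EG f) (hf' : EG f') (hd : PD e f f') :
    Im φ (fun w => c w * (lp a w e * f (lp a' w))) =
      Im φ (fun w => c w * (cv a a' * f' (lp a' w) + f (lp a' w) * dr a ψ' e w)) := by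
  have ef : EG fun w => f (lp a' w) := eg_lp _ hf
  have ef' : EG fun w => f' (lp a' w) := eg_lp _ hf'
  have one : ∀ j : K4 κ, bs j = e →
      Im φ (fun w => w j * (c w * f (lp a' w))) =
        Im φ (fun w => c w * (a' (bl j) * f' (lp a' w)) + c w * f (lp a' w) * ψ' j w) := by
    intro j hj
    have hdj : PD j (fun w => c w * f (lp a' w))
        (fun w => c w * (a' (bl j) * f' (lp a' w))) := by
      have h1 : PD (bs j) f f' := by rw [hj]; exact hd
      refine ((hci j hj).mul (pd_lp a' h1)).congr fun w => ?_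
      ring
    exact h.ibp_j hdj (hc.mul ef) (hc.mul (ef'.const_mul _))
  have eg1 : ∀ j : K4 κ, EG fun w : K4 κ → ℝ => w j * (c w * f (lp a' w)) := fun j =>
    (EG.coord j).mul (hc.mul ef)
  have eg2 : ∀ j : K4 κ, EG fun w => c w * (a' (bl j) * f' (lp a' w)) +
      c w * f (lp a' w) * ψ' j w := fun j =>
    (hc.mul (ef'.const_mul _)).add ((hc.mul ef).mul (h.eg' j))
  have o0 := one (Sum.inl e) rfl
  have o1 := one (Sum.inr (Sum.inl e)) rfl
  have o2 := one (Sum.inr (Sum.inr (Sum.inl e))) rfl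
  have o3 := one (Sum.inr (Sum.inr (Sum.inr e))) rfl
  have hL : Im φ (fun w => c w * (lp a w e * f (lp a' w))) =
      a 0 * Im φ (fun w => w (Sum.inl e) * (c w * f (lp a' w))) +
      a 1 * Im φ (fun w => w (Sum.inr (Sum.inl e)) * (c w * f (lp a' w))) +
      a 2 * Im φ (fun w => w (Sum.inr (Sum.inr (Sum.inl e))) * (c w * f (lp a' w))) +
      a 3 * Im φ (fun w => w (Sum.inr (Sum.inr (Sum.inr e))) * (c w * f (lp a' w))) := by
    rw [← Im_const_mul, ← Im_const_mul, ← Im_const_mul, ← Im_const_mul,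
      ← Im_add h.eg ((eg1 _).const_mul _) ((eg1 _).const_mul _),
      ← Im_add h.eg (((eg1 _).const_mul _).add ((eg1 _).const_mul _)) ((eg1 _).const_mul _),
      ← Im_add h.eg ((((eg1 _).const_mul _).add ((eg1 _).const_mul _)).add
        ((eg1 _).const_mul _)) ((eg1 _).const_mul _)]
    refine Im_congr fun w => ?_
    simp only [H712.lp]
    ring
  rw [hL, o0, o1, o2, o3, ← Im_const_mul, ← Im_const_mul, ← Im_const_mul, ← Im_const_mul,
      ← Im_add h.eg ((eg2 _).const_mul _) ((eg2 _).const_mul _),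
      ← Im_add h.eg (((eg2 _).const_mul _).add ((eg2 _).const_mul _)) ((eg2 _).const_mul _),
      ← Im_add h.eg ((((eg2 _).const_mul _).add ((eg2 _).const_mul _)).add
        ((eg2 _).const_mul _)) ((eg2 _).const_mul _)]
  refine Im_congr fun w => ?_
  simp only [dr, cv, bl]
  ring

end gen

variable {n : ℕ}

/-- A matrix, of exponential growth, which does not see the row `b` (no symmetry). -/
structure Fz (b : Fin n) (Z : MF n) : Prop where
  eg : ∀ i l, EG fun w => Z w i l
  fr : ∀ i l, Fr b fun w => Z w i l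

lemma Fz.of (b : Fin n) {Z : MF n} (h : Frz b Z) : Fz b Z := ⟨h.eg, h.fr⟩

/-- the transposed matrix -/
def tp (Z : MF n) : MF n := fun w i l => Z w l i

lemma Fz.tp {b : Fin n} {Z : MF n} (h : Fz b Z) : Fz b (tp Z) :=
  ⟨fun i l => h.eg l i, fun i l => h.fr l i⟩

lemma qY_tp (Z : MF n) (f g : Fin n → (K4 (Pair n) → ℝ) → ℝ) (w : K4 (Pair n) → ℝ) :
    qY (tp Z) f g w = qY Z g f w := by
  unfold qY tp
  rw [Finset.sum_comm]
  exact Finset.sum_congr rfl fun i _ => Finset.sum_congr rfl fun l _ => by ring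

/-- the product of two matrices -/
def mm (M N : MF n) : MF n := fun w i l => ∑ j, M w i j * N w j l

lemma Fz.mm {b : Fin n} {M N : MF n} (hM : Fz b M) (hN : Fz b N) : Fz b (mm M N) :=
  ⟨fun i l => EG.sum _ fun j _ => (hM.eg i j).mul (hN.eg j l),
    fun i l => Fr.sum _ fun j _ => (hM.fr i j).mul (hN.fr j l)⟩

/-- a scalar times a matrix -/
def cm (χ : (K4 (Pair n) → ℝ) → ℝ) (M : MF n) : MF n := fun w i l => χ w * M w i l

lemma Fz.cm {b : Fin n} {χ : (K4 (Pair n) → ℝ) → ℝ} {M : MF n} (hχ : EG χ) (hf : Fr b χ)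
    (hM : Fz b M) : Fz b (cm χ M) :=
  ⟨fun i l => hχ.mul (hM.eg i l), fun i l => hf.mul (hM.fr i l)⟩

section row

variable {a a' : Fin 4 → ℝ} {k : ℝ} {b : Fin n} {φ : (K4 (Pair n) → ℝ) → ℝ}
  {ψ' : K4 (Pair n) → (K4 (Pair n) → ℝ) → ℝ} {Z L L' : MF n}

/-- **the mixed term**: `E <U, Z L' y'> = s k E tr (Z L' H) + E <U, Z L' d'>` -/
theorem mix2 (h : Den φ ψ') (hZ : Fz b Z) (hL : Fz b L') {U : Fin n → (Pair n → ℝ) → ℝ}
    {H : (Pair n → ℝ) → Fin n → Fin n → ℝ} (hU : ∀ i, EG (U i)) (hH : ∀ i l, EG fun z => H z i l)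
    (hd : ∀ i, ∀ e ∈ row b, PD e (U i) (fun z => k * H z i (oth b e))) :
    Im φ (qY Z (fun i w => U i (H712.lp a w)) (Ly a' b L')) =
      k * cv a a' * Im φ (fun w => ∑ i, ∑ l, Z w i l *
        ∑ e ∈ row b, L' w l (oth b e) * H (H712.lp a w) i (oth b e)) +
      Im φ (qY Z (fun i w => U i (H712.lp a w)) (LV a' b ψ' L')) := by
  have eU : ∀ i, EG fun w : K4 (Pair n) → ℝ => U i (H712.lp a w) := fun i => eg_lp a (hU i)
  have eH : ∀ i l, EG fun w : K4 (Pair n) → ℝ => H (H712.lp a w) i l := fun i l =>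
    eg_lp a (hH i l)
  have one : ∀ i l, ∀ e ∈ row b,
      Im φ (fun w => (Z w i l * L' w l (oth b e)) * (H712.lp a' w e * U i (H712.lp a w))) =
        Im φ (fun w => (Z w i l * L' w l (oth b e)) *
          (cv a' a * (k * H (H712.lp a w) i (oth b e)) +
          U i (H712.lp a w) * dr a' ψ' e w)) := fun i l e he =>
    ibp2 h a' a (c := fun w => Z w i l * L' w l (oth b e)) (f := U i)
      (f' := fun z => k * H z i (oth b e)) ((hZ.eg i l).mul (hL.eg _ _))
      (fun j hj => ((hZ.fr i l).mul (hL.fr l (oth b e))) j (by rw [hj]; exact he)) (hU i)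
      ((hH i (oth b e)).const_mul k) (hd i e he)
  have e1 : ∀ i l e, EG fun w => (Z w i l * L' w l (oth b e)) *
      (H712.lp a' w e * U i (H712.lp a w)) := fun i l e =>
    ((hZ.eg i l).mul (hL.eg _ _)).mul ((eg_lp a' (EG.coord e)).mul (eU i))
  have e2 : ∀ i l e, EG fun w => (Z w i l * L' w l (oth b e)) *
      (cv a' a * (k * H (H712.lp a w) i (oth b e)) + U i (H712.lp a w) * dr a' ψ' e w) :=
    fun i l e => ((hZ.eg i l).mul (hL.eg _ _)).mul
      ((((eH i _).const_mul k).const_mul _).add ((eU i).mul (h.eg_dr a' e)))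
  have e3 : EG fun w => ∑ i, ∑ l, Z w i l *
      ∑ e ∈ row b, L' w l (oth b e) * H (H712.lp a w) i (oth b e) :=
    EG.sum _ fun i _ => EG.sum _ fun l _ => (hZ.eg i l).mul
      (EG.sum _ fun e _ => (hL.eg _ _).mul (eH _ _))
  have e4 : EG (qY Z (fun i w => U i (H712.lp a w)) (LV a' b ψ' L')) :=
    eg_qY hZ.eg eU fun i => eg_LV h hL.eg i
  calc Im φ (qY Z (fun i w => U i (H712.lp a w)) (Ly a' b L'))
      = Im φ (fun w => ∑ i, ∑ l, ∑ e ∈ row b, (Z w i l * L' w l (oth b e)) *
          (H712.lp a' w e * U i (H712.lp a w))) := by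
        refine Im_congr fun w => ?_
        unfold qY Ly
        refine Finset.sum_congr rfl fun i _ => Finset.sum_congr rfl fun l _ => ?_
        rw [Finset.mul_sum, Finset.mul_sum]
        exact Finset.sum_congr rfl fun e _ => by ring
    _ = ∑ i, ∑ l, ∑ e ∈ row b, Im φ (fun w => (Z w i l * L' w l (oth b e)) *
          (H712.lp a' w e * U i (H712.lp a w))) := by
        rw [Im_sum h.eg _ fun i _ => EG.sum _ fun l _ => EG.sum _ fun e _ => e1 i l e]
        refine Finset.sum_congr rfl fun i _ => ?_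
        rw [Im_sum h.eg _ fun l _ => EG.sum _ fun e _ => e1 i l e]
        refine Finset.sum_congr rfl fun l _ => ?_
        exact Im_sum h.eg _ fun e _ => e1 i l e
    _ = ∑ i, ∑ l, ∑ e ∈ row b, Im φ (fun w => (Z w i l * L' w l (oth b e)) *
          (cv a' a * (k * H (H712.lp a w) i (oth b e)) +
            U i (H712.lp a w) * dr a' ψ' e w)) :=
        Finset.sum_congr rfl fun i _ => Finset.sum_congr rfl fun l _ =>
          Finset.sum_congr rfl fun e he => one i l e he
    _ = Im φ (fun w => ∑ i, ∑ l, ∑ e ∈ row b, (Z w i l * L' w l (oth b e)) *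
          (cv a' a * (k * H (H712.lp a w) i (oth b e)) +
            U i (H712.lp a w) * dr a' ψ' e w)) := by
        rw [Im_sum h.eg _ fun i _ => EG.sum _ fun l _ => EG.sum _ fun e _ => e2 i l e]
        refine Finset.sum_congr rfl fun i _ => ?_
        rw [Im_sum h.eg _ fun l _ => EG.sum _ fun e _ => e2 i l e]
        refine Finset.sum_congr rfl fun l _ => ?_
        exact (Im_sum h.eg _ fun e _ => e2 i l e).symm
    _ = Im φ (fun w => k * cv a a' * (∑ i, ∑ l, Z w i l *
          ∑ e ∈ row b, L' w l (oth b e) * H (H712.lp a w) i (oth b e)) +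
          qY Z (fun i w => U i (H712.lp a w)) (LV a' b ψ' L') w) := by
        refine Im_congr fun w => ?_
        unfold qY LV
        rw [Finset.mul_sum, ← Finset.sum_add_distrib]
        refine Finset.sum_congr rfl fun i _ => ?_
        rw [Finset.mul_sum, ← Finset.sum_add_distrib]
        refine Finset.sum_congr rfl fun l _ => ?_
        rw [Finset.mul_sum, Finset.mul_sum, Finset.mul_sum, Finset.mul_sum,
          ← Finset.sum_add_distrib]
        exact Finset.sum_congr rfl fun e _ => by rw [cv_comm a' a]; ring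
    _ = _ := by rw [Im_add h.eg (e3.const_mul _) e4, Im_const_mul]

/-- **the quadratic term**: `E <L y, Z L' y'> = s E tr (L Z L') + E <L y, Z L' d'>` -/
theorem quad2 (h : Den φ ψ') (hZ : Fz b Z) (hL : Fz b L) (hL' : Fz b L') :
    Im φ (qY Z (Ly a b L) (Ly a' b L')) =
      cv a a' * Im φ (fun w => ∑ i, ∑ l, Z w i l *
        ∑ e ∈ row b, L w i (oth b e) * L' w l (oth b e)) +
      Im φ (qY Z (Ly a b L) (LV a' b ψ' L')) := by
  have ec : ∀ e : Pair n, EG fun w : K4 (Pair n) → ℝ => H712.lp a w e := fun e =>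
    eg_lp a (EG.coord e)
  have ec' : ∀ e : Pair n, EG fun w : K4 (Pair n) → ℝ => H712.lp a' w e := fun e =>
    eg_lp a' (EG.coord e)
  have one : ∀ i l, ∀ e ∈ row b, ∀ e' ∈ row b,
      Im φ (fun w => (Z w i l * L' w l (oth b e) * L w i (oth b e')) *
        (H712.lp a' w e * H712.lp a w e')) =
      Im φ (fun w => (Z w i l * L' w l (oth b e) * L w i (oth b e')) *
        (cv a' a * (if e' = e then 1 else 0) + H712.lp a w e' * dr a' ψ' e w)) :=
    fun i l e he e' _ =>
    ibp2 h a' a (c := fun w => Z w i l * L' w l (oth b e) * L w i (oth b e'))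
      (f := fun z => z e') (f' := fun _ => if e' = e then 1 else 0)
      (((hZ.eg i l).mul (hL'.eg _ _)).mul (hL.eg _ _))
      (fun j hj => (((hZ.fr i l).mul (hL'.fr l (oth b e))).mul (hL.fr i (oth b e'))) j
        (by rw [hj]; exact he)) (EG.coord e') (EG.const _) (PD.coord e')
  have e1 : ∀ i l e e', EG fun w => (Z w i l * L' w l (oth b e) * L w i (oth b e')) *
      (H712.lp a' w e * H712.lp a w e') := fun i l e e' =>
    (((hZ.eg i l).mul (hL'.eg _ _)).mul (hL.eg _ _)).mul ((ec' e).mul (ec e'))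
  have e2 : ∀ i l e e', EG fun w => (Z w i l * L' w l (oth b e) * L w i (oth b e')) *
      (cv a' a * (if e' = e then 1 else 0) + H712.lp a w e' * dr a' ψ' e w) := fun i l e e' =>
    (((hZ.eg i l).mul (hL'.eg _ _)).mul (hL.eg _ _)).mul
      ((EG.const _).add ((ec e').mul (h.eg_dr a' e)))
  have e3 : EG fun w => ∑ i, ∑ l, Z w i l *
      ∑ e ∈ row b, L w i (oth b e) * L' w l (oth b e) :=
    EG.sum _ fun i _ => EG.sum _ fun l _ => (hZ.eg i l).mul
      (EG.sum _ fun e _ => (hL.eg _ _).mul (hL'.eg _ _))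
  have e4 : EG (qY Z (Ly a b L) (LV a' b ψ' L')) :=
    eg_qY hZ.eg (fun i => eg_Ly hL.eg i) fun i => eg_LV h hL'.eg i
  calc Im φ (qY Z (Ly a b L) (Ly a' b L'))
      = Im φ (fun w => ∑ i, ∑ l, ∑ e ∈ row b, ∑ e' ∈ row b,
          (Z w i l * L' w l (oth b e) * L w i (oth b e')) *
            (H712.lp a' w e * H712.lp a w e')) := by
        refine Im_congr fun w => ?_
        unfold qY Ly
        refine Finset.sum_congr rfl fun i _ => Finset.sum_congr rfl fun l _ => ?_
        rw [mul_comm (∑ e ∈ row b, L w i (oth b e) * H712.lp a w e), Finset.sum_mul_sum,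
          Finset.mul_sum]
        refine Finset.sum_congr rfl fun e _ => ?_
        rw [Finset.mul_sum]
        exact Finset.sum_congr rfl fun e' _ => by ring
    _ = ∑ i, ∑ l, ∑ e ∈ row b, ∑ e' ∈ row b,
          Im φ (fun w => (Z w i l * L' w l (oth b e) * L w i (oth b e')) *
            (H712.lp a' w e * H712.lp a w e')) := by
        rw [Im_sum h.eg _ fun i _ => EG.sum _ fun l _ => EG.sum _ fun e _ =>
          EG.sum _ fun e' _ => e1 i l e e']
        refine Finset.sum_congr rfl fun i _ => ?_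
        rw [Im_sum h.eg _ fun l _ => EG.sum _ fun e _ => EG.sum _ fun e' _ => e1 i l e e']
        refine Finset.sum_congr rfl fun l _ => ?_
        rw [Im_sum h.eg _ fun e _ => EG.sum _ fun e' _ => e1 i l e e']
        refine Finset.sum_congr rfl fun e _ => ?_
        exact Im_sum h.eg _ fun e' _ => e1 i l e e'
    _ = ∑ i, ∑ l, ∑ e ∈ row b, ∑ e' ∈ row b,
          Im φ (fun w => (Z w i l * L' w l (oth b e) * L w i (oth b e')) *
            (cv a' a * (if e' = e then 1 else 0) + H712.lp a w e' * dr a' ψ' e w)) :=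
        Finset.sum_congr rfl fun i _ => Finset.sum_congr rfl fun l _ =>
          Finset.sum_congr rfl fun e he => Finset.sum_congr rfl fun e' he' =>
            one i l e he e' he'
    _ = Im φ (fun w => ∑ i, ∑ l, ∑ e ∈ row b, ∑ e' ∈ row b,
          (Z w i l * L' w l (oth b e) * L w i (oth b e')) *
            (cv a' a * (if e' = e then 1 else 0) + H712.lp a w e' * dr a' ψ' e w)) := by
        rw [Im_sum h.eg _ fun i _ => EG.sum _ fun l _ => EG.sum _ fun e _ =>
          EG.sum _ fun e' _ => e2 i l e e']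
        refine Finset.sum_congr rfl fun i _ => ?_
        rw [Im_sum h.eg _ fun l _ => EG.sum _ fun e _ => EG.sum _ fun e' _ => e2 i l e e']
        refine Finset.sum_congr rfl fun l _ => ?_
        rw [Im_sum h.eg _ fun e _ => EG.sum _ fun e' _ => e2 i l e e']
        refine Finset.sum_congr rfl fun e _ => ?_
        exact (Im_sum h.eg _ fun e' _ => e2 i l e e').symm
    _ = Im φ (fun w => cv a a' * (∑ i, ∑ l, Z w i l *
          ∑ e ∈ row b, L w i (oth b e) * L' w l (oth b e)) +
          qY Z (Ly a b L) (LV a' b ψ' L') w) := by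
        refine Im_congr fun w => ?_
        unfold qY LV Ly
        rw [Finset.mul_sum, ← Finset.sum_add_distrib]
        refine Finset.sum_congr rfl fun i _ => ?_
        rw [Finset.mul_sum, ← Finset.sum_add_distrib]
        refine Finset.sum_congr rfl fun l _ => ?_
        rw [mul_comm (∑ e ∈ row b, L w i (oth b e) * H712.lp a w e), Finset.sum_mul_sum,
          Finset.mul_sum, Finset.mul_sum, Finset.mul_sum, ← Finset.sum_add_distrib]
        refine Finset.sum_congr rfl fun e he => ?_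
        have e5 : ∑ e' ∈ row b, (Z w i l * L' w l (oth b e) * L w i (oth b e')) *
            (cv a' a * (if e' = e then 1 else 0)) =
            cv a a' * (Z w i l * (L w i (oth b e) * L' w l (oth b e))) := by
          rw [Finset.sum_eq_single e]
          · simp only [if_true]
            rw [cv_comm a' a]
            ring
          · intro e' _ hne
            rw [if_neg hne]
            ring
          · intro hn
            exact absurd he hn
        rw [← e5, Finset.mul_sum, ← Finset.sum_add_distrib]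
        exact Finset.sum_congr rfl fun e' _ => by ring
    _ = _ := by rw [Im_add h.eg (e3.const_mul _) e4, Im_const_mul]

/-- **The bilinear row identity.** -/
theorem bil_row (h : Den φ ψ') (hZ : Fz b Z) (hL : Fz b L) (hL' : Fz b L')
    {U U' : Fin n → (Pair n → ℝ) → ℝ} {H H' : (Pair n → ℝ) → Fin n → Fin n → ℝ}
    (hU : ∀ i, EG (U i)) (hU' : ∀ i, EG (U' i))
    (hH : ∀ i l, EG fun z => H z i l) (hH' : ∀ i l, EG fun z => H' z i l)
    (hd : ∀ i, ∀ e ∈ row b, PD e (U i) (fun z => k * H z i (oth b e)))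
    (hd' : ∀ i, ∀ e ∈ row b, PD e (U' i) (fun z => k * H' z i (oth b e))) :
    Im φ (qY Z (Nr a k b L U) (Nr a' k b L' U')) +
      k * Im φ (qY Z (Nr a k b L U) (LV a' b ψ' L')) =
      Im φ (qY Z (fun i w => U i (H712.lp a w)) fun i w => U' i (H712.lp a' w)) -
      k ^ 2 * cv a a' * Im φ (fun w => ∑ i, ∑ l, Z w i l *
        ∑ e ∈ row b, L' w l (oth b e) * H (H712.lp a w) i (oth b e)) -
      k ^ 2 * cv a a' * Im φ (fun w => ∑ i, ∑ l, Z w i l *
        ∑ e ∈ row b, L w i (oth b e) * H' (H712.lp a' w) l (oth b e)) +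
      k ^ 2 * cv a a' * Im φ (fun w => ∑ i, ∑ l, Z w i l *
        ∑ e ∈ row b, L w i (oth b e) * L' w l (oth b e)) -
      k * Im φ (qY Z (LV a b ψ' L) fun i w => U' i (H712.lp a' w)) := by
  have hm := mix2 (a := a) (a' := a') h hZ hL' hU hH hd
  have hm' := mix2 (a := a') (a' := a) h hZ.tp hL hU' hH' hd'
  have hq := quad2 (a := a) (a' := a') h hZ hL hL'
  have eU : ∀ i, EG fun w : K4 (Pair n) → ℝ => U i (H712.lp a w) := fun i => eg_lp a (hU i)
  have eU' : ∀ i, EG fun w : K4 (Pair n) → ℝ => U' i (H712.lp a' w) := fun i =>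
    eg_lp a' (hU' i)
  have eL : ∀ i, EG (Ly a b L i) := fun i => eg_Ly hL.eg i
  have eL' : ∀ i, EG (Ly a' b L' i) := fun i => eg_Ly hL'.eg i
  have eV' : ∀ i, EG (LV a' b ψ' L' i) := fun i => eg_LV h hL'.eg i
  have g1 := eg_qY hZ.eg eU eU'
  have g2 := eg_qY hZ.eg eU eL'
  have g2' := eg_qY hZ.eg eL eU'
  have g3 := eg_qY hZ.eg eL eL'
  have g4 := eg_qY hZ.eg eU eV'
  have g5 := eg_qY hZ.eg eL eV'
  have h1 : Im φ (qY Z (Nr a k b L U) (Nr a' k b L' U')) =
      Im φ (qY Z (fun i w => U i (H712.lp a w)) fun i w => U' i (H712.lp a' w)) -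
      k * Im φ (qY Z (fun i w => U i (H712.lp a w)) (Ly a' b L')) -
      k * Im φ (qY Z (Ly a b L) fun i w => U' i (H712.lp a' w)) +
      k ^ 2 * Im φ (qY Z (Ly a b L) (Ly a' b L')) := by
    rw [← Im_const_mul, ← Im_const_mul, ← Im_const_mul, ← Im_sub h.eg g1 (g2.const_mul _),
      ← Im_sub h.eg (g1.sub (g2.const_mul _)) (g2'.const_mul _),
      ← Im_add h.eg ((g1.sub (g2.const_mul _)).sub (g2'.const_mul _)) (g3.const_mul _)]
    refine Im_congr fun w => ?_
    unfold qY Nr
    simp only [Finset.mul_sum, ← Finset.sum_sub_distrib, ← Finset.sum_add_distrib]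
    exact Finset.sum_congr rfl fun i _ => Finset.sum_congr rfl fun l _ => by ring
  have h2 : Im φ (qY Z (Nr a k b L U) (LV a' b ψ' L')) =
      Im φ (qY Z (fun i w => U i (H712.lp a w)) (LV a' b ψ' L')) -
      k * Im φ (qY Z (Ly a b L) (LV a' b ψ' L')) := by
    rw [← Im_const_mul, ← Im_sub h.eg g4 (g5.const_mul _)]
    refine Im_congr fun w => ?_
    unfold qY Nr
    simp only [Finset.mul_sum, ← Finset.sum_sub_distrib]
    exact Finset.sum_congr rfl fun i _ => Finset.sum_congr rfl fun l _ => by ring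
  have t1 : Im φ (qY (tp Z) (fun i w => U' i (H712.lp a' w)) (Ly a b L)) =
      Im φ (qY Z (Ly a b L) fun i w => U' i (H712.lp a' w)) :=
    Im_congr fun w => qY_tp Z _ _ w
  have t2 : Im φ (qY (tp Z) (fun i w => U' i (H712.lp a' w)) (LV a b ψ' L)) =
      Im φ (qY Z (LV a b ψ' L) fun i w => U' i (H712.lp a' w)) :=
    Im_congr fun w => qY_tp Z _ _ w
  have t3 : Im φ (fun w => ∑ i, ∑ l, tp Z w i l *
        ∑ e ∈ row b, L w l (oth b e) * H' (H712.lp a' w) i (oth b e)) =
      Im φ (fun w => ∑ i, ∑ l, Z w i l *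
        ∑ e ∈ row b, L w i (oth b e) * H' (H712.lp a' w) l (oth b e)) := by
    refine Im_congr fun w => ?_
    rw [Finset.sum_comm]
    rfl
  rw [t1, t2, t3, cv_comm a' a] at hm'
  rw [h1, h2, hm, hm', hq]
  ring

end row

end Vale.Agent.P146.H350
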