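import Vale.Agent.P146.H350.Tch4
import Vale.Agent.P146.H191.FYF

/-! P146, R2, row F1Y: the touch number `QL` of `L` in the form `Y` (Y not frozen). -/

set_option linter.all false

open MeasureTheory ProbabilityTheory Finset

namespace Vale.Agent.P146.H350

open Vale.Agent.P157.Lv Vale.Agent.P146.H425 Vale.Agent.P146.H325 Vale.Agent.P146.H332
  Vale.Agent.P146.H712 Vale.Agent.P146.R1 Vale.Agent.P146.R1C Vale.Agent.P146.H706
  Vale.Agent.P146.R1S Vale.Agent.P146.H191

section fib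

variable {ι : Type} [Fintype ι] [DecidableEq ι] {R : Finset ι} {Ψ : (ι → ℝ) → ℝ}
  {Ψ' : ι → (ι → ℝ) → ℝ} {l : ℝ}

/-- `∫ e^Ψ χ (Av f)² ≤ (8/7) ∫ e^Ψ χ f²` -/
theorem LF.mean_sq (h : LF R Ψ Ψ' l) (hl : 16 * l ^ 2 ≤ 1) {f χ : (ι → ℝ) → ℝ} (hf : EG f)
    (hχ : EG χ) (iχ : Ind R χ) (h0 : ∀ z, 0 ≤ χ z) :
    ∫ z, Real.exp (Ψ z) * (χ z * Av R f z ^ 2) ∂(gI ι) ≤
      8 / 7 * ∫ z, Real.exp (Ψ z) * (χ z * f z ^ 2) ∂(gI ι) := by
  have e1 := h.en
  have i1 : EG fun z => Real.exp (Ψ z) * (χ z * Av R f z ^ 2) :=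
    e1.mul (hχ.mul ((eg_Av R hf).pow 2))
  have i2 : EG fun z => Real.exp (Ψ z) * (χ z * f z ^ 2) := e1.mul (hχ.mul (hf.pow 2))
  rw [← integral_Av R i1, ← integral_Av R i2, ← integral_const_mul]
  refine integral_mono (eg_Av R i1).integrable ((eg_Av R i2).integrable.const_mul _) fun z => ?_
  show Av R (fun z => Real.exp (Ψ z) * (χ z * Av R f z ^ 2)) z ≤
    8 / 7 * Av R (fun z => Real.exp (Ψ z) * (χ z * f z ^ 2)) z
  have a1 : Av R (fun z => Real.exp (Ψ z) * (χ z * Av R f z ^ 2)) z =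
      χ z * Av R (fun z => Real.exp (Ψ z) * Av R f z ^ 2) z := by
    rw [← Av_mul iχ]
    congr 1; funext z; ring
  have a2 : Av R (fun z => Real.exp (Ψ z) * (χ z * f z ^ 2)) z =
      χ z * Av R (fun z => Real.exp (Ψ z) * f z ^ 2) z := by
    rw [← Av_mul iχ]
    congr 1; funext z; ring
  have a3 : Av R (fun z => Real.exp (Ψ z) * Av R f z ^ 2) z =
      Av R f z ^ 2 * Av R (fun z => Real.exp (Ψ z)) z := by
    rw [← Av_mul (φ := fun z => Av R f z ^ 2) (fun z w => by simp only; rw [ind_Av R f z w])]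
    congr 1; funext z; ring
  rw [a1, a2, a3]
  have h1 := LG.mean_sq (h.lg z) hl (H706.eg_sw hf R z)
  have h2 : Av R f z ^ 2 * Av R (fun z => Real.exp (Ψ z)) z ≤
      8 / 7 * Av R (fun z => Real.exp (Ψ z) * f z ^ 2) z := h1
  have := mul_le_mul_of_nonneg_left h2 (h0 z)
  linarith

end fib

section det

variable {n : ℕ}

lemma tq_eq_bM (Y M : Fin n → Fin n → ℝ) : tq Y M = bM Y M M := by
  unfold tq bM bY
  rw [sum_comm (s := (univ : Finset (Fin n)))]
  have h1 : ∀ j : Fin n, ∑ i, Y i j * ∑ l, M i l * M j l = ∑ l, ∑ i, Y i j * (M i l * M j l) := by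
    intro j
    rw [sum_comm]
    exact sum_congr rfl fun i _ => mul_sum _ _ _
  simp only [h1]
  rw [sum_comm]
  refine sum_congr rfl fun l _ => ?_
  rw [sum_comm]

/-- `|tr (D M M')| ≤ |D| |M|²` -/
lemma abs_tq_le (D M : Fin n → Fin n → ℝ) : |tq D M| ≤ fro D * fro M ^ 2 := by
  have h1 : |tq D M| ≤ fro D * fro (fun i j => ∑ l, M i l * M j l) :=
    cs_fro D fun i j => ∑ l, M i l * M j l
  have h2 : fro (fun i j => ∑ l, M i l * M j l) ≤ fro M * fro fun l j => M j l :=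
    fro_mul M fun l j => M j l
  have h3 : fro (fun l j => M j l) = fro M := by
    unfold fro
    rw [sum_comm]
  rw [h3, ← pow_two] at h2
  exact h1.trans (mul_le_mul_of_nonneg_left h2 (fro_nonneg D))

lemma tq_sub (Y D M : Fin n → Fin n → ℝ) :
    tq (fun i j => Y i j - D i j) M = tq Y M - tq D M := by
  unfold tq
  simp only [sub_mul, sum_sub_distrib]

lemma bY_add_le {Y : Fin n → Fin n → ℝ} (hY : Pf Y) (u v : Fin n → ℝ) :
    bY Y (fun i => u i + v i) (fun i => u i + v i) ≤ 2 * bY Y u u + 2 * bY Y v v := by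
  have h1 := hY.bY_nonneg fun i => u i - v i
  have h2 : bY Y (fun i => u i + v i) (fun i => u i + v i) +
      bY Y (fun i => u i - v i) (fun i => u i - v i) = 2 * bY Y u u + 2 * bY Y v v := by
    unfold bY
    rw [← sum_add_distrib, mul_sum, mul_sum, ← sum_add_distrib]
    refine sum_congr rfl fun i _ => ?_
    rw [← sum_add_distrib, mul_sum, mul_sum, ← sum_add_distrib]
    exact sum_congr rfl fun j _ => by ring
  linarith

lemma bY_single (Y : Fin n → Fin n → ℝ) (b : Fin n) (c : ℝ) :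
    bY Y (fun i => if i = b then c else 0) (fun i => if i = b then c else 0) = Y b b * c ^ 2 := by
  unfold bY
  simp only [mul_ite, ite_mul, mul_zero, zero_mul, sum_ite_eq', mem_univ, if_true]
  ring

lemma abs_bY_le (D : Fin n → Fin n → ℝ) (u : Fin n → ℝ) :
    |bY D u u| ≤ fro D * ∑ i, u i ^ 2 := by
  have h := cs_fro D fun i l => u i * u l
  rw [fro_outer, ← pow_two, ven_sq] at h
  exact h

lemma abs_diag_le (D : Fin n → Fin n → ℝ) (b : Fin n) : |D b b| ≤ fro D := by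
  unfold fro
  refine Real.abs_le_sqrt ?_
  have h1 : D b b ^ 2 ≤ ∑ j, D b j ^ 2 :=
    single_le_sum (f := fun j => D b j ^ 2) (fun j _ => sq_nonneg _) (mem_univ b)
  have h2 : ∑ j, D b j ^ 2 ≤ ∑ i, ∑ j, D i j ^ 2 :=
    single_le_sum (f := fun i => ∑ j, D i j ^ 2) (fun i _ => sum_nonneg fun j _ => sq_nonneg _)
      (mem_univ b)
  exact h1.trans h2

end det

section cs

variable {n : ℕ} {k x : ℝ} {b : Fin n} {Ψ : (K4 (Pair n) → ℝ) → ℝ}
  {Ψ' : K4 (Pair n) → (K4 (Pair n) → ℝ) → ℝ} {l : ℝ} {φ χ : (K4 (Pair n) → ℝ) → ℝ}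
  {S : CS n k x} {s : ℝ} {a : Fin 4 → ℝ}

/-- `C - Cb` against `C - Av C` in a psd form -/
lemma tq_sub_Cb' {Y : Fin n → Fin n → ℝ} (hY : Pf Y) (w : K4 (Pair n) → ℝ) :
    tq Y (fun i l => S.A s (H712.lp a w) i l - H364.Cb S s a b w i l) ≤
      2 * tq Y (fun i l => S.A s (H712.lp a w) i l -
        Av (lf (row b)) (fun w => S.A s (H712.lp a w) i l) w) +
      (bY Y (fun i => S.A s (H712.lp a w) i b) (fun i => S.A s (H712.lp a w) i b) +
      2 * (Y b b * ∑ l, Av (lf (row b)) (fun w => S.A s (H712.lp a w) b l) w ^ 2)) := by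
  rw [tq_eq_bM, tq_eq_bM]
  unfold bM
  have hb : 0 ≤ Y b b := by
    have := hY.bY_nonneg fun i => if i = b then 1 else 0
    rw [bY_single] at this
    simpa using this
  have h1 : ∀ l, bY Y (fun i => S.A s (H712.lp a w) i l - H364.Cb S s a b w i l)
      (fun i => S.A s (H712.lp a w) i l - H364.Cb S s a b w i l) ≤
      2 * bY Y (fun i => S.A s (H712.lp a w) i l -
        Av (lf (row b)) (fun w => S.A s (H712.lp a w) i l) w) (fun i => S.A s (H712.lp a w) i l -
        Av (lf (row b)) (fun w => S.A s (H712.lp a w) i l) w) +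
      ((if l = b then bY Y (fun i => S.A s (H712.lp a w) i b)
        (fun i => S.A s (H712.lp a w) i b) else 0) +
        2 * (Y b b * Av (lf (row b)) (fun w => S.A s (H712.lp a w) b l) w ^ 2)) := by
    intro l
    have q0 := hY.bY_nonneg fun i => S.A s (H712.lp a w) i l -
        Av (lf (row b)) (fun w => S.A s (H712.lp a w) i l) w
    have q1 : 0 ≤ Y b b * Av (lf (row b)) (fun w => S.A s (H712.lp a w) b l) w ^ 2 :=
      mul_nonneg hb (sq_nonneg _)
    by_cases hl' : l = b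
    · subst hl'
      rw [if_pos rfl]
      have e : (fun i => S.A s (H712.lp a w) i l - H364.Cb S s a l w i l) =
          fun i => S.A s (H712.lp a w) i l := by
        funext i
        rw [sub_Cb, if_pos (Or.inr rfl)]
      rw [e]
      linarith
    · rw [if_neg hl']
      have e : (fun i => S.A s (H712.lp a w) i l - H364.Cb S s a b w i l) =
          fun i => (S.A s (H712.lp a w) i l -
            Av (lf (row b)) (fun w => S.A s (H712.lp a w) i l) w) +
            if i = b then Av (lf (row b)) (fun w => S.A s (H712.lp a w) b l) w else 0 := by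
        funext i
        rw [sub_Cb]
        by_cases hi : i = b
        · subst hi
          rw [if_pos (Or.inl rfl), if_pos rfl]; ring
        · rw [if_neg (by tauto), if_neg hi]; ring
      rw [e]
      have h2 := bY_add_le hY (fun i => S.A s (H712.lp a w) i l -
            Av (lf (row b)) (fun w => S.A s (H712.lp a w) i l) w)
            (fun i => if i = b then Av (lf (row b)) (fun w => S.A s (H712.lp a w) b l) w else 0)
      rw [bY_single] at h2
      linarith
  refine (sum_le_sum fun l _ => h1 l).trans (le_of_eq ?_)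
  rw [sum_add_distrib, sum_add_distrib, ← mul_sum, ← mul_sum, ← mul_sum]
  simp only [sum_ite_eq', mem_univ, if_true]

/-- the row energy -/
noncomputable def Xr (S : CS n k x) (s : ℝ) (a : Fin 4 → ℝ) (b : Fin n)
    (w : K4 (Pair n) → ℝ) : ℝ := ∑ e ∈ row b, fr (S.DA s e (H712.lp a w))

lemma eg_Xr : EG (Xr S s a b) :=
  EG.sum _ fun e _ => EG.sum _ fun i _ => EG.sum _ fun j _ => (eg_lp a (S.eg_DA s e i j)).pow 2

lemma Xr_nonneg (w : K4 (Pair n) → ℝ) : 0 ≤ Xr S s a b w :=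
  sum_nonneg fun e _ => H332.fr_nonneg _

/-- fourth moment of the touch of `C` -/
theorem tch4_A (h : LF (lf (row b)) Ψ Ψ' l) (hl : 16 * l ^ 2 ≤ 1)
    (hφ : ∀ w, φ w = Real.exp (Ψ w)) (hχ : EG χ) (iχ : Ind (lf (row b)) χ) (h0 : ∀ w, 0 ≤ χ w) :
    Im φ (fun w => χ w * (∑ i, ∑ l, (S.A s (H712.lp a w) i l -
      Av (lf (row b)) (fun w => S.A s (H712.lp a w) i l) w) ^ 2) ^ 2) ≤
      5200 * vr a ^ 2 * Im φ (fun w => χ w * Xr S s a b w ^ 2) := by
  have eφ : φ = fun w => Real.exp (Ψ w) := funext hφ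
  subst eφ
  have h1 := LF.tch4 h hl (q := Fin n × Fin n) (f := fun p w => S.A s (H712.lp a w) p.1 p.2)
    (f' := fun p j w => a (bl j) * S.DA s (bs j) (H712.lp a w) p.1 p.2)
    (fun p => eg_lp a (S.eg_A s p.1 p.2)) (fun p j _ => pd_lp a (S.pd_A s (bs j) p.1 p.2))
    (fun p j _ => (eg_lp a (S.eg_DA s (bs j) p.1 p.2)).const_mul _) hχ iχ h0
  simp only [Fintype.sum_prod_type] at h1
  refine h1.trans (le_of_eq ?_)
  unfold Im
  rw [mul_assoc, ← integral_const_mul (vr a ^ 2)]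
  congr 1
  refine integral_congr_ae (ae_of_all _ fun w => ?_)
  simp only
  have e2 := sum_lf_sq a (row b) (fun e => fr (S.DA s e (H712.lp a w)))
  have e3 : ∑ j ∈ lf (row b), ∑ i, ∑ l, (a (bl j) * S.DA s (bs j) (H712.lp a w) i l) ^ 2 =
      ∑ j ∈ lf (row b), a (bl j) ^ 2 * fr (S.DA s (bs j) (H712.lp a w)) := by
    refine sum_congr rfl fun j _ => ?_
    unfold fr
    simp only [mul_sum, mul_pow]
  rw [e3, e2]
  unfold Xr
  ring

/-- `|A·b|² ≤ |A|` -/
lemma col_le (b : Fin n) (w : K4 (Pair n) → ℝ) :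
    ∑ i, S.A s (H712.lp a w) i b ^ 2 ≤ fro (S.A s (H712.lp a w)) := by
  have h1 := (pf_A S s (H712.lp a w)).mulVec_sq (C := S.A s (H712.lp a w)) (fun v => le_rfl)
    (fun i => if i = b then 1 else 0)
  have h2 : bY (S.A s (H712.lp a w)) (fun i => if i = b then 1 else 0)
      (fun i => if i = b then 1 else 0) = 1 := by
    have := bY_single (S.A s (H712.lp a w)) b 1
    rw [S.A_self] at this
    rw [this]; norm_num
  have e : ∀ j, ∑ i, S.A s (H712.lp a w) i j * (if i = b then (1 : ℝ) else 0) =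
      S.A s (H712.lp a w) j b := fun j => by
    simp only [mul_ite, mul_one, mul_zero, sum_ite_eq', mem_univ, if_true]
    exact S.A_comm s _ b j
  have h3 : ∑ j, (∑ i, S.A s (H712.lp a w) i j * (if i = b then (1 : ℝ) else 0)) ^ 2 =
      ∑ i, S.A s (H712.lp a w) i b ^ 2 := sum_congr rfl fun j _ => by rw [e j]
  rw [← h3]
  refine h1.trans (le_of_eq ?_)
  rw [h2, mul_one]

/-- the fourth powers of the columns -/
lemma col4_le (w : K4 (Pair n) → ℝ) :
    ∑ b, (∑ i, S.A s (H712.lp a w) i b ^ 2) ^ 2 ≤ fro (S.A s (H712.lp a w)) ^ 3 := by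
  have h1 : ∀ b, (∑ i, S.A s (H712.lp a w) i b ^ 2) ^ 2 ≤
      fro (S.A s (H712.lp a w)) * ∑ i, S.A s (H712.lp a w) i b ^ 2 := fun b => by
    rw [pow_two (∑ i, S.A s (H712.lp a w) i b ^ 2)]
    exact mul_le_mul_of_nonneg_right (col_le b w) (sum_nonneg fun i _ => sq_nonneg _)
  refine (sum_le_sum fun b _ => h1 b).trans (le_of_eq ?_)
  have e : ∑ i, ∑ j, S.A s (H712.lp a w) i j ^ 2 = fro (S.A s (H712.lp a w)) ^ 2 :=
    (fro_sq _).symm
  rw [← mul_sum, sum_comm, e]
  ring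

/-- **the fourth moment of `C - Cb` in the true law** -/
theorem tch4_Cb (h : LF (lf (row b)) Ψ Ψ' l) (hl : 16 * l ^ 2 ≤ 1)
    (hφ : ∀ w, φ w = Real.exp (Ψ w)) (hχ : EG χ) (iχ : Ind (lf (row b)) χ) (h0 : ∀ w, 0 ≤ χ w) :
    Im φ (fun w => χ w * (∑ i, ∑ l, (S.A s (H712.lp a w) i l - H364.Cb S s a b w i l) ^ 2) ^ 2) ≤
      10400 * vr a ^ 2 * Im φ (fun w => χ w * Xr S s a b w ^ 2) +
      8 * Im φ (fun w => χ w * (∑ i, S.A s (H712.lp a w) i b ^ 2) ^ 2) := by
  have eφ : φ = fun w => Real.exp (Ψ w) := funext hφ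
  have e1 : EG φ := by rw [eφ]; exact h.en
  have p0 : ∀ w, 0 ≤ φ w := fun w => by rw [hφ]; exact (Real.exp_pos _).le
  have eA : ∀ i l, EG fun w : K4 (Pair n) → ℝ => S.A s (H712.lp a w) i l := fun i l =>
    eg_lp a (S.eg_A s i l)
  have ed : EG fun w => ∑ i, ∑ l, (S.A s (H712.lp a w) i l -
      Av (lf (row b)) (fun w => S.A s (H712.lp a w) i l) w) ^ 2 :=
    EG.sum _ fun i _ => EG.sum _ fun l _ => ((eA i l).sub (eg_Av _ (eA i l))).pow 2
  have ec : EG fun w => ∑ i, ∑ l, (S.A s (H712.lp a w) i l - H364.Cb S s a b w i l) ^ 2 :=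
    EG.sum _ fun i _ => EG.sum _ fun l _ => ((eA i l).sub (H364.eg_Cb i l)).pow 2
  have eu : EG fun w => ∑ i, S.A s (H712.lp a w) i b ^ 2 := EG.sum _ fun i _ => (eA i b).pow 2
  have h1 := tch4_A (a := a) (S := S) (s := s) h hl hφ hχ iχ h0
  have h2 : Im φ (fun w => χ w * (∑ i, ∑ l, (S.A s (H712.lp a w) i l -
      H364.Cb S s a b w i l) ^ 2) ^ 2) ≤
      2 * Im φ (fun w => χ w * (∑ i, ∑ l, (S.A s (H712.lp a w) i l -
        Av (lf (row b)) (fun w => S.A s (H712.lp a w) i l) w) ^ 2) ^ 2) +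
      8 * Im φ (fun w => χ w * (∑ i, S.A s (H712.lp a w) i b ^ 2) ^ 2) := by
    rw [← Im_const_mul, ← Im_const_mul, ← Im_add e1 ((hχ.mul (ed.pow 2)).const_mul _)
      ((hχ.mul (eu.pow 2)).const_mul _)]
    refine Im_mono p0 e1 (hχ.mul (ec.pow 2)) (((hχ.mul (ed.pow 2)).const_mul _).add
      ((hχ.mul (eu.pow 2)).const_mul _)) fun w => ?_
    have a1 := fr_sub_Cb (S := S) (s := s) (a := a) (b := b) w
    have a0 : 0 ≤ ∑ i, ∑ l, (S.A s (H712.lp a w) i l - H364.Cb S s a b w i l) ^ 2 :=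
      sum_nonneg fun i _ => sum_nonneg fun l _ => sq_nonneg _
    set X := ∑ i, ∑ l, (S.A s (H712.lp a w) i l - H364.Cb S s a b w i l) ^ 2
    set D := ∑ i, ∑ l, (S.A s (H712.lp a w) i l -
        Av (lf (row b)) (fun w => S.A s (H712.lp a w) i l) w) ^ 2
    set U := ∑ i, S.A s (H712.lp a w) i b ^ 2
    have a2 : X ^ 2 ≤ (D + 2 * U) ^ 2 := pow_le_pow_left₀ a0 a1 2
    have a3 : (D + 2 * U) ^ 2 ≤ 2 * D ^ 2 + 8 * U ^ 2 := by nlinarith [sq_nonneg (D - 2 * U)]
    have a4 := mul_le_mul_of_nonneg_left (a2.trans a3) (h0 w)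
    linarith
  linarith

/-- **the touch in a row-frozen psd form, with the column** -/
theorem tch_Cb2 (h : LF (lf (row b)) Ψ Ψ' l) (hl : 16 * l ^ 2 ≤ 1)
    (hφ : ∀ w, φ w = Real.exp (Ψ w)) {Y : MF n} (hYe : ∀ i j, EG fun w => Y w i j)
    (hYi : Ifz b Y) (hY : ∀ w, Pf (Y w)) :
    Im φ (fun w => tq (Y w) fun i l => S.A s (H712.lp a w) i l - H364.Cb S s a b w i l) ≤
      18 * vr a * Im φ (fun w => ∑ e ∈ row b, tq (Y w) (S.DA s e (H712.lp a w))) +
      (Im φ (fun w => bY (Y w) (fun i => S.A s (H712.lp a w) i b)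
        fun i => S.A s (H712.lp a w) i b) +
      16 / 7 * Im φ (fun w => Y w b b * ∑ i, S.A s (H712.lp a w) i b ^ 2)) := by
  have eφ : φ = fun w => Real.exp (Ψ w) := funext hφ
  have e1 : EG φ := by rw [eφ]; exact h.en
  have p0 : ∀ w, 0 ≤ φ w := fun w => by rw [hφ]; exact (Real.exp_pos _).le
  have eA : ∀ i l, EG fun w : K4 (Pair n) → ℝ => S.A s (H712.lp a w) i l := fun i l =>
    eg_lp a (S.eg_A s i l)
  have ed : ∀ i l, EG fun w => S.A s (H712.lp a w) i l -
      Av (lf (row b)) (fun w => S.A s (H712.lp a w) i l) w := fun i l =>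
    (eA i l).sub (eg_Av _ (eA i l))
  have ec : ∀ i l, EG fun w => S.A s (H712.lp a w) i l - H364.Cb S s a b w i l := fun i l =>
    (eA i l).sub (H364.eg_Cb i l)
  have h1 := tch_AY (a := a) (S := S) (s := s) h hl hφ hYe hYi (fun w i j => (hY w).sy i j)
    (fun w v => by
      have := (hY w).ps v
      refine this.trans (le_of_eq ?_)
      exact sum_congr rfl fun i _ => sum_congr rfl fun j _ => by ring)
  have E1 : EG fun w => tq (Y w) fun i l => S.A s (H712.lp a w) i l -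
        Av (lf (row b)) (fun w => S.A s (H712.lp a w) i l) w :=
    EG.sum _ fun i _ => EG.sum _ fun j _ => (hYe i j).mul
      (EG.sum _ fun l _ => (ed i l).mul (ed j l))
  have E2 : EG fun w => bY (Y w) (fun i => S.A s (H712.lp a w) i b)
        fun i => S.A s (H712.lp a w) i b :=
    EG.sum _ fun i _ => EG.sum _ fun j _ => (hYe i j).mul ((eA i b).mul (eA j b))
  have E3 : EG fun w => Y w b b * ∑ l, Av (lf (row b)) (fun w => S.A s (H712.lp a w) b l) w ^ 2 :=
    (hYe b b).mul (EG.sum _ fun l _ => (eg_Av _ (eA b l)).pow 2)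
  have E4 : EG fun w => tq (Y w) fun i l => S.A s (H712.lp a w) i l - H364.Cb S s a b w i l :=
    EG.sum _ fun i _ => EG.sum _ fun j _ => (hYe i j).mul
      (EG.sum _ fun l _ => (ec i l).mul (ec j l))
  have h2 : Im φ (fun w => tq (Y w) fun i l => S.A s (H712.lp a w) i l -
      H364.Cb S s a b w i l) ≤ 2 * Im φ (fun w => tq (Y w) fun i l => S.A s (H712.lp a w) i l -
        Av (lf (row b)) (fun w => S.A s (H712.lp a w) i l) w) +
      (Im φ (fun w => bY (Y w) (fun i => S.A s (H712.lp a w) i b)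
        fun i => S.A s (H712.lp a w) i b) +
      2 * Im φ (fun w => Y w b b *
        ∑ l, Av (lf (row b)) (fun w => S.A s (H712.lp a w) b l) w ^ 2)) := by
    rw [← Im_const_mul, ← Im_const_mul, ← Im_add e1 E2 (E3.const_mul _),
      ← Im_add e1 (E1.const_mul _) (E2.add (E3.const_mul _))]
    exact Im_mono p0 e1 E4 ((E1.const_mul _).add (E2.add (E3.const_mul _))) fun w =>
      tq_sub_Cb' (hY w) w
  have hb : ∀ w, 0 ≤ Y w b b := fun w => by
    have := (hY w).bY_nonneg fun i => if i = b then 1 else 0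
    rw [bY_single] at this
    simpa using this
  have h3 : Im φ (fun w => Y w b b *
        ∑ l, Av (lf (row b)) (fun w => S.A s (H712.lp a w) b l) w ^ 2) ≤
      8 / 7 * Im φ (fun w => Y w b b * ∑ i, S.A s (H712.lp a w) i b ^ 2) := by
    have g1 : ∀ l, Im φ (fun w => Y w b b *
        Av (lf (row b)) (fun w => S.A s (H712.lp a w) b l) w ^ 2) ≤
        8 / 7 * Im φ (fun w => Y w b b * S.A s (H712.lp a w) b l ^ 2) := fun l' => by
      have := LF.mean_sq h hl (eA b l') (hYe b b) (hYi b b) hb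
      rw [eφ]
      exact this
    have g2 : Im φ (fun w => Y w b b *
        ∑ l, Av (lf (row b)) (fun w => S.A s (H712.lp a w) b l) w ^ 2) =
        ∑ l, Im φ (fun w => Y w b b *
          Av (lf (row b)) (fun w => S.A s (H712.lp a w) b l) w ^ 2) := by
      rw [← Im_sum e1 _ fun l _ => (hYe b b).mul ((eg_Av _ (eA b l)).pow 2)]
      exact Im_congr fun w => mul_sum _ _ _
    have g3 : Im φ (fun w => Y w b b * ∑ i, S.A s (H712.lp a w) i b ^ 2) =
        ∑ l, Im φ (fun w => Y w b b * S.A s (H712.lp a w) b l ^ 2) := by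
      rw [← Im_sum e1 _ fun l _ => (hYe b b).mul ((eA b l).pow 2)]
      refine Im_congr fun w => ?_
      rw [mul_sum]
      exact sum_congr rfl fun l _ => by rw [S.A_comm s _ l b]
    rw [g2, g3, mul_sum]
    exact sum_le_sum fun l _ => g1 l
  linarith

/-- **the touch number of `L` in the form `Y` which is not frozen** -/
theorem ql_le (h : ∀ b, LF (lf (row b)) Ψ Ψ' l) (hl : 16 * l ^ 2 ≤ 1)
    (hφ : ∀ w, φ w = Real.exp (Ψ w)) {Y : MF n} (hYe : ∀ i j, EG fun w => Y w i j)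
    (hY : ∀ w, Pf (Y w)) {Y' : Fin n → MF n} (hYe' : ∀ b i j, EG fun w => Y' b w i j)
    (hYi' : ∀ b, Ifz b (Y' b)) (hY' : ∀ b w, Pf (Y' b w)) (hn : 0 < n) {DD P4 U4 : ℝ}
    (hDD : Im φ (fun w => ∑ b, fro (fun i j => Y' b w i j - Y w i j) ^ 2) ≤ DD)
    (hP4 : Im φ (fun w => ∑ b, Xr S s a b w ^ 2) ≤ P4)
    (hU4 : Im φ (fun w => fro (S.A s (H712.lp a w)) ^ 3) ≤ U4) :
    Im φ (fun w => ∑ b, tq (Y w) fun i l => S.A s (H712.lp a w) i l - H364.Cb S s a b w i l) ≤
      36 * vr a * Im φ (fun w => ∑ e, tq (Y w) (S.DA s e (H712.lp a w))) +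
      (Im φ (fun w => ∑ b, bY (Y w) (fun i => S.A s (H712.lp a w) i b)
        fun i => S.A s (H712.lp a w) i b) +
      16 / 7 * Im φ (fun w => (∑ b, Y w b b) * fro (S.A s (H712.lp a w)))) +
      √DD * (18 * vr a * √P4 + √(10400 * vr a ^ 2 * P4 + 8 * U4) + 23 / 7 * √U4) := by
  obtain ⟨b0⟩ : Nonempty (Fin n) := ⟨⟨0, hn⟩⟩
  have eφ : φ = fun w => Real.exp (Ψ w) := funext hφ
  have e1 : EG φ := by rw [eφ]; exact (h b0).en
  have p0 : ∀ w, 0 ≤ φ w := fun w => by rw [hφ]; exact (Real.exp_pos _).le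
  have va : 0 ≤ vr a := vr_nonneg a
  have eA : ∀ i l, EG fun w : K4 (Pair n) → ℝ => S.A s (H712.lp a w) i l := fun i l =>
    eg_lp a (S.eg_A s i l)
  have eDA : ∀ e i l, EG fun w : K4 (Pair n) → ℝ => S.DA s e (H712.lp a w) i l := fun e i l =>
    eg_lp a (S.eg_DA s e i l)
  have efA : EG fun w => fro (S.A s (H712.lp a w)) := eg_fro fun i j => eA i j
  have eD : ∀ b i j, EG fun w => Y' b w i j - Y w i j := fun b i j => (hYe' b i j).sub (hYe i j)
  have efD : ∀ b, EG fun w => fro (fun i j => Y' b w i j - Y w i j) := fun b =>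
    eg_fro fun i j => eD b i j
  have eX : ∀ b, EG (Xr S s a b) := fun b => eg_Xr
  have eF : ∀ b, EG fun w => ∑ i, ∑ l, (S.A s (H712.lp a w) i l - H364.Cb S s a b w i l) ^ 2 :=
    fun b => EG.sum _ fun i _ => EG.sum _ fun l _ => ((eA i l).sub (H364.eg_Cb i l)).pow 2
  have eu : ∀ b, EG fun w => ∑ i, S.A s (H712.lp a w) i b ^ 2 := fun b =>
    EG.sum _ fun i _ => (eA i b).pow 2
  have etq : ∀ (Z M : MF n), (∀ i j, EG fun w => Z w i j) → (∀ i j, EG fun w => M w i j) →
      EG fun w => tq (Z w) (M w) := fun Z M hZ hM =>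
    EG.sum _ fun i _ => EG.sum _ fun j _ => (hZ i j).mul (EG.sum _ fun l _ => (hM i l).mul (hM j l))
  have eM : ∀ b i l, EG fun w => S.A s (H712.lp a w) i l - H364.Cb S s a b w i l := fun b i l =>
    (eA i l).sub (H364.eg_Cb i l)
  have eT' : ∀ b, EG fun w => tq (Y' b w) fun i l => S.A s (H712.lp a w) i l -
      H364.Cb S s a b w i l := fun b => etq (Y' b) _ (hYe' b) (eM b)
  have eY0 : ∀ b, EG fun w => tq (Y w) fun i l => S.A s (H712.lp a w) i l -
      H364.Cb S s a b w i l := fun b => etq Y _ hYe (eM b)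
  have eE' : ∀ b, EG fun w => ∑ e ∈ row b, tq (Y' b w) (S.DA s e (H712.lp a w)) := fun b =>
    EG.sum _ fun e _ => etq (Y' b) _ (hYe' b) (eDA e)
  have eE0 : ∀ b, EG fun w => ∑ e ∈ row b, tq (Y w) (S.DA s e (H712.lp a w)) := fun b =>
    EG.sum _ fun e _ => etq Y _ hYe (eDA e)
  have eB' : ∀ b, EG fun w => bY (Y' b w) (fun i => S.A s (H712.lp a w) i b)
      fun i => S.A s (H712.lp a w) i b := fun b =>
    EG.sum _ fun i _ => EG.sum _ fun j _ => (hYe' b i j).mul ((eA i b).mul (eA j b))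
  have eB0 : ∀ b, EG fun w => bY (Y w) (fun i => S.A s (H712.lp a w) i b)
      fun i => S.A s (H712.lp a w) i b := fun b =>
    EG.sum _ fun i _ => EG.sum _ fun j _ => (hYe i j).mul ((eA i b).mul (eA j b))
  have eG' : ∀ b, EG fun w => Y' b w b b * ∑ i, S.A s (H712.lp a w) i b ^ 2 := fun b =>
    (hYe' b b b).mul (eu b)
  have DD0 : 0 ≤ DD := (Im_nonneg p0 fun w => sum_nonneg fun b _ => sq_nonneg _).trans hDD
  -- the three Cauchy-Schwarz terms
  have csD : ∀ {g : Fin n → (K4 (Pair n) → ℝ) → ℝ} {N : ℝ}, (∀ b, EG (g b)) →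
      Im φ (fun w => ∑ b, g b w ^ 2) ≤ N →
      Im φ (fun w => ∑ b, fro (fun i j => Y' b w i j - Y w i j) * g b w) ≤ √DD * √N := by
    intro g N hg hN
    exact (Im_cs p0 e1 efD hg).trans (mul_le_mul (Real.sqrt_le_sqrt hDD) (Real.sqrt_le_sqrt hN)
      (Real.sqrt_nonneg _) (Real.sqrt_nonneg _))
  have c1 := csD (g := fun b => Xr S s a b) (N := P4) eX hP4
  have c2 := csD (g := fun b w => ∑ i, ∑ l, (S.A s (H712.lp a w) i l -
      H364.Cb S s a b w i l) ^ 2) (N := 10400 * vr a ^ 2 * P4 + 8 * U4) eF (by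
    have t1 : ∀ b, Im φ (fun w => (∑ i, ∑ l, (S.A s (H712.lp a w) i l -
        H364.Cb S s a b w i l) ^ 2) ^ 2) ≤ 10400 * vr a ^ 2 * Im φ (fun w => Xr S s a b w ^ 2) +
        8 * Im φ (fun w => (∑ i, S.A s (H712.lp a w) i b ^ 2) ^ 2) := by
      intro b
      have := tch4_Cb (S := S) (s := s) (a := a) (χ := fun _ => 1) (h b) hl hφ (EG.const 1)
        (fun _ _ => rfl) fun _ => zero_le_one
      simpa only [one_mul] using this
    rw [Im_sum e1 _ fun b _ => (eF b).pow 2]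
    refine (sum_le_sum fun b _ => t1 b).trans ?_
    rw [sum_add_distrib, ← mul_sum, ← mul_sum, ← Im_sum e1 _ fun b _ => (eX b).pow 2,
      ← Im_sum e1 _ fun b _ => (eu b).pow 2]
    have t2 : Im φ (fun w => ∑ b, (∑ i, S.A s (H712.lp a w) i b ^ 2) ^ 2) ≤ U4 :=
      (Im_mono p0 e1 (EG.sum _ fun b _ => (eu b).pow 2) (efA.pow 3) fun w => col4_le w).trans hU4
    have t3 := mul_le_mul_of_nonneg_left hP4 (show 0 ≤ 10400 * vr a ^ 2 by positivity)
    linarith)
  have c3 := csD (g := fun b w => ∑ i, S.A s (H712.lp a w) i b ^ 2) (N := U4) eu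
    ((Im_mono p0 e1 (EG.sum _ fun b _ => (eu b).pow 2) (efA.pow 3) fun w => col4_le w).trans hU4)
  -- (A) from `Y` to `Y'` on the left
  have A1 : Im φ (fun w => ∑ b, tq (Y w) fun i l => S.A s (H712.lp a w) i l -
      H364.Cb S s a b w i l) ≤ ∑ b, Im φ (fun w => tq (Y' b w) fun i l => S.A s (H712.lp a w) i l -
      H364.Cb S s a b w i l) + √DD * √(10400 * vr a ^ 2 * P4 + 8 * U4) := by
    rw [← Im_sum e1 _ fun b _ => eT' b]
    refine le_trans ?_ (add_le_add le_rfl c2)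
    rw [← Im_add e1 (EG.sum _ fun b _ => eT' b) (EG.sum _ fun b _ => (efD b).mul (eF b))]
    refine Im_mono p0 e1 (EG.sum _ fun b _ => eY0 b) ((EG.sum _ fun b _ => eT' b).add
      (EG.sum _ fun b _ => (efD b).mul (eF b))) fun w => ?_
    rw [← sum_add_distrib]
    refine sum_le_sum fun b _ => ?_
    have g1 := abs_tq_le (fun i j => Y' b w i j - Y w i j) fun i l => S.A s (H712.lp a w) i l -
      H364.Cb S s a b w i l
    rw [fro_sq, tq_sub] at g1
    linarith [neg_abs_le (tq (Y' b w) (fun i l => S.A s (H712.lp a w) i l -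
      H364.Cb S s a b w i l) - tq (Y w) fun i l => S.A s (H712.lp a w) i l -
      H364.Cb S s a b w i l)]
  -- (B) the touch with the frozen form
  have B1 : ∀ b, Im φ (fun w => tq (Y' b w) fun i l => S.A s (H712.lp a w) i l -
      H364.Cb S s a b w i l) ≤ _ := fun b => tch_Cb2 (S := S) (s := s) (a := a) (h b) hl hφ
        (hYe' b) (hYi' b) (hY' b)
  have B2 := sum_le_sum fun b (_ : b ∈ (univ : Finset (Fin n))) => B1 b
  rw [sum_add_distrib, sum_add_distrib, ← mul_sum, ← mul_sum, ← Im_sum e1 _ fun b _ => eE' b,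
    ← Im_sum e1 _ fun b _ => eB' b, ← Im_sum e1 _ fun b _ => eG' b] at B2
  -- (C) back to `Y` on the right
  have C1 : Im φ (fun w => ∑ b, ∑ e ∈ row b, tq (Y' b w) (S.DA s e (H712.lp a w))) ≤
      2 * Im φ (fun w => ∑ e, tq (Y w) (S.DA s e (H712.lp a w))) + √DD * √P4 := by
    refine le_trans ?_ (add_le_add le_rfl c1)
    have eS : EG fun w => ∑ e, tq (Y w) (S.DA s e (H712.lp a w)) :=
      EG.sum _ fun e _ => etq Y _ hYe (eDA e)
    rw [← Im_const_mul, ← Im_add e1 (eS.const_mul _) (EG.sum _ fun b _ => (efD b).mul (eX b))]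
    refine Im_mono p0 e1 (EG.sum _ fun b _ => eE' b) ((eS.const_mul _).add
      (EG.sum _ fun b _ => (efD b).mul (eX b))) fun w => ?_
    rw [← H325.sum_rows, ← sum_add_distrib]
    refine sum_le_sum fun b _ => ?_
    unfold Xr
    rw [mul_sum, ← sum_add_distrib]
    refine sum_le_sum fun e _ => ?_
    have g1 := abs_tq_le (fun i j => Y' b w i j - Y w i j) (S.DA s e (H712.lp a w))
    have gf : fro (S.DA s e (H712.lp a w)) ^ 2 = fr (S.DA s e (H712.lp a w)) := fro_sq _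
    have gs : tq (fun i j => Y' b w i j - Y w i j) (S.DA s e (H712.lp a w)) =
        tq (Y' b w) (S.DA s e (H712.lp a w)) - tq (Y w) (S.DA s e (H712.lp a w)) := tq_sub _ _ _
    rw [gf, gs] at g1
    have g2 := le_abs_self (tq (Y' b w) (S.DA s e (H712.lp a w)) -
      tq (Y w) (S.DA s e (H712.lp a w)))
    linarith
  have C2 : Im φ (fun w => ∑ b, bY (Y' b w) (fun i => S.A s (H712.lp a w) i b)
      fun i => S.A s (H712.lp a w) i b) ≤ Im φ (fun w => ∑ b, bY (Y w)
        (fun i => S.A s (H712.lp a w) i b) fun i => S.A s (H712.lp a w) i b) + √DD * √U4 := by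
    refine le_trans ?_ (add_le_add le_rfl c3)
    rw [← Im_add e1 (EG.sum _ fun b _ => eB0 b) (EG.sum _ fun b _ => (efD b).mul (eu b))]
    refine Im_mono p0 e1 (EG.sum _ fun b _ => eB' b) ((EG.sum _ fun b _ => eB0 b).add
      (EG.sum _ fun b _ => (efD b).mul (eu b))) fun w => ?_
    rw [← sum_add_distrib]
    refine sum_le_sum fun b _ => ?_
    have g1 := abs_bY_le (fun i j => Y' b w i j - Y w i j) fun i => S.A s (H712.lp a w) i b
    have g2 : bY (fun i j => Y' b w i j - Y w i j) (fun i => S.A s (H712.lp a w) i b)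
        (fun i => S.A s (H712.lp a w) i b) = bY (Y' b w) (fun i => S.A s (H712.lp a w) i b)
        (fun i => S.A s (H712.lp a w) i b) - bY (Y w) (fun i => S.A s (H712.lp a w) i b)
        (fun i => S.A s (H712.lp a w) i b) := by
      unfold bY
      simp only [sub_mul, sum_sub_distrib]
    rw [g2] at g1
    linarith [le_abs_self (bY (Y' b w) (fun i => S.A s (H712.lp a w) i b)
        (fun i => S.A s (H712.lp a w) i b) - bY (Y w) (fun i => S.A s (H712.lp a w) i b)
        (fun i => S.A s (H712.lp a w) i b))]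
  have C3 : Im φ (fun w => ∑ b, Y' b w b b * ∑ i, S.A s (H712.lp a w) i b ^ 2) ≤
      Im φ (fun w => (∑ b, Y w b b) * fro (S.A s (H712.lp a w))) + √DD * √U4 := by
    refine le_trans ?_ (add_le_add le_rfl c3)
    have eS : EG fun w => (∑ b, Y w b b) * fro (S.A s (H712.lp a w)) :=
      (EG.sum _ fun b _ => hYe b b).mul efA
    rw [← Im_add e1 eS (EG.sum _ fun b _ => (efD b).mul (eu b))]
    refine Im_mono p0 e1 (EG.sum _ fun b _ => eG' b) (eS.add
      (EG.sum _ fun b _ => (efD b).mul (eu b))) fun w => ?_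
    rw [sum_mul, ← sum_add_distrib]
    refine sum_le_sum fun b _ => ?_
    have g0 : 0 ≤ ∑ i, S.A s (H712.lp a w) i b ^ 2 := sum_nonneg fun i _ => sq_nonneg _
    have g1 := abs_diag_le (fun i j => Y' b w i j - Y w i j) b
    have g2 : Y' b w b b - Y w b b ≤ fro (fun i j => Y' b w i j - Y w i j) :=
      (le_abs_self _).trans g1
    have g3 := mul_le_mul_of_nonneg_right g2 g0
    have g4 : 0 ≤ Y w b b := by
      have := (hY w).bY_nonneg fun i => if i = b then 1 else 0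
      rw [bY_single] at this
      simpa using this
    have g5 := mul_le_mul_of_nonneg_left (col_le (S := S) (s := s) (a := a) b w) g4
    linarith
  have s1 : 0 ≤ √DD * √P4 := by positivity
  nlinarith [mul_le_mul_of_nonneg_left C1 (show 0 ≤ 18 * vr a by positivity), A1, B2, C2, C3]

end cs

end Vale.Agent.P146.H350
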