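import Vale.Agent.P146.H706.LawF
import Mathlib.Analysis.InnerProductSpace.Positive

/-! P146, R2: touches in the TRUE law, with a row-frozen weight or form: constant 9, no change of
the law.

`∫ e^Ψ χ (f - Av R f)² ≤ 9 ∫ e^Ψ χ Σ_{e ∈ R} f'_e²`. -/

set_option linter.all false

open MeasureTheory ProbabilityTheory Finset Filter Topology

namespace Vale.Agent.P146.H350

open Vale.Agent.P157.Lv Vale.Agent.P146.H712 Vale.Agent.P146.H706

section base

variable {ρ : Type} [Fintype ρ] [DecidableEq ρ]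
variable {ψ : (ρ → ℝ) → ℝ} {ψ' : ρ → (ρ → ℝ) → ℝ} {l : ℝ}

/-- the centered version: `c` is the mean in the half-tilted law -/
theorem LG.tch0 (h : LG ψ ψ' l) (hl : 16 * l ^ 2 ≤ 1) {f : (ρ → ℝ) → ℝ} {f' : ρ → (ρ → ℝ) → ℝ}
    (hf : EG f) (hd : ∀ e, PD e f (f' e)) (hf' : ∀ e, EG (f' e)) :
    ∃ c : ℝ, ∫ z, Real.exp (ψ z) * (f z - c) ^ 2 ∂(gI ρ) ≤
      64 / 31 * ∫ z, Real.exp (ψ z) * ∑ e, f' e z ^ 2 ∂(gI ρ) := by
  set E : (ρ → ℝ) → ℝ := fun z => Real.exp (1 / 2 * ψ z) with hE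
  have eE : EG E := h.ee _
  have pE : 0 < ∫ z, E z ∂(gI ρ) := h.pos _
  set c : ℝ := (∫ z, E z * f z ∂(gI ρ)) / ∫ z, E z ∂(gI ρ) with hc
  refine ⟨c, ?_⟩
  have e1 : EG fun z => Real.exp (ψ z) := by simpa using h.ee 1
  have ef : EG fun z => f z - c := hf.sub (EG.const c)
  set g : (ρ → ℝ) → ℝ := fun z => E z * (f z - c) with hg
  have eg : EG g := eE.mul ef
  have EE : ∀ z, E z * E z = Real.exp (ψ z) := by
    intro z; simp only [hE]; rw [← Real.exp_add]; congr 1; ring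
  have dg : ∀ e, PD e g fun z => E z * (f' e z + 1 / 2 * ψ' e z * (f z - c)) := by
    intro e
    have h1 := (((h.pd e).const_mul (1 / 2)).exp).mul ((hd e).sub (PD.const c))
    refine h1.congr fun y => ?_
    simp only [hE]; ring
  have eg' : ∀ e, EG fun z => E z * (f' e z + 1 / 2 * ψ' e z * (f z - c)) := fun e =>
    eE.mul ((hf' e).add (((h.eg e).const_mul _).mul ef))
  have hp := cc_var_le_one eg dg eg'
  have m0 : ∫ z, g z ∂(gI ρ) = 0 := by
    have : ∀ z, g z = E z * f z - c * E z := fun z => by simp only [hg]; ring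
    simp only [this]
    rw [integral_sub (eE.mul hf).integrable (eE.integrable.const_mul _), integral_const_mul, hc]
    field_simp
    ring
  rw [m0] at hp
  have x1 : ∫ z, (g z - 0) ^ 2 ∂(gI ρ) = ∫ z, Real.exp (ψ z) * (f z - c) ^ 2 ∂(gI ρ) := by
    refine integral_congr_ae (ae_of_all _ fun z => ?_)
    simp only [hg, sub_zero]
    rw [← EE z]; ring
  rw [x1] at hp
  set X := ∫ z, Real.exp (ψ z) * (f z - c) ^ 2 ∂(gI ρ) with hX
  set D := ∫ z, Real.exp (ψ z) * ∑ e, f' e z ^ 2 ∂(gI ρ) with hD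
  have iX : EG fun z => Real.exp (ψ z) * (f z - c) ^ 2 := e1.mul (ef.pow 2)
  have iD : EG fun z => Real.exp (ψ z) * ∑ e, f' e z ^ 2 :=
    e1.mul (EG.sum _ fun e _ => (hf' e).pow 2)
  have x2 : ∑ e, ∫ z, (E z * (f' e z + 1 / 2 * ψ' e z * (f z - c))) ^ 2 ∂(gI ρ) ≤
      2 * D + l ^ 2 / 2 * X := by
    rw [← integral_finsetSum _ fun e _ => ((eg' e).pow 2).integrable, hD, hX,
      ← integral_const_mul, ← integral_const_mul,
      ← integral_add (iD.integrable.const_mul _) (iX.integrable.const_mul _)]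
    refine integral_mono (EG.sum _ fun e _ => (eg' e).pow 2).integrable
      ((iD.integrable.const_mul _).add (iX.integrable.const_mul _)) fun z => ?_
    show ∑ e, (E z * (f' e z + 1 / 2 * ψ' e z * (f z - c))) ^ 2 ≤
      2 * (Real.exp (ψ z) * ∑ e, f' e z ^ 2) + l ^ 2 / 2 * (Real.exp (ψ z) * (f z - c) ^ 2)
    have a1 : ∀ e, (E z * (f' e z + 1 / 2 * ψ' e z * (f z - c))) ^ 2 ≤
        Real.exp (ψ z) * (2 * f' e z ^ 2 + 1 / 2 * ψ' e z ^ 2 * (f z - c) ^ 2) := by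
      intro e
      rw [mul_pow, sq (E z), EE z]
      refine mul_le_mul_of_nonneg_left ?_ (Real.exp_pos _).le
      nlinarith [sq_nonneg (f' e z - 1 / 2 * ψ' e z * (f z - c))]
    refine (sum_le_sum fun e _ => a1 e).trans ?_
    rw [← mul_sum, sum_add_distrib, ← mul_sum, ← sum_mul, ← mul_sum]
    have a2 : 1 / 2 * ∑ e, ψ' e z ^ 2 ≤ l ^ 2 / 2 := by linarith [h.le z]
    have a3 := mul_le_mul_of_nonneg_right a2 (sq_nonneg (f z - c))
    have a4 := mul_le_mul_of_nonneg_left a3 (Real.exp_pos (ψ z)).le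
    nlinarith
  have X0 : 0 ≤ X := integral_nonneg fun z => mul_nonneg (Real.exp_pos _).le (sq_nonneg _)
  have x3 : l ^ 2 / 2 * X ≤ 1 / 32 * X := mul_le_mul_of_nonneg_right (by linarith) X0
  linarith

/-- **touches in the true law, constant 9** -/
theorem LG.tch (h : LG ψ ψ' l) (hl : 16 * l ^ 2 ≤ 1) {f : (ρ → ℝ) → ℝ} {f' : ρ → (ρ → ℝ) → ℝ}
    (hf : EG f) (hd : ∀ e, PD e f (f' e)) (hf' : ∀ e, EG (f' e)) :
    ∫ z, Real.exp (ψ z) * (f z - ∫ w, f w ∂(gI ρ)) ^ 2 ∂(gI ρ) ≤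
      9 * ∫ z, Real.exp (ψ z) * ∑ e, f' e z ^ 2 ∂(gI ρ) := by
  obtain ⟨c, hc⟩ := LG.tch0 h hl hf hd hf'
  set m := ∫ w, f w ∂(gI ρ) with hm
  set D := ∫ z, Real.exp (ψ z) * ∑ e, f' e z ^ 2 ∂(gI ρ) with hD
  set X := ∫ z, Real.exp (ψ z) * (f z - c) ^ 2 ∂(gI ρ) with hX
  have e1 : EG fun z => Real.exp (ψ z) := by simpa using h.ee 1
  have em : EG fun z => Real.exp (-1 * ψ z) := h.ee (-1)
  have ef : EG fun z => f z - c := hf.sub (EG.const c)
  have X0 : 0 ≤ X := integral_nonneg fun z => mul_nonneg (Real.exp_pos _).le (sq_nonneg _)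
  have iX : EG fun z => Real.exp (ψ z) * (f z - c) ^ 2 := e1.mul (ef.pow 2)
  -- the difference of the two centers
  obtain ⟨-, k2⟩ := int_mul_le (P := gI ρ) (f := fun z => Real.exp (-(1 / 2) * ψ z))
    (g := fun z => Real.exp (1 / 2 * ψ z) * (f z - c)) (h.ee _).meas
    ((h.ee _).mul ef).meas ((h.ee _).pow 2).integrable (((h.ee _).mul ef).pow 2).integrable
  have y1 : ∀ z, Real.exp (-(1 / 2) * ψ z) * (Real.exp (1 / 2 * ψ z) * (f z - c)) = f z - c := by
    intro z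
    rw [← mul_assoc, ← Real.exp_add]
    have : -(1 / 2) * ψ z + 1 / 2 * ψ z = 0 := by ring
    rw [this, Real.exp_zero, one_mul]
  have y2 : ∀ z, Real.exp (-(1 / 2) * ψ z) ^ 2 = Real.exp (-1 * ψ z) := by
    intro z; rw [sq, ← Real.exp_add]; congr 1; ring
  have y3 : ∀ z, (Real.exp (1 / 2 * ψ z) * (f z - c)) ^ 2 = Real.exp (ψ z) * (f z - c) ^ 2 := by
    intro z; rw [mul_pow, sq (Real.exp (1 / 2 * ψ z)), ← Real.exp_add]; congr 2; ring
  simp only [y1, y2, y3] at k2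
  rw [← hX] at k2
  have z1 : ∫ z, (f z - c) ∂(gI ρ) = m - c := by
    rw [integral_sub hf.integrable (integrable_const _)]; simp [hm]
  rw [z1] at k2
  set J := ∫ z, Real.exp (-1 * ψ z) ∂(gI ρ) with hJ
  have J0 : 0 ≤ J := integral_nonneg fun z => (Real.exp_pos _).le
  have k3 : (m - c) ^ 2 ≤ J * X := by
    rw [← sq_abs, ← Real.sq_sqrt (mul_nonneg J0 X0), Real.sqrt_mul J0]
    exact pow_le_pow_left₀ (abs_nonneg _) k2 2
  set I := ∫ z, Real.exp (ψ z) ∂(gI ρ) with hI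
  have I0 : 0 ≤ I := integral_nonneg fun z => (Real.exp_pos _).le
  have cI : I ≤ Real.exp (∫ z, ψ z ∂(gI ρ) + l ^ 2) := by
    have := h.conc (t := 1) (by nlinarith [sq_nonneg l])
    simpa [hI] using this
  have cJ : J ≤ Real.exp (-(∫ z, ψ z ∂(gI ρ)) + l ^ 2) := by
    have := h.conc (t := -1) (by nlinarith [sq_nonneg l])
    refine this.trans (le_of_eq ?_)
    congr 1
    ring
  have cIJ : I * J ≤ 8 / 7 := by
    have e2 : I * J ≤ Real.exp (2 * l ^ 2) := by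
      refine (mul_le_mul cI cJ J0 (Real.exp_pos _).le).trans (le_of_eq ?_)
      rw [← Real.exp_add]; congr 1; ring
    refine e2.trans ?_
    have e3 : 1 - 2 * l ^ 2 ≤ Real.exp (-(2 * l ^ 2)) := by
      have := Real.add_one_le_exp (-(2 * l ^ 2)); linarith
    have e4 : Real.exp (2 * l ^ 2) * Real.exp (-(2 * l ^ 2)) = 1 := by
      rw [← Real.exp_add]; simp
    have e5 : 7 / 8 ≤ 1 - 2 * l ^ 2 := by linarith
    have e6 : Real.exp (2 * l ^ 2) * (7 / 8) ≤ 1 := by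
      rw [← e4]
      exact mul_le_mul_of_nonneg_left (e5.trans e3) (Real.exp_pos _).le
    linarith
  -- the integral
  have w1 : ∫ z, Real.exp (ψ z) * (f z - m) ^ 2 ∂(gI ρ) ≤ 2 * X + 2 * (m - c) ^ 2 * I := by
    rw [hX, hI, ← integral_const_mul, ← integral_const_mul,
      ← integral_add (iX.integrable.const_mul _) (e1.integrable.const_mul _)]
    refine integral_mono (e1.mul ((hf.sub (EG.const m)).pow 2)).integrable
      ((iX.integrable.const_mul _).add (e1.integrable.const_mul _)) fun z => ?_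
    show Real.exp (ψ z) * (f z - m) ^ 2 ≤ 2 * (Real.exp (ψ z) * (f z - c) ^ 2) +
      2 * (m - c) ^ 2 * Real.exp (ψ z)
    have a1 : (f z - m) ^ 2 ≤ 2 * (f z - c) ^ 2 + 2 * (m - c) ^ 2 := by
      nlinarith [sq_nonneg (f z - c + (m - c))]
    have a2 := mul_le_mul_of_nonneg_left a1 (Real.exp_pos (ψ z)).le
    linarith
  have w2 : (m - c) ^ 2 * I ≤ 8 / 7 * X := by
    calc (m - c) ^ 2 * I ≤ J * X * I := mul_le_mul_of_nonneg_right k3 I0
      _ = I * J * X := by ring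
      _ ≤ 8 / 7 * X := mul_le_mul_of_nonneg_right cIJ X0
  have D0 : 0 ≤ D := integral_nonneg fun z =>
    mul_nonneg (Real.exp_pos _).le (sum_nonneg fun e _ => sq_nonneg _)
  linarith

/-- **touches in the true law with a constant psd form** -/
theorem LG.tchY (h : LG ψ ψ' l) (hl : 16 * l ^ 2 ≤ 1) {q : Type} [Fintype q] [DecidableEq q]
    {Y : q → q → ℝ} (hs : ∀ i j, Y i j = Y j i) (hY : ∀ v : q → ℝ, 0 ≤ ∑ i, ∑ j, Y i j * v i * v j)
    {f : q → (ρ → ℝ) → ℝ} {f' : q → ρ → (ρ → ℝ) → ℝ}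
    (hf : ∀ i, EG (f i)) (hd : ∀ i e, PD e (f i) (f' i e)) (hf' : ∀ i e, EG (f' i e)) :
    ∫ z, Real.exp (ψ z) * ∑ i, ∑ j, Y i j * (f i z - ∫ w, f i w ∂(gI ρ)) *
        (f j z - ∫ w, f j w ∂(gI ρ)) ∂(gI ρ) ≤
      9 * ∫ z, Real.exp (ψ z) * ∑ e, ∑ i, ∑ j, Y i j * f' i e z * f' j e z ∂(gI ρ) := by
  -- the square root
  have hps : (Matrix.of Y).PosSemidef := by
    refine Matrix.PosSemidef.of_dotProduct_mulVec_nonneg (Matrix.IsHermitian.ext fun i j => by
      simp [Matrix.of_apply, hs j i]) fun v => ?_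
    have := hY v
    simp only [dotProduct, Matrix.mulVec, Matrix.of_apply, Pi.star_apply, star_trivial, mul_sum]
    refine this.trans (le_of_eq ?_)
    exact sum_congr rfl fun i _ => sum_congr rfl fun j _ => by ring
  obtain ⟨m, v, hv⟩ := Matrix.posSemidef_iff_eq_sum_vecMulVec.1 hps
  have hYv : ∀ i j, Y i j = ∑ k, v k i * v k j := by
    intro i j
    have := congrFun (congrFun hv i) j
    simpa [Matrix.sum_apply, Matrix.vecMulVec_apply] using this
  have hq : ∀ a b : q → ℝ, ∑ i, ∑ j, Y i j * a i * b j =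
      ∑ k, (∑ i, v k i * a i) * ∑ j, v k j * b j := by
    intro a b
    simp only [hYv, sum_mul]
    have h1 : ∀ i, ∑ j, ∑ k, v k i * v k j * a i * b j =
        ∑ k, ∑ j, v k i * v k j * a i * b j := fun i => sum_comm
    simp only [h1]
    rw [sum_comm]
    refine sum_congr rfl fun k _ => ?_
    refine sum_congr rfl fun i _ => ?_
    rw [mul_sum]
    exact sum_congr rfl fun j _ => by ring
  set F : Fin m → (ρ → ℝ) → ℝ := fun k z => ∑ i, v k i * f i z with hF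
  set F' : Fin m → ρ → (ρ → ℝ) → ℝ := fun k e z => ∑ i, v k i * f' i e z with hF'
  have eF : ∀ k, EG (F k) := fun k => EG.sum _ fun i _ => (hf i).const_mul _
  have eF' : ∀ k e, EG (F' k e) := fun k e => EG.sum _ fun i _ => (hf' i e).const_mul _
  have dF : ∀ k e, PD e (F k) (F' k e) := fun k e =>
    PD.sum _ fun i _ => (hd i e).const_mul _
  have mF : ∀ k, ∫ w, F k w ∂(gI ρ) = ∑ i, v k i * ∫ w, f i w ∂(gI ρ) := by
    intro k
    simp only [hF]
    rw [integral_finsetSum _ fun i _ => ((hf i).const_mul _).integrable]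
    exact sum_congr rfl fun i _ => integral_const_mul _ _
  have hk : ∀ k, ∫ z, Real.exp (ψ z) * (F k z - ∫ w, F k w ∂(gI ρ)) ^ 2 ∂(gI ρ) ≤
      9 * ∫ z, Real.exp (ψ z) * ∑ e, F' k e z ^ 2 ∂(gI ρ) := fun k =>
    LG.tch h hl (eF k) (dF k) (eF' k)
  have e1 : EG fun z => Real.exp (ψ z) := by simpa using h.ee 1
  have L : ∫ z, Real.exp (ψ z) * ∑ i, ∑ j, Y i j * (f i z - ∫ w, f i w ∂(gI ρ)) *
        (f j z - ∫ w, f j w ∂(gI ρ)) ∂(gI ρ) =
      ∑ k, ∫ z, Real.exp (ψ z) * (F k z - ∫ w, F k w ∂(gI ρ)) ^ 2 ∂(gI ρ) := by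
    rw [← integral_finsetSum _ fun k _ =>
      (e1.mul (((eF k).sub (EG.const _)).pow 2)).integrable]
    refine integral_congr_ae (ae_of_all _ fun z => ?_)
    show Real.exp (ψ z) * ∑ i, ∑ j, Y i j * (f i z - ∫ w, f i w ∂(gI ρ)) *
        (f j z - ∫ w, f j w ∂(gI ρ)) =
      ∑ k, Real.exp (ψ z) * (F k z - ∫ w, F k w ∂(gI ρ)) ^ 2
    rw [hq (fun i => f i z - ∫ w, f i w ∂(gI ρ)) (fun i => f i z - ∫ w, f i w ∂(gI ρ)), mul_sum]
    refine sum_congr rfl fun k _ => ?_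
    rw [mF k]
    simp only [hF, mul_sub, sum_sub_distrib]
    ring
  have Rr : ∫ z, Real.exp (ψ z) * ∑ e, ∑ i, ∑ j, Y i j * f' i e z * f' j e z ∂(gI ρ) =
      ∑ k, ∫ z, Real.exp (ψ z) * ∑ e, F' k e z ^ 2 ∂(gI ρ) := by
    rw [← integral_finsetSum _ fun k _ =>
      (e1.mul (EG.sum _ fun e _ => (eF' k e).pow 2)).integrable]
    refine integral_congr_ae (ae_of_all _ fun z => ?_)
    show Real.exp (ψ z) * ∑ e, ∑ i, ∑ j, Y i j * f' i e z * f' j e z =
      ∑ k, Real.exp (ψ z) * ∑ e, F' k e z ^ 2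
    rw [← mul_sum, sum_comm (s := (univ : Finset (Fin m)))]
    congr 1
    refine sum_congr rfl fun e _ => ?_
    rw [hq (fun i => f' i e z) (fun i => f' i e z)]
    refine sum_congr rfl fun k _ => ?_
    simp only [hF']
    ring
  rw [L, Rr, mul_sum]
  exact sum_le_sum fun k _ => hk k

end base

section fib

variable {ι : Type} [Fintype ι] [DecidableEq ι] {R : Finset ι} {Ψ : (ι → ℝ) → ℝ}
  {Ψ' : ι → (ι → ℝ) → ℝ} {l : ℝ}

/-- **touches, fiber by fiber** -/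
theorem LF.tch_av (h : LF R Ψ Ψ' l) (hl : 16 * l ^ 2 ≤ 1) {f : (ι → ℝ) → ℝ}
    {f' : ι → (ι → ℝ) → ℝ} (hf : EG f) (hd : ∀ e ∈ R, PD e f (f' e)) (hf' : ∀ e ∈ R, EG (f' e))
    (z : ι → ℝ) :
    Av R (fun z => Real.exp (Ψ z) * (f z - Av R f z) ^ 2) z ≤
      9 * Av R (fun z => Real.exp (Ψ z) * ∑ e ∈ R, f' e z ^ 2) z := by
  have h1 := LG.tch (h.lg z) hl (f := fun w => f (H712.sw R z w))
    (f' := fun e w => if e ∈ R then f' e (H712.sw R z w) else 0) (eg_sw hf R z)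
    (fun e => by
      by_cases he : e ∈ R
      · simp only [he, if_true]; exact pd_sw (hd e he) he z
      · simp only [he, if_false]; exact pd_sw' he z)
    (fun e => by
      by_cases he : e ∈ R
      · simp only [he, if_true]; exact eg_sw (hf' e he) R z
      · simp only [he, if_false]; exact EG.const 0)
  have e1 : Av R (fun z => Real.exp (Ψ z) * (f z - Av R f z) ^ 2) z =
      ∫ w, Real.exp (Ψ (H712.sw R z w)) * (f (H712.sw R z w) -
        ∫ w, f (H712.sw R z w) ∂(gI ι)) ^ 2 ∂(gI ι) := by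
    refine integral_congr_ae (ae_of_all _ fun w => ?_)
    show Real.exp (Ψ (H712.sw R z w)) * (f (H712.sw R z w) - Av R f (H712.sw R z w)) ^ 2 = _
    rw [ind_Av R f z w]
    rfl
  have e2 : Av R (fun z => Real.exp (Ψ z) * ∑ e ∈ R, f' e z ^ 2) z =
      ∫ w, Real.exp (Ψ (H712.sw R z w)) *
        ∑ e, (if e ∈ R then f' e (H712.sw R z w) else 0) ^ 2 ∂(gI ι) := by
    refine integral_congr_ae (ae_of_all _ fun w => ?_)
    show Real.exp (Ψ (H712.sw R z w)) * ∑ e ∈ R, f' e (H712.sw R z w) ^ 2 = _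
    rw [← LF.sum_ite z w (Ψ' := f')]
  rw [e1, e2]
  exact h1

/-- **touches with a row-frozen weight** -/
theorem LF.tch (h : LF R Ψ Ψ' l) (hl : 16 * l ^ 2 ≤ 1) {f χ : (ι → ℝ) → ℝ}
    {f' : ι → (ι → ℝ) → ℝ} (hf : EG f) (hd : ∀ e ∈ R, PD e f (f' e)) (hf' : ∀ e ∈ R, EG (f' e))
    (hχ : EG χ) (iχ : Ind R χ) (h0 : ∀ z, 0 ≤ χ z) :
    ∫ z, Real.exp (Ψ z) * (χ z * (f z - Av R f z) ^ 2) ∂(gI ι) ≤
      9 * ∫ z, Real.exp (Ψ z) * (χ z * ∑ e ∈ R, f' e z ^ 2) ∂(gI ι) := by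
  have e1 := h.en
  have ed : EG fun z => f z - Av R f z := hf.sub (eg_Av R hf)
  have eD : EG fun z => ∑ e ∈ R, f' e z ^ 2 := EG.sum _ fun e he => (hf' e he).pow 2
  have i1 : EG fun z => Real.exp (Ψ z) * (χ z * (f z - Av R f z) ^ 2) :=
    e1.mul (hχ.mul (ed.pow 2))
  have i2 : EG fun z => Real.exp (Ψ z) * (χ z * ∑ e ∈ R, f' e z ^ 2) := e1.mul (hχ.mul eD)
  rw [← integral_Av R i1, ← integral_Av R i2, ← integral_const_mul]
  refine integral_mono (eg_Av R i1).integrable ((eg_Av R i2).integrable.const_mul _) fun z => ?_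
  show Av R (fun z => Real.exp (Ψ z) * (χ z * (f z - Av R f z) ^ 2)) z ≤
    9 * Av R (fun z => Real.exp (Ψ z) * (χ z * ∑ e ∈ R, f' e z ^ 2)) z
  have a1 : Av R (fun z => Real.exp (Ψ z) * (χ z * (f z - Av R f z) ^ 2)) z =
      χ z * Av R (fun z => Real.exp (Ψ z) * (f z - Av R f z) ^ 2) z := by
    rw [← Av_mul iχ]
    congr 1; funext z; ring
  have a2 : Av R (fun z => Real.exp (Ψ z) * (χ z * ∑ e ∈ R, f' e z ^ 2)) z =
      χ z * Av R (fun z => Real.exp (Ψ z) * ∑ e ∈ R, f' e z ^ 2) z := by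
    rw [← Av_mul iχ]
    congr 1; funext z; ring
  rw [a1, a2]
  have := mul_le_mul_of_nonneg_left (LF.tch_av h hl hf hd hf' z) (h0 z)
  linarith

/-- **touches with a row-frozen psd form** -/
theorem LF.tchY (h : LF R Ψ Ψ' l) (hl : 16 * l ^ 2 ≤ 1) {q : Type} [Fintype q] [DecidableEq q]
    {Y : q → q → (ι → ℝ) → ℝ} (hYe : ∀ i j, EG (Y i j)) (hYi : ∀ i j, Ind R (Y i j))
    (hs : ∀ i j z, Y i j z = Y j i z)
    (hY : ∀ z, ∀ v : q → ℝ, 0 ≤ ∑ i, ∑ j, Y i j z * v i * v j)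
    {f : q → (ι → ℝ) → ℝ} {f' : q → ι → (ι → ℝ) → ℝ} (hf : ∀ i, EG (f i))
    (hd : ∀ i, ∀ e ∈ R, PD e (f i) (f' i e)) (hf' : ∀ i, ∀ e ∈ R, EG (f' i e)) :
    ∫ z, Real.exp (Ψ z) * ∑ i, ∑ j, Y i j z * (f i z - Av R (f i) z) *
        (f j z - Av R (f j) z) ∂(gI ι) ≤
      9 * ∫ z, Real.exp (Ψ z) * ∑ e ∈ R, ∑ i, ∑ j, Y i j z * f' i e z * f' j e z ∂(gI ι) := by
  have e1 := h.en
  have ed : ∀ i, EG fun z => f i z - Av R (f i) z := fun i => (hf i).sub (eg_Av R (hf i))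
  have i1 : EG fun z => Real.exp (Ψ z) * ∑ i, ∑ j, Y i j z * (f i z - Av R (f i) z) *
        (f j z - Av R (f j) z) :=
    e1.mul (EG.sum _ fun i _ => EG.sum _ fun j _ => ((hYe i j).mul (ed i)).mul (ed j))
  have i2 : EG fun z => Real.exp (Ψ z) * ∑ e ∈ R, ∑ i, ∑ j, Y i j z * f' i e z * f' j e z :=
    e1.mul (EG.sum _ fun e he => EG.sum _ fun i _ => EG.sum _ fun j _ =>
      ((hYe i j).mul (hf' i e he)).mul (hf' j e he))
  rw [← integral_Av R i1, ← integral_Av R i2, ← integral_const_mul]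
  refine integral_mono (eg_Av R i1).integrable ((eg_Av R i2).integrable.const_mul _) fun z => ?_
  have h1 := LG.tchY (h.lg z) hl (Y := fun i j => Y i j z) (fun i j => hs i j z) (hY z)
    (f := fun i w => f i (H712.sw R z w))
    (f' := fun i e w => if e ∈ R then f' i e (H712.sw R z w) else 0)
    (fun i => eg_sw (hf i) R z)
    (fun i e => by
      by_cases he : e ∈ R
      · simp only [he, if_true]; exact pd_sw (hd i e he) he z
      · simp only [he, if_false]; exact pd_sw' he z)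
    (fun i e => by
      by_cases he : e ∈ R
      · simp only [he, if_true]; exact eg_sw (hf' i e he) R z
      · simp only [he, if_false]; exact EG.const 0)
  have a1 : Av R (fun z => Real.exp (Ψ z) * ∑ i, ∑ j, Y i j z * (f i z - Av R (f i) z) *
        (f j z - Av R (f j) z)) z =
      ∫ w, Real.exp (Ψ (H712.sw R z w)) * ∑ i, ∑ j, Y i j z * (f i (H712.sw R z w) -
        ∫ w, f i (H712.sw R z w) ∂(gI ι)) * (f j (H712.sw R z w) -
        ∫ w, f j (H712.sw R z w) ∂(gI ι)) ∂(gI ι) := by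
    refine integral_congr_ae (ae_of_all _ fun w => ?_)
    show Real.exp (Ψ (H712.sw R z w)) * ∑ i, ∑ j, Y i j (H712.sw R z w) *
      (f i (H712.sw R z w) - Av R (f i) (H712.sw R z w)) *
        (f j (H712.sw R z w) - Av R (f j) (H712.sw R z w)) = _
    congr 1
    refine sum_congr rfl fun i _ => sum_congr rfl fun j _ => ?_
    rw [hYi i j z w, ind_Av R (f i) z w, ind_Av R (f j) z w]
    rfl
  have a2 : Av R (fun z => Real.exp (Ψ z) * ∑ e ∈ R, ∑ i, ∑ j, Y i j z * f' i e z * f' j e z) z =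
      ∫ w, Real.exp (Ψ (H712.sw R z w)) * ∑ e, ∑ i, ∑ j, Y i j z *
        (if e ∈ R then f' i e (H712.sw R z w) else 0) *
        (if e ∈ R then f' j e (H712.sw R z w) else 0) ∂(gI ι) := by
    refine integral_congr_ae (ae_of_all _ fun w => ?_)
    show Real.exp (Ψ (H712.sw R z w)) * ∑ e ∈ R, ∑ i, ∑ j, Y i j (H712.sw R z w) *
      f' i e (H712.sw R z w) * f' j e (H712.sw R z w) = _
    congr 1
    rw [← Finset.sum_filter_add_sum_filter_not univ (fun e => e ∈ R)]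
    rw [Finset.sum_congr (s₁ := filter (fun e => ¬ e ∈ R) univ) rfl (g := fun _ => (0 : ℝ)) (by
      intro e he; simp [(mem_filter.1 he).2])]
    simp only [sum_const_zero, add_zero]
    rw [show filter (fun e => e ∈ R) univ = R by ext e; simp]
    refine sum_congr rfl fun e he => sum_congr rfl fun i _ => sum_congr rfl fun j _ => ?_
    rw [hYi i j z w, if_pos he, if_pos he]
  show Av R (fun z => Real.exp (Ψ z) * ∑ i, ∑ j, Y i j z * (f i z - Av R (f i) z) *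
        (f j z - Av R (f j) z)) z ≤
    9 * Av R (fun z => Real.exp (Ψ z) * ∑ e ∈ R, ∑ i, ∑ j, Y i j z * f' i e z * f' j e z) z
  rw [a1, a2]
  exact h1

end fib

end Vale.Agent.P146.H350
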