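import Vale.Agent.P146.H350.TchK

/-! P146, R2: fourth moments of touches in the TRUE law, with a row-frozen weight. -/

set_option linter.all false

open MeasureTheory ProbabilityTheory Finset Filter Topology

namespace Vale.Agent.P146.H350

open Vale.Agent.P157.Lv Vale.Agent.P146.H712 Vale.Agent.P146.H706

section base

variable {ρ : Type} [Fintype ρ] [DecidableEq ρ]
variable {ψ : (ρ → ℝ) → ℝ} {ψ' : ρ → (ρ → ℝ) → ℝ} {l : ℝ}

/-- `E e^ψ E e^{-ψ} ≤ 8/7` -/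
lemma LG.prod_le (h : LG ψ ψ' l) (hl : 16 * l ^ 2 ≤ 1) :
    (∫ z, Real.exp (ψ z) ∂(gI ρ)) * ∫ z, Real.exp (-1 * ψ z) ∂(gI ρ) ≤ 8 / 7 := by
  set J := ∫ z, Real.exp (-1 * ψ z) ∂(gI ρ) with hJ
  have J0 : 0 ≤ J := integral_nonneg fun z => (Real.exp_pos _).le
  set I := ∫ z, Real.exp (ψ z) ∂(gI ρ) with hI
  have I0 : 0 ≤ I := integral_nonneg fun z => (Real.exp_pos _).le
  have cI : I ≤ Real.exp (∫ z, ψ z ∂(gI ρ) + l ^ 2) := by
    have := h.conc (t := 1) (by nlinarith [sq_nonneg l])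
    simpa [hI] using this
  have cJ : J ≤ Real.exp (-(∫ z, ψ z ∂(gI ρ)) + l ^ 2) := by
    have := h.conc (t := -1) (by nlinarith [sq_nonneg l])
    refine this.trans (le_of_eq ?_)
    congr 1
    ring
  have e2 : I * J ≤ Real.exp (2 * l ^ 2) := by
    refine (mul_le_mul cI cJ J0 (Real.exp_pos _).le).trans (le_of_eq ?_)
    rw [← Real.exp_add]; congr 1; ring
  refine e2.trans ?_
  have e3 : 1 - 2 * l ^ 2 ≤ Real.exp (-(2 * l ^ 2)) := by
    have := Real.add_one_le_exp (-(2 * l ^ 2)); linarith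
  have e4 : Real.exp (2 * l ^ 2) * Real.exp (-(2 * l ^ 2)) = 1 := by
    rw [← Real.exp_add]; simp
  have e5 : 7 / 8 ≤ 1 - 2 * l ^ 2 := by linarith
  have e6 : Real.exp (2 * l ^ 2) * (7 / 8) ≤ 1 := by
    rw [← e4]
    exact mul_le_mul_of_nonneg_left (e5.trans e3) (Real.exp_pos _).le
  linarith

/-- `(E D)² E e^ψ ≤ (8/7) E e^ψ D²` -/
lemma LG.mean_sq (h : LG ψ ψ' l) (hl : 16 * l ^ 2 ≤ 1) {D : (ρ → ℝ) → ℝ} (hD : EG D) :
    (∫ z, D z ∂(gI ρ)) ^ 2 * ∫ z, Real.exp (ψ z) ∂(gI ρ) ≤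
      8 / 7 * ∫ z, Real.exp (ψ z) * D z ^ 2 ∂(gI ρ) := by
  obtain ⟨-, k2⟩ := int_mul_le (P := gI ρ) (f := fun z => Real.exp (-(1 / 2) * ψ z))
    (g := fun z => Real.exp (1 / 2 * ψ z) * D z) (h.ee _).meas
    ((h.ee _).mul hD).meas ((h.ee _).pow 2).integrable (((h.ee _).mul hD).pow 2).integrable
  have y1 : ∀ z, Real.exp (-(1 / 2) * ψ z) * (Real.exp (1 / 2 * ψ z) * D z) = D z := by
    intro z
    rw [← mul_assoc, ← Real.exp_add]
    have : -(1 / 2) * ψ z + 1 / 2 * ψ z = 0 := by ring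
    rw [this, Real.exp_zero, one_mul]
  have y2 : ∀ z, Real.exp (-(1 / 2) * ψ z) ^ 2 = Real.exp (-1 * ψ z) := by
    intro z; rw [sq, ← Real.exp_add]; congr 1; ring
  have y3 : ∀ z, (Real.exp (1 / 2 * ψ z) * D z) ^ 2 = Real.exp (ψ z) * D z ^ 2 := by
    intro z; rw [mul_pow, sq (Real.exp (1 / 2 * ψ z)), ← Real.exp_add]; congr 2; ring
  simp only [y1, y2, y3] at k2
  set X := ∫ z, Real.exp (ψ z) * D z ^ 2 ∂(gI ρ) with hX
  have X0 : 0 ≤ X := integral_nonneg fun z => mul_nonneg (Real.exp_pos _).le (sq_nonneg _)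
  set J := ∫ z, Real.exp (-1 * ψ z) ∂(gI ρ) with hJ
  have J0 : 0 ≤ J := integral_nonneg fun z => (Real.exp_pos _).le
  have k3 : (∫ z, D z ∂(gI ρ)) ^ 2 ≤ J * X := by
    rw [← sq_abs, ← Real.sq_sqrt (mul_nonneg J0 X0), Real.sqrt_mul J0]
    exact pow_le_pow_left₀ (abs_nonneg _) k2 2
  have I0 : 0 ≤ ∫ z, Real.exp (ψ z) ∂(gI ρ) := integral_nonneg fun z => (Real.exp_pos _).le
  have k4 := mul_le_mul_of_nonneg_right k3 I0
  have k5 := mul_le_mul_of_nonneg_right (LG.prod_le h hl) X0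
  nlinarith

/-- **fourth moment of touches in the true law** -/
theorem LG.tch4 (h : LG ψ ψ' l) (hl : 16 * l ^ 2 ≤ 1) {q : Type} [Fintype q]
    {f : q → (ρ → ℝ) → ℝ} {f' : q → ρ → (ρ → ℝ) → ℝ}
    (hf : ∀ i, EG (f i)) (hd : ∀ i e, PD e (f i) (f' i e)) (hf' : ∀ i e, EG (f' i e)) :
    ∫ z, Real.exp (ψ z) * (∑ i, (f i z - ∫ w, f i w ∂(gI ρ)) ^ 2) ^ 2 ∂(gI ρ) ≤
      5200 * ∫ z, Real.exp (ψ z) * (∑ e, ∑ i, f' i e z ^ 2) ^ 2 ∂(gI ρ) := by
  have e1 : EG fun z => Real.exp (ψ z) := by simpa using h.ee 1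
  set m : q → ℝ := fun i => ∫ w, f i w ∂(gI ρ) with hm
  have ef : ∀ i, EG fun z => f i z - m i := fun i => (hf i).sub (EG.const _)
  set H : (ρ → ℝ) → ℝ := fun z => ∑ i, (f i z - m i) ^ 2 with hH
  have eH : EG H := EG.sum _ fun i _ => (ef i).pow 2
  set D : (ρ → ℝ) → ℝ := fun z => ∑ e, ∑ i, f' i e z ^ 2 with hDd
  have eD : EG D := EG.sum _ fun e _ => EG.sum _ fun i _ => (hf' i e).pow 2
  set H' : ρ → (ρ → ℝ) → ℝ := fun e z => ∑ i, 2 * ((f i z - m i) * f' i e z) with hH'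
  have eH' : ∀ e, EG (H' e) := fun e => EG.sum _ fun i _ => ((ef i).mul (hf' i e)).const_mul _
  have dH : ∀ e, PD e H (H' e) := by
    intro e
    refine PD.sum _ fun i _ => ?_
    have h1 := ((hd i e).sub (PD.const (m i))).mul ((hd i e).sub (PD.const (m i)))
    have h2 : (fun z => (f i z - m i) ^ 2) = fun z => (f i z - m i) * (f i z - m i) := by
      funext z; ring
    rw [h2]
    refine h1.congr fun y => ?_
    ring
  have H0 : ∀ z, 0 ≤ H z := fun z => sum_nonneg fun i _ => sq_nonneg _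
  have D0 : ∀ z, 0 ≤ D z := fun z => sum_nonneg fun e _ => sum_nonneg fun i _ => sq_nonneg _
  have hA := LG.tch h hl eH dH eH'
  have hB : ∀ z, ∑ e, H' e z ^ 2 ≤ 4 * (H z * D z) := by
    intro z
    have b1 : ∀ e, H' e z ^ 2 ≤ 4 * (H z * ∑ i, f' i e z ^ 2) := by
      intro e
      have c1 : H' e z = 2 * ∑ i, (f i z - m i) * f' i e z := by
        simp only [hH', mul_sum]
      rw [c1, mul_pow]
      have c2 := Finset.sum_mul_sq_le_sq_mul_sq univ (fun i => f i z - m i) (fun i => f' i e z)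
      have c3 : (2 : ℝ) ^ 2 = 4 := by norm_num
      rw [c3]
      exact mul_le_mul_of_nonneg_left c2 (by norm_num)
    refine (sum_le_sum fun e _ => b1 e).trans (le_of_eq ?_)
    simp only [hDd]
    rw [← mul_sum, ← mul_sum]
  set M := ∫ z, H z ∂(gI ρ) with hM
  have hC : M ≤ ∫ z, D z ∂(gI ρ) := by
    have c1 : M = ∑ i, ∫ z, (f i z - m i) ^ 2 ∂(gI ρ) := by
      rw [hM, ← integral_finsetSum _ fun i _ => ((ef i).pow 2).integrable]
    have c2 : ∫ z, D z ∂(gI ρ) = ∑ i, ∑ e, ∫ z, f' i e z ^ 2 ∂(gI ρ) := by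
      rw [sum_comm, hDd, integral_finsetSum _ fun e _ =>
        (EG.sum _ fun i _ => (hf' i e).pow 2).integrable]
      refine sum_congr rfl fun e _ => ?_
      rw [integral_finsetSum _ fun i _ => ((hf' i e).pow 2).integrable]
    rw [c1, c2]
    exact sum_le_sum fun i _ => cc_var_le_one (hf i) (hd i) (hf' i)
  have M0 : 0 ≤ M := integral_nonneg H0
  set D4 := ∫ z, Real.exp (ψ z) * D z ^ 2 ∂(gI ρ) with hD4
  set X4 := ∫ z, Real.exp (ψ z) * H z ^ 2 ∂(gI ρ) with hX4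
  set I := ∫ z, Real.exp (ψ z) ∂(gI ρ) with hI
  have I0 : 0 ≤ I := integral_nonneg fun z => (Real.exp_pos _).le
  have hE : M ^ 2 * I ≤ 8 / 7 * D4 := by
    have c1 : M ^ 2 ≤ (∫ z, D z ∂(gI ρ)) ^ 2 := pow_le_pow_left₀ M0 hC 2
    exact (mul_le_mul_of_nonneg_right c1 I0).trans (LG.mean_sq h hl eD)
  have iX : EG fun z => Real.exp (ψ z) * H z ^ 2 := e1.mul (eH.pow 2)
  have iD : EG fun z => Real.exp (ψ z) * D z ^ 2 := e1.mul (eD.pow 2)
  have iA : EG fun z => Real.exp (ψ z) * (H z - M) ^ 2 := e1.mul ((eH.sub (EG.const M)).pow 2)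
  have hF : X4 ≤ 2 * ∫ z, Real.exp (ψ z) * (H z - M) ^ 2 ∂(gI ρ) + 2 * M ^ 2 * I := by
    rw [hX4, hI, ← integral_const_mul, ← integral_const_mul,
      ← integral_add (iA.integrable.const_mul _) (e1.integrable.const_mul _)]
    refine integral_mono iX.integrable
      ((iA.integrable.const_mul _).add (e1.integrable.const_mul _)) fun z => ?_
    show Real.exp (ψ z) * H z ^ 2 ≤ 2 * (Real.exp (ψ z) * (H z - M) ^ 2) +
      2 * M ^ 2 * Real.exp (ψ z)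
    have a1 : H z ^ 2 ≤ 2 * (H z - M) ^ 2 + 2 * M ^ 2 := by
      nlinarith [sq_nonneg (H z - M - M)]
    have a2 := mul_le_mul_of_nonneg_left a1 (Real.exp_pos (ψ z)).le
    linarith
  have hG : 18 * ∫ z, Real.exp (ψ z) * ∑ e, H' e z ^ 2 ∂(gI ρ) ≤ 1 / 2 * X4 + 2592 * D4 := by
    rw [hX4, hD4, ← integral_const_mul, ← integral_const_mul, ← integral_const_mul,
      ← integral_add (iX.integrable.const_mul _) (iD.integrable.const_mul _)]
    refine integral_mono ((e1.mul (EG.sum _ fun e _ => (eH' e).pow 2)).const_mul _).integrable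
      ((iX.integrable.const_mul _).add (iD.integrable.const_mul _)) fun z => ?_
    show 18 * (Real.exp (ψ z) * ∑ e, H' e z ^ 2) ≤
      1 / 2 * (Real.exp (ψ z) * H z ^ 2) + 2592 * (Real.exp (ψ z) * D z ^ 2)
    have a1 : 18 * ∑ e, H' e z ^ 2 ≤ 1 / 2 * H z ^ 2 + 2592 * D z ^ 2 := by
      nlinarith [hB z, sq_nonneg (H z - 72 * D z)]
    have a2 := mul_le_mul_of_nonneg_left a1 (Real.exp_pos (ψ z)).le
    linarith
  have D40 : 0 ≤ D4 := integral_nonneg fun z => mul_nonneg (Real.exp_pos _).le (sq_nonneg _)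
  show X4 ≤ 5200 * D4
  linarith

end base

section fib

variable {ι : Type} [Fintype ι] [DecidableEq ι] {R : Finset ι} {Ψ : (ι → ℝ) → ℝ}
  {Ψ' : ι → (ι → ℝ) → ℝ} {l : ℝ} {q : Type} [Fintype q]

/-- **fourth moment of touches, fiber by fiber** -/
theorem LF.tch4_av (h : LF R Ψ Ψ' l) (hl : 16 * l ^ 2 ≤ 1) {f : q → (ι → ℝ) → ℝ}
    {f' : q → ι → (ι → ℝ) → ℝ} (hf : ∀ i, EG (f i)) (hd : ∀ i, ∀ e ∈ R, PD e (f i) (f' i e))
    (hf' : ∀ i, ∀ e ∈ R, EG (f' i e)) (z : ι → ℝ) :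
    Av R (fun z => Real.exp (Ψ z) * (∑ i, (f i z - Av R (f i) z) ^ 2) ^ 2) z ≤
      5200 * Av R (fun z => Real.exp (Ψ z) * (∑ e ∈ R, ∑ i, f' i e z ^ 2) ^ 2) z := by
  have h1 := LG.tch4 (h.lg z) hl (f := fun i w => f i (H712.sw R z w))
    (f' := fun i e w => if e ∈ R then f' i e (H712.sw R z w) else 0)
    (fun i => eg_sw (hf i) R z)
    (fun i e => by
      by_cases he : e ∈ R
      · simp only [he, if_true]; exact pd_sw (hd i e he) he z
      · simp only [he, if_false]; exact pd_sw' he z)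
    (fun i e => by
      by_cases he : e ∈ R
      · simp only [he, if_true]; exact eg_sw (hf' i e he) R z
      · simp only [he, if_false]; exact EG.const 0)
  have e1 : Av R (fun z => Real.exp (Ψ z) * (∑ i, (f i z - Av R (f i) z) ^ 2) ^ 2) z =
      ∫ w, Real.exp (Ψ (H712.sw R z w)) * (∑ i, (f i (H712.sw R z w) -
        ∫ w, f i (H712.sw R z w) ∂(gI ι)) ^ 2) ^ 2 ∂(gI ι) := by
    refine integral_congr_ae (ae_of_all _ fun w => ?_)
    show Real.exp (Ψ (H712.sw R z w)) *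
      (∑ i, (f i (H712.sw R z w) - Av R (f i) (H712.sw R z w)) ^ 2) ^ 2 = _
    have : ∀ i, Av R (f i) (H712.sw R z w) = ∫ w, f i (H712.sw R z w) ∂(gI ι) := fun i => by
      rw [ind_Av R (f i) z w]; rfl
    simp only [this]
  have e2 : Av R (fun z => Real.exp (Ψ z) * (∑ e ∈ R, ∑ i, f' i e z ^ 2) ^ 2) z =
      ∫ w, Real.exp (Ψ (H712.sw R z w)) *
        (∑ e, ∑ i, (if e ∈ R then f' i e (H712.sw R z w) else 0) ^ 2) ^ 2 ∂(gI ι) := by
    refine integral_congr_ae (ae_of_all _ fun w => ?_)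
    show Real.exp (Ψ (H712.sw R z w)) * (∑ e ∈ R, ∑ i, f' i e (H712.sw R z w) ^ 2) ^ 2 = _
    have : ∑ e, ∑ i, (if e ∈ R then f' i e (H712.sw R z w) else 0) ^ 2 =
        ∑ e ∈ R, ∑ i, f' i e (H712.sw R z w) ^ 2 := by
      rw [← Finset.sum_filter_add_sum_filter_not univ (fun e => e ∈ R)]
      rw [Finset.sum_congr (s₁ := filter (fun e => ¬ e ∈ R) univ) rfl (g := fun _ => (0 : ℝ)) (by
        intro e he; simp [(mem_filter.1 he).2])]
      simp only [sum_const_zero, add_zero]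
      rw [show filter (fun e => e ∈ R) univ = R by ext e; simp]
      refine sum_congr rfl fun e he => sum_congr rfl fun i _ => ?_
      rw [if_pos he]
    rw [← this]
  rw [e1, e2]
  exact h1

/-- **fourth moment of touches with a row-frozen weight** -/
theorem LF.tch4 (h : LF R Ψ Ψ' l) (hl : 16 * l ^ 2 ≤ 1) {f : q → (ι → ℝ) → ℝ}
    {f' : q → ι → (ι → ℝ) → ℝ} {χ : (ι → ℝ) → ℝ} (hf : ∀ i, EG (f i))
    (hd : ∀ i, ∀ e ∈ R, PD e (f i) (f' i e))
    (hf' : ∀ i, ∀ e ∈ R, EG (f' i e)) (hχ : EG χ) (iχ : Ind R χ) (h0 : ∀ z, 0 ≤ χ z) :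
    ∫ z, Real.exp (Ψ z) * (χ z * (∑ i, (f i z - Av R (f i) z) ^ 2) ^ 2) ∂(gI ι) ≤
      5200 * ∫ z, Real.exp (Ψ z) * (χ z * (∑ e ∈ R, ∑ i, f' i e z ^ 2) ^ 2) ∂(gI ι) := by
  have e1 := h.en
  have ed : EG fun z => (∑ i, (f i z - Av R (f i) z) ^ 2) ^ 2 :=
    (EG.sum _ fun i _ => ((hf i).sub (eg_Av R (hf i))).pow 2).pow 2
  have eD : EG fun z => (∑ e ∈ R, ∑ i, f' i e z ^ 2) ^ 2 :=
    (EG.sum _ fun e he => EG.sum _ fun i _ => (hf' i e he).pow 2).pow 2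
  have i1 : EG fun z => Real.exp (Ψ z) * (χ z * (∑ i, (f i z - Av R (f i) z) ^ 2) ^ 2) :=
    e1.mul (hχ.mul ed)
  have i2 : EG fun z => Real.exp (Ψ z) * (χ z * (∑ e ∈ R, ∑ i, f' i e z ^ 2) ^ 2) :=
    e1.mul (hχ.mul eD)
  rw [← integral_Av R i1, ← integral_Av R i2, ← integral_const_mul]
  refine integral_mono (eg_Av R i1).integrable ((eg_Av R i2).integrable.const_mul _) fun z => ?_
  show Av R (fun z => Real.exp (Ψ z) * (χ z * (∑ i, (f i z - Av R (f i) z) ^ 2) ^ 2)) z ≤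
    5200 * Av R (fun z => Real.exp (Ψ z) * (χ z * (∑ e ∈ R, ∑ i, f' i e z ^ 2) ^ 2)) z
  have a1 : Av R (fun z => Real.exp (Ψ z) * (χ z * (∑ i, (f i z - Av R (f i) z) ^ 2) ^ 2)) z =
      χ z * Av R (fun z => Real.exp (Ψ z) * (∑ i, (f i z - Av R (f i) z) ^ 2) ^ 2) z := by
    rw [← Av_mul iχ]
    congr 1; funext z; ring
  have a2 : Av R (fun z => Real.exp (Ψ z) * (χ z * (∑ e ∈ R, ∑ i, f' i e z ^ 2) ^ 2)) z =
      χ z * Av R (fun z => Real.exp (Ψ z) * (∑ e ∈ R, ∑ i, f' i e z ^ 2) ^ 2) z := by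
    rw [← Av_mul iχ]
    congr 1; funext z; ring
  rw [a1, a2]
  have := mul_le_mul_of_nonneg_left (LF.tch4_av h hl hf hd hf' z) (h0 z)
  linarith

end fib

end Vale.Agent.P146.H350
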