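import Vale.Agent.P146.H350.Tch
import Vale.Agent.P146.H706G.LawNN
import Vale.Agent.P146.H364.Pb

/-! P146, R2: touches of matrices of K4 in the true law, with a row-frozen weight or form
(constant 9), and the touches of `C` by its row average `Cb` (364's, row and column `b` zero). -/

set_option linter.all false

open MeasureTheory ProbabilityTheory Finset

namespace Vale.Agent.P146.H350

open Vale.Agent.P157.Lv Vale.Agent.P146.H425 Vale.Agent.P146.H325 Vale.Agent.P146.H332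
  Vale.Agent.P146.H712 Vale.Agent.P146.R1 Vale.Agent.P146.R1C Vale.Agent.P146.H706
  Vale.Agent.P146.R1S Vale.Agent.P146.H191

variable {n : ℕ} {k x : ℝ} {b : Fin n} {Ψ : (K4 (Pair n) → ℝ) → ℝ}
  {Ψ' : K4 (Pair n) → (K4 (Pair n) → ℝ) → ℝ} {l : ℝ} {φ χ : (K4 (Pair n) → ℝ) → ℝ}

/-- `Σ_{j ∈ lf R} a(bl j)² g(bs j) = vr a Σ_{e ∈ R} g e` -/
lemma sum_lf_sq (a : Fin 4 → ℝ) (R : Finset (Pair n)) (g : Pair n → ℝ) :
    ∑ j ∈ lf R, a (bl j) ^ 2 * g (bs j) = vr a * ∑ e ∈ R, g e := by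
  rw [sum_lf]
  simp only [bl, bs, vr, mul_sum, add_mul, sum_add_distrib, Fin.sum_univ_four]
  try simp only [← mul_sum]
  try ring

lemma swap3 (y u v : Fin n → Fin n → ℝ) : ∑ i, ∑ j, y i j * ∑ l, u i l * v j l =
    ∑ l, ∑ i, ∑ j, y i j * u i l * v j l := by
  rw [sum_comm (s := (univ : Finset (Fin n)))]
  have h1 : ∀ j : Fin n, ∑ i, y i j * ∑ l, u i l * v j l = ∑ l, ∑ i, y i j * u i l * v j l := by
    intro j
    rw [sum_comm]
    refine sum_congr rfl fun i _ => ?_
    rw [mul_sum]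
    exact sum_congr rfl fun l _ => by ring
  simp only [h1]
  rw [sum_comm]
  refine sum_congr rfl fun l _ => ?_
  rw [sum_comm]

section gen

variable {C : MF n} {C' : K4 (Pair n) → MF n}

/-- touches of a matrix, weight -/
theorem tch_fr (h : LF (lf (row b)) Ψ Ψ' l) (hl : 16 * l ^ 2 ≤ 1)
    (hφ : ∀ w, φ w = Real.exp (Ψ w)) (hC : ∀ i l, EG fun w => C w i l)
    (hd : ∀ i l, ∀ j ∈ lf (row b), PD j (fun w => C w i l) fun w => C' j w i l)
    (hC' : ∀ i l, ∀ j ∈ lf (row b), EG fun w => C' j w i l)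
    (hχ : EG χ) (iχ : Ind (lf (row b)) χ) (h0 : ∀ w, 0 ≤ χ w) :
    Im φ (fun w => χ w * ∑ i, ∑ l, (C w i l - Av (lf (row b)) (fun w => C w i l) w) ^ 2) ≤
      9 * Im φ (fun w => χ w * ∑ j ∈ lf (row b), ∑ i, ∑ l, C' j w i l ^ 2) := by
  have eφ : φ = fun w => Real.exp (Ψ w) := funext hφ
  subst eφ
  have e1 := h.en
  have h1 : ∀ i l, ∫ z, Real.exp (Ψ z) *
      (χ z * (C z i l - Av (lf (row b)) (fun w => C w i l) z) ^ 2) ∂(gI (K4 (Pair n))) ≤
      9 * ∫ z, Real.exp (Ψ z) * (χ z * ∑ j ∈ lf (row b), C' j z i l ^ 2)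
        ∂(gI (K4 (Pair n))) := fun i l =>
    LF.tch h hl (hC i l) (hd i l) (hC' i l) hχ iχ h0
  have ed : ∀ i l, EG fun z => C z i l - Av (lf (row b)) (fun w => C w i l) z := fun i l =>
    (hC i l).sub (eg_Av _ (hC i l))
  have L : Im (fun w => Real.exp (Ψ w)) (fun w => χ w * ∑ i, ∑ l,
      (C w i l - Av (lf (row b)) (fun w => C w i l) w) ^ 2) =
      ∑ i, ∑ l, ∫ z, Real.exp (Ψ z) *
      (χ z * (C z i l - Av (lf (row b)) (fun w => C w i l) z) ^ 2) ∂(gI (K4 (Pair n))) := by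
    unfold Im
    rw [Finset.sum_congr rfl fun i _ => (integral_finsetSum _ fun l _ =>
      (e1.mul (hχ.mul ((ed i l).pow 2))).integrable).symm,
      ← integral_finsetSum _ fun i _ => (EG.sum _ fun l _ =>
        e1.mul (hχ.mul ((ed i l).pow 2))).integrable]
    refine integral_congr_ae (ae_of_all _ fun w => ?_)
    simp only [mul_sum]
  have Rr : Im (fun w => Real.exp (Ψ w)) (fun w => χ w * ∑ j ∈ lf (row b), ∑ i, ∑ l,
      C' j w i l ^ 2) =
      ∑ i, ∑ l, ∫ z, Real.exp (Ψ z) * (χ z * ∑ j ∈ lf (row b), C' j z i l ^ 2)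
        ∂(gI (K4 (Pair n))) := by
    unfold Im
    rw [Finset.sum_congr rfl fun i _ => (integral_finsetSum _ fun l _ =>
      (e1.mul (hχ.mul (EG.sum _ fun j hj => (hC' i l j hj).pow 2))).integrable).symm,
      ← integral_finsetSum _ fun i _ => (EG.sum _ fun l _ =>
        e1.mul (hχ.mul (EG.sum _ fun j hj => (hC' i l j hj).pow 2))).integrable]
    refine integral_congr_ae (ae_of_all _ fun w => ?_)
    simp only [mul_sum]
    rw [sum_comm]
    refine sum_congr rfl fun i _ => ?_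
    rw [sum_comm]
  rw [L, Rr, mul_sum]
  refine sum_le_sum fun i _ => ?_
  rw [mul_sum]
  exact sum_le_sum fun l _ => h1 i l

/-- touches of a matrix, psd form not depending on the row -/
theorem tch_form (h : LF (lf (row b)) Ψ Ψ' l) (hl : 16 * l ^ 2 ≤ 1)
    (hφ : ∀ w, φ w = Real.exp (Ψ w)) {Y : MF n} (hYe : ∀ i j, EG fun w => Y w i j)
    (hYi : Ifz b Y) (hs : ∀ w i j, Y w i j = Y w j i)
    (hY : ∀ w, ∀ v : Fin n → ℝ, 0 ≤ ∑ i, ∑ j, Y w i j * v i * v j)
    (hC : ∀ i l, EG fun w => C w i l)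
    (hd : ∀ i l, ∀ j ∈ lf (row b), PD j (fun w => C w i l) fun w => C' j w i l)
    (hC' : ∀ i l, ∀ j ∈ lf (row b), EG fun w => C' j w i l) :
    Im φ (fun w => ∑ i, ∑ j, Y w i j * ∑ l,
      (C w i l - Av (lf (row b)) (fun w => C w i l) w) *
        (C w j l - Av (lf (row b)) (fun w => C w j l) w)) ≤
      9 * Im φ (fun w => ∑ e ∈ lf (row b), ∑ i, ∑ j, Y w i j * ∑ l, C' e w i l * C' e w j l) := by
  have eφ : φ = fun w => Real.exp (Ψ w) := funext hφ
  subst eφ
  have e1 := h.en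
  have ed : ∀ i l, EG fun z => C z i l - Av (lf (row b)) (fun w => C w i l) z := fun i l =>
    (hC i l).sub (eg_Av _ (hC i l))
  have h1 := fun l : Fin n => LF.tchY h hl (Y := fun i j w => Y w i j) hYe hYi
    (fun i j w => hs w i j) hY (f := fun i w => C w i l) (f' := fun i j w => C' j w i l)
    (fun i => hC i l) (fun i => hd i l) (fun i => hC' i l)
  have iL : ∀ l, EG fun w => Real.exp (Ψ w) * ∑ i, ∑ j, Y w i j *
      (C w i l - Av (lf (row b)) (fun w => C w i l) w) *
        (C w j l - Av (lf (row b)) (fun w => C w j l) w) := fun l =>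
    e1.mul (EG.sum _ fun i _ => EG.sum _ fun j _ => ((hYe i j).mul (ed i l)).mul (ed j l))
  have iR : ∀ l, EG fun w => Real.exp (Ψ w) * ∑ e ∈ lf (row b), ∑ i, ∑ j, Y w i j *
      C' e w i l * C' e w j l := fun l =>
    e1.mul (EG.sum _ fun e he => EG.sum _ fun i _ => EG.sum _ fun j _ =>
      ((hYe i j).mul (hC' i l e he)).mul (hC' j l e he))
  have L : Im (fun w => Real.exp (Ψ w)) (fun w => ∑ i, ∑ j, Y w i j * ∑ l,
      (C w i l - Av (lf (row b)) (fun w => C w i l) w) *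
        (C w j l - Av (lf (row b)) (fun w => C w j l) w)) =
      ∑ l, ∫ w, Real.exp (Ψ w) * ∑ i, ∑ j, Y w i j *
      (C w i l - Av (lf (row b)) (fun w => C w i l) w) *
        (C w j l - Av (lf (row b)) (fun w => C w j l) w) ∂(gI (K4 (Pair n))) := by
    unfold Im
    rw [← integral_finsetSum _ fun l _ => (iL l).integrable]
    refine integral_congr_ae (ae_of_all _ fun w => ?_)
    simp only [← mul_sum]
    congr 1
    exact swap3 (Y w) (fun i l => C w i l - Av (lf (row b)) (fun w => C w i l) w)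
      (fun i l => C w i l - Av (lf (row b)) (fun w => C w i l) w)
  have Rr : Im (fun w => Real.exp (Ψ w)) (fun w => ∑ e ∈ lf (row b), ∑ i, ∑ j, Y w i j *
      ∑ l, C' e w i l * C' e w j l) =
      ∑ l, ∫ w, Real.exp (Ψ w) * ∑ e ∈ lf (row b), ∑ i, ∑ j, Y w i j *
      C' e w i l * C' e w j l ∂(gI (K4 (Pair n))) := by
    unfold Im
    rw [← integral_finsetSum _ fun l _ => (iR l).integrable]
    refine integral_congr_ae (ae_of_all _ fun w => ?_)
    simp only [← mul_sum]
    congr 1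
    rw [sum_comm (s := (univ : Finset (Fin n))) (t := lf (row b))]
    exact sum_congr rfl fun e _ => swap3 (Y w) (C' e w) (C' e w)
  rw [L, Rr, mul_sum]
  exact sum_le_sum fun l _ => h1 l

end gen

section cs

variable {S : CS n k x} {s : ℝ} {a : Fin 4 → ℝ}

/-- touches of `C` in the row `b`, weight -/
theorem tch_A (h : LF (lf (row b)) Ψ Ψ' l) (hl : 16 * l ^ 2 ≤ 1)
    (hφ : ∀ w, φ w = Real.exp (Ψ w)) (hχ : EG χ) (iχ : Ind (lf (row b)) χ) (h0 : ∀ w, 0 ≤ χ w) :
    Im φ (fun w => χ w * ∑ i, ∑ l, (S.A s (H712.lp a w) i l -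
      Av (lf (row b)) (fun w => S.A s (H712.lp a w) i l) w) ^ 2) ≤
      9 * vr a * Im φ (fun w => χ w * ∑ e ∈ row b, fr (S.DA s e (H712.lp a w))) := by
  have h1 := tch_fr h hl hφ (C := fun w => S.A s (H712.lp a w))
    (C' := fun j w i l => a (bl j) * S.DA s (bs j) (H712.lp a w) i l)
    (fun i l => eg_lp a (S.eg_A s i l)) (fun i l j _ => pd_lp a (S.pd_A s (bs j) i l))
    (fun i l j _ => (eg_lp a (S.eg_DA s (bs j) i l)).const_mul _) hχ iχ h0
  refine h1.trans (le_of_eq ?_)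
  unfold Im
  rw [mul_assoc, ← integral_const_mul (vr a)]
  congr 1
  refine integral_congr_ae (ae_of_all _ fun w => ?_)
  simp only
  have e2 := sum_lf_sq a (row b) (fun e => fr (S.DA s e (H712.lp a w)))
  have e3 : ∑ j ∈ lf (row b), ∑ i, ∑ l, (a (bl j) * S.DA s (bs j) (H712.lp a w) i l) ^ 2 =
      ∑ j ∈ lf (row b), a (bl j) ^ 2 * fr (S.DA s (bs j) (H712.lp a w)) := by
    refine sum_congr rfl fun j _ => ?_
    unfold fr
    simp only [mul_sum, mul_pow]
  rw [e3, e2]
  ring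

/-- the form of the square of a matrix -/
def tq (Y D : Fin n → Fin n → ℝ) : ℝ := ∑ i, ∑ j, Y i j * ∑ l, D i l * D j l

/-- touches of `C` in the row `b`, psd form not depending on the row -/
theorem tch_AY (h : LF (lf (row b)) Ψ Ψ' l) (hl : 16 * l ^ 2 ≤ 1)
    (hφ : ∀ w, φ w = Real.exp (Ψ w)) {Y : MF n} (hYe : ∀ i j, EG fun w => Y w i j)
    (hYi : Ifz b Y) (hs : ∀ w i j, Y w i j = Y w j i)
    (hY : ∀ w, ∀ v : Fin n → ℝ, 0 ≤ ∑ i, ∑ j, Y w i j * v i * v j) :
    Im φ (fun w => tq (Y w) fun i l => S.A s (H712.lp a w) i l -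
        Av (lf (row b)) (fun w => S.A s (H712.lp a w) i l) w) ≤
      9 * vr a * Im φ (fun w => ∑ e ∈ row b, tq (Y w) (S.DA s e (H712.lp a w))) := by
  have h1 := tch_form h hl hφ hYe hYi hs hY (C := fun w => S.A s (H712.lp a w))
    (C' := fun j w i l => a (bl j) * S.DA s (bs j) (H712.lp a w) i l)
    (fun i l => eg_lp a (S.eg_A s i l)) (fun i l j _ => pd_lp a (S.pd_A s (bs j) i l))
    (fun i l j _ => (eg_lp a (S.eg_DA s (bs j) i l)).const_mul _)
  refine h1.trans (le_of_eq ?_)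
  unfold Im
  rw [mul_assoc, ← integral_const_mul (vr a)]
  congr 1
  refine integral_congr_ae (ae_of_all _ fun w => ?_)
  simp only
  have e2 := sum_lf_sq a (row b) (fun e => tq (Y w) (S.DA s e (H712.lp a w)))
  have e3 : ∑ e ∈ lf (row b), ∑ i, ∑ j, Y w i j * ∑ l,
      a (bl e) * S.DA s (bs e) (H712.lp a w) i l * (a (bl e) * S.DA s (bs e) (H712.lp a w) j l) =
      ∑ j ∈ lf (row b), a (bl j) ^ 2 * tq (Y w) (S.DA s (bs j) (H712.lp a w)) := by
    refine sum_congr rfl fun j _ => ?_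
    unfold tq
    simp only [mul_sum]
    refine sum_congr rfl fun i _ => sum_congr rfl fun j' _ => sum_congr rfl fun l _ => ?_
    ring
  rw [e3, e2]
  ring

/-- the difference to `Cb` and to the row average -/
lemma sub_Cb (w : K4 (Pair n) → ℝ) (i l : Fin n) :
    S.A s (H712.lp a w) i l - H364.Cb S s a b w i l =
      if i = b ∨ l = b then S.A s (H712.lp a w) i l else S.A s (H712.lp a w) i l -
        Av (lf (row b)) (fun w => S.A s (H712.lp a w) i l) w := by
  unfold H364.Cb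
  by_cases h : i = b ∨ l = b
  · simp only [if_pos h, sub_zero]
  · simp only [if_neg h]

/-- `|C - C_b|² ≤ |C - Av C|² + 2 |C^(b)|²` -/
lemma fr_sub_Cb (w : K4 (Pair n) → ℝ) :
    ∑ i, ∑ l, (S.A s (H712.lp a w) i l - H364.Cb S s a b w i l) ^ 2 ≤
      ∑ i, ∑ l, (S.A s (H712.lp a w) i l -
        Av (lf (row b)) (fun w => S.A s (H712.lp a w) i l) w) ^ 2 +
      2 * ∑ i, S.A s (H712.lp a w) i b ^ 2 := by
  have h1 : ∀ i l, (S.A s (H712.lp a w) i l - H364.Cb S s a b w i l) ^ 2 ≤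
      (S.A s (H712.lp a w) i l -
        Av (lf (row b)) (fun w => S.A s (H712.lp a w) i l) w) ^ 2 +
      ((if i = b then S.A s (H712.lp a w) l b ^ 2 else 0) +
        if l = b then S.A s (H712.lp a w) i b ^ 2 else 0) := by
    intro i l
    rw [sub_Cb]
    have q0 := sq_nonneg (S.A s (H712.lp a w) i l -
        Av (lf (row b)) (fun w => S.A s (H712.lp a w) i l) w)
    have q1 := sq_nonneg (S.A s (H712.lp a w) l b)
    have q2 := sq_nonneg (S.A s (H712.lp a w) i b)
    by_cases hi : i = b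
    · subst hi
      have e2 : S.A s (H712.lp a w) i l ^ 2 = S.A s (H712.lp a w) l i ^ 2 := by
        rw [S.A_comm s _ i l]
      rw [if_pos (Or.inl rfl), if_pos rfl]
      by_cases hl' : l = i
      · rw [if_pos hl']; linarith
      · rw [if_neg hl']; linarith
    · by_cases hl' : l = b
      · subst hl'
        rw [if_pos (Or.inr rfl), if_neg hi, if_pos rfl]; linarith
      · rw [if_neg (by tauto), if_neg hi, if_neg hl']; linarith
  refine (sum_le_sum fun i _ => sum_le_sum fun l _ => h1 i l).trans (le_of_eq ?_)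
  simp only [sum_add_distrib]
  congr 1
  have e1 : ∑ i : Fin n, ∑ l : Fin n, (if i = b then S.A s (H712.lp a w) l b ^ 2 else 0) =
      ∑ l, S.A s (H712.lp a w) l b ^ 2 := by
    rw [sum_comm]
    exact sum_congr rfl fun l _ => by simp
  have e2 : ∑ i : Fin n, ∑ l : Fin n, (if l = b then S.A s (H712.lp a w) i b ^ 2 else 0) =
      ∑ l, S.A s (H712.lp a w) l b ^ 2 := by
    exact sum_congr rfl fun l _ => by simp
  rw [e1, e2]; ring

/-- the same with a psd form without the row and the column `b` -/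
lemma tq_sub_Cb {Y : Fin n → Fin n → ℝ}
    (hY : ∀ v : Fin n → ℝ, 0 ≤ ∑ i, ∑ j, Y i j * v i * v j)
    (hr : ∀ i, Y i b = 0) (hr' : ∀ i, Y b i = 0) (w : K4 (Pair n) → ℝ) :
    tq Y (fun i l => S.A s (H712.lp a w) i l - H364.Cb S s a b w i l) ≤
      tq Y (fun i l => S.A s (H712.lp a w) i l -
        Av (lf (row b)) (fun w => S.A s (H712.lp a w) i l) w) +
      ∑ i, ∑ j, Y i j * (S.A s (H712.lp a w) i b * S.A s (H712.lp a w) j b) := by
  set D : Fin n → Fin n → ℝ := fun i l => S.A s (H712.lp a w) i l -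
        Av (lf (row b)) (fun w => S.A s (H712.lp a w) i l) w with hD
  have h1 : ∀ i j, Y i j * ∑ l, (S.A s (H712.lp a w) i l - H364.Cb S s a b w i l) *
      (S.A s (H712.lp a w) j l - H364.Cb S s a b w j l) =
      Y i j * ∑ l, D i l * D j l - Y i j * D i b * D j b +
        Y i j * (S.A s (H712.lp a w) i b * S.A s (H712.lp a w) j b) := by
    intro i j
    by_cases hi : i = b
    · subst hi; rw [hr']; ring
    · by_cases hj : j = b
      · subst hj; rw [hr]; ring
      · have e1 : ∀ l, (S.A s (H712.lp a w) i l - H364.Cb S s a b w i l) *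
            (S.A s (H712.lp a w) j l - H364.Cb S s a b w j l) = D i l * D j l +
            if l = b then S.A s (H712.lp a w) i b * S.A s (H712.lp a w) j b - D i b * D j b
              else 0 := by
          intro l
          rw [sub_Cb, sub_Cb]
          by_cases hl' : l = b
          · subst hl'
            rw [if_pos (Or.inr rfl), if_pos (Or.inr rfl), if_pos rfl]; ring
          · rw [if_neg (by tauto), if_neg (by tauto), if_neg hl', add_zero]
        simp only [e1, sum_add_distrib]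
        simp only [sum_ite_eq', mem_univ, if_true]
        ring
  unfold tq
  simp only [h1, sum_add_distrib, sum_sub_distrib]
  have := hY fun i => D i b
  linarith

/-- **touches of `C` by `Cb`, weight** -/
theorem tch_Cb (h : LF (lf (row b)) Ψ Ψ' l) (hl : 16 * l ^ 2 ≤ 1)
    (hφ : ∀ w, φ w = Real.exp (Ψ w)) (hχ : EG χ) (iχ : Ind (lf (row b)) χ) (h0 : ∀ w, 0 ≤ χ w) :
    Im φ (fun w => χ w * ∑ i, ∑ l, (S.A s (H712.lp a w) i l - H364.Cb S s a b w i l) ^ 2) ≤
      9 * vr a * Im φ (fun w => χ w * ∑ e ∈ row b, fr (S.DA s e (H712.lp a w))) +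
      2 * Im φ (fun w => χ w * ∑ i, S.A s (H712.lp a w) i b ^ 2) := by
  have eφ : φ = fun w => Real.exp (Ψ w) := funext hφ
  have e1 : EG φ := by rw [eφ]; exact h.en
  have p0 : ∀ w, 0 ≤ φ w := fun w => by rw [hφ]; exact (Real.exp_pos _).le
  have eA : ∀ i l, EG fun w : K4 (Pair n) → ℝ => S.A s (H712.lp a w) i l := fun i l =>
    eg_lp a (S.eg_A s i l)
  have ed : ∀ i l, EG fun w => S.A s (H712.lp a w) i l -
      Av (lf (row b)) (fun w => S.A s (H712.lp a w) i l) w := fun i l =>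
    (eA i l).sub (eg_Av _ (eA i l))
  have ec : ∀ i l, EG fun w => S.A s (H712.lp a w) i l - H364.Cb S s a b w i l := fun i l =>
    (eA i l).sub (H364.eg_Cb i l)
  have h1 := tch_A (a := a) (S := S) (s := s) h hl hφ hχ iχ h0
  have i1 : EG fun w => φ w * (χ w * ∑ i, ∑ l, (S.A s (H712.lp a w) i l -
        Av (lf (row b)) (fun w => S.A s (H712.lp a w) i l) w) ^ 2) :=
    e1.mul (hχ.mul (EG.sum _ fun i _ => EG.sum _ fun l _ => (ed i l).pow 2))
  have i2 : EG fun w => φ w * (χ w * ∑ i, S.A s (H712.lp a w) i b ^ 2) :=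
    e1.mul (hχ.mul (EG.sum _ fun i _ => (eA i b).pow 2))
  have i3 : EG fun w => φ w * (χ w * ∑ i, ∑ l, (S.A s (H712.lp a w) i l -
      H364.Cb S s a b w i l) ^ 2) :=
    e1.mul (hχ.mul (EG.sum _ fun i _ => EG.sum _ fun l _ => (ec i l).pow 2))
  have h2 : Im φ (fun w => χ w * ∑ i, ∑ l, (S.A s (H712.lp a w) i l -
      H364.Cb S s a b w i l) ^ 2) ≤ Im φ (fun w => χ w * ∑ i, ∑ l, (S.A s (H712.lp a w) i l -
        Av (lf (row b)) (fun w => S.A s (H712.lp a w) i l) w) ^ 2) +
      2 * Im φ (fun w => χ w * ∑ i, S.A s (H712.lp a w) i b ^ 2) := by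
    unfold Im
    rw [← integral_const_mul, ← integral_add i1.integrable (i2.integrable.const_mul _)]
    refine integral_mono i3.integrable (i1.integrable.add (i2.integrable.const_mul _)) fun w => ?_
    have a1 := mul_le_mul_of_nonneg_left (fr_sub_Cb (S := S) (s := s) (a := a) (b := b) w) (h0 w)
    have a2 := mul_le_mul_of_nonneg_left a1 (p0 w)
    simp only [Pi.add_apply]
    linarith
  linarith

/-- **touches of `C` by `Cb`, psd form** -/
theorem tch_CbY (h : LF (lf (row b)) Ψ Ψ' l) (hl : 16 * l ^ 2 ≤ 1)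
    (hφ : ∀ w, φ w = Real.exp (Ψ w)) {Y : MF n} (hYe : ∀ i j, EG fun w => Y w i j)
    (hYi : Ifz b Y) (hs : ∀ w i j, Y w i j = Y w j i)
    (hY : ∀ w, ∀ v : Fin n → ℝ, 0 ≤ ∑ i, ∑ j, Y w i j * v i * v j) (hr : ∀ w i, Y w i b = 0) :
    Im φ (fun w => tq (Y w) fun i l => S.A s (H712.lp a w) i l - H364.Cb S s a b w i l) ≤
      9 * vr a * Im φ (fun w => ∑ e ∈ row b, tq (Y w) (S.DA s e (H712.lp a w))) +
      Im φ (fun w => ∑ i, ∑ j, Y w i j * (S.A s (H712.lp a w) i b * S.A s (H712.lp a w) j b)) := by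
  have eφ : φ = fun w => Real.exp (Ψ w) := funext hφ
  have e1 : EG φ := by rw [eφ]; exact h.en
  have p0 : ∀ w, 0 ≤ φ w := fun w => by rw [hφ]; exact (Real.exp_pos _).le
  have eA : ∀ i l, EG fun w : K4 (Pair n) → ℝ => S.A s (H712.lp a w) i l := fun i l =>
    eg_lp a (S.eg_A s i l)
  have ed : ∀ i l, EG fun w => S.A s (H712.lp a w) i l -
      Av (lf (row b)) (fun w => S.A s (H712.lp a w) i l) w := fun i l =>
    (eA i l).sub (eg_Av _ (eA i l))
  have ec : ∀ i l, EG fun w => S.A s (H712.lp a w) i l - H364.Cb S s a b w i l := fun i l =>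
    (eA i l).sub (H364.eg_Cb i l)
  have h1 := tch_AY (a := a) (S := S) (s := s) h hl hφ hYe hYi hs hY
  have i1 : EG fun w => φ w * tq (Y w) fun i l => S.A s (H712.lp a w) i l -
        Av (lf (row b)) (fun w => S.A s (H712.lp a w) i l) w :=
    e1.mul (EG.sum _ fun i _ => EG.sum _ fun j _ => (hYe i j).mul
      (EG.sum _ fun l _ => (ed i l).mul (ed j l)))
  have i2 : EG fun w => φ w * ∑ i, ∑ j, Y w i j *
      (S.A s (H712.lp a w) i b * S.A s (H712.lp a w) j b) :=
    e1.mul (EG.sum _ fun i _ => EG.sum _ fun j _ => (hYe i j).mul ((eA i b).mul (eA j b)))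
  have i3 : EG fun w => φ w * tq (Y w) fun i l => S.A s (H712.lp a w) i l -
      H364.Cb S s a b w i l :=
    e1.mul (EG.sum _ fun i _ => EG.sum _ fun j _ => (hYe i j).mul
      (EG.sum _ fun l _ => (ec i l).mul (ec j l)))
  have h2 : Im φ (fun w => tq (Y w) fun i l => S.A s (H712.lp a w) i l -
      H364.Cb S s a b w i l) ≤ Im φ (fun w => tq (Y w) fun i l => S.A s (H712.lp a w) i l -
        Av (lf (row b)) (fun w => S.A s (H712.lp a w) i l) w) +
      Im φ (fun w => ∑ i, ∑ j, Y w i j *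
        (S.A s (H712.lp a w) i b * S.A s (H712.lp a w) j b)) := by
    unfold Im
    rw [← integral_add i1.integrable i2.integrable]
    refine integral_mono i3.integrable (i1.integrable.add i2.integrable) fun w => ?_
    have a1 := tq_sub_Cb (S := S) (s := s) (a := a) (b := b) (hY w) (hr w)
      (fun i => by rw [hs w b i]; exact hr w i) w
    have a2 := mul_le_mul_of_nonneg_left a1 (p0 w)
    simp only [Pi.add_apply]
    linarith
  linarith

end cs

end Vale.Agent.P146.H350
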