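import Vale.Agent.P146.H350.QL
import Vale.Agent.P146.H693.DMb
import Vale.Agent.P146.H693.Dic
import Vale.Agent.P146.H130.GTwo

/-! P146, R2, row F1Y: the number `zQ` (touches of `L_b = l Cb` in the frozen form `Y_b`) at the
two-layer law. -/

set_option linter.all false

open MeasureTheory ProbabilityTheory Finset

namespace Vale.Agent.P146.H350

open Vale.Agent.P157.Lv Vale.Agent.P146.H425 Vale.Agent.P146.H325 Vale.Agent.P146.H332
  Vale.Agent.P146.H712 Vale.Agent.P146.R1 Vale.Agent.P146.R1C Vale.Agent.P146.H706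
  Vale.Agent.P146.R1S Vale.Agent.P146.H191
open Vale.Agent.P146.Cum (Fn)
open Vale.Agent.P146.H693 (Tm Yd Yb Db Tl EnD nB m3 s3 Pm pm3)

variable {n : ℕ} {k : ℝ} {q : Par} {S : CS n k q.x} {y h l Γ Nb : ℝ}

lemma dd_one {κ : Type} [Fintype κ] (x : ℝ) (F : (κ → ℝ) → ℝ) (D : κ → (κ → ℝ) → ℝ) (e : κ)
    (z : κ → ℝ) : dd x 1 F D e z = D e z := by
  unfold dd
  rw [sub_self, Real.sqrt_zero]
  unfold DW
  have h1 := Real.exp_pos (x * F z)
  simp
  try field_simp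

/-- the rows of the gradient of the model -/
lemma rows_D (S : CS n k q.x) (b b' : Fin n) (z : Pair n → ℝ) :
    ∑ e ∈ row b ∪ row b', S.D e z ^ 2 ≤ 2 * k ^ 2 * n := by
  have h1 := grF_rows_le S 1 b b' z
  unfold grF at h1
  simpa only [dd_one] using h1

lemma two_of (hT : Tm q y h) (hyx : y ≤ q.x) : Two q y h :=
  ⟨hT.hy, hyx, hT.hl.le, hT.ht, by linarith [hT.ht, hT.hl]⟩

/-- the law change data of the two-layer law -/
lemma lf_two (hq : q.OkS) (hT : Tm q y h) (hyx : y ≤ q.x) (b : Fin n) :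
    LF (lf (row b)) (psiG q (GTwo q y h S.F S.D) S.F) (psiG' q (GTwo q y h S.F S.D) S.F S.D)
      (√(18 * q.x ^ 2 * k ^ 2 * n)) :=
  lf_row_SG S hq (GTwo_ok S.c11 S.x0 hT.hy h)
    (fun b b' => GTwo_row S.c11 S.x0 (two_of hT hyx) (rows_D S b b')) b

lemma Tl_one {t2 : ℝ} {m σ : ℕ → ℝ} (N : ℕ) (hm : Pm m N) (z : Pair n → ℝ) :
    Tl S t2 m σ (fun _ => 1) N z = 1 := by
  unfold Tl
  have hL := c11_uu S.c11 S.x0 t2
  cases N with
  | zero => rfl
  | succ N =>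
    have hm' : ∀ j < N, 0 < m j := fun j hj => hm j (by omega)
    have e : R1.TD (uu q.x t2 S.F) m σ (fun _ => (1 : ℝ)) N = fun _ => 1 :=
      funext fun z => H785.TD_const' hL.lip hL.B0 hm' 1 z
    show R1.TD (uu q.x t2 S.F) m σ (fun _ => (1 : ℝ)) (N + 1) z = 1
    rw [R1.TD_succ, e, H785.Ax_const (H785.lip_FD hL.lip hL.B0 hm') hL.B0]

/-- the law of the deep position -/
lemma EwG_P0 (hT : Tm q y h) {f : (Pair n → ℝ) → ℝ} (hf : EG f) :
    EwG q (GTwo q y h S.F S.D) S.F (fun w => f (P0 q w)) =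
      ∫ g, f (√q.t0 • g) ∂(gI (Pair n)) := by
  have key := H693.EwG_deep (S := S) hT (univ : Finset Unit) (α := fun _ => f) (δ := fun _ _ => 1)
    (fun _ _ => hf) fun _ _ => EG.const 1
  simpa only [Tl_one 3 (pm3 (q := q) S.x0 hT.hy), univ_unique, sum_singleton, mul_one] using key

lemma diag_nonneg {Y : Fin n → Fin n → ℝ} (hY : Pf Y) (b : Fin n) : 0 ≤ Y b b := by
  have := hY.bY_nonneg fun i => if i = b then 1 else 0
  rw [bY_single] at this
  simpa using this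

lemma pf_Yb (hT : Tm q y h) (b : Fin n) (z : Pair n → ℝ) : Pf (Yb S y h b z) where
  sy i j := H693.Yb_comm b z i j
  ps v := by
    refine ((H693.Yb_psd (S := S) hT b z).2 v).trans (le_of_eq ?_)
    exact sum_congr rfl fun i _ => sum_congr rfl fun j _ => by ring

lemma pf_Yd (hT : Tm q y h) (z : Pair n → ℝ) : Pf (Yd S y h z) where
  sy i j := H693.QR_comm 3 z i j
  ps v := by
    have h1 := (H693.QR_psd (S := S) (t2 := q.s2) (m := m3 q y) (σ := s3 q h) 3
      (pm3 (q := q) S.x0 hT.hy) z).2 v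
    refine h1.trans (le_of_eq ?_)
    exact sum_congr rfl fun i _ => sum_congr rfl fun j _ => by
      show _ = Yd S y h z i j * _
      unfold Yd
      ring

/-- **the number `zQ` at the two-layer law** -/
theorem zQ_le (hq : q.OkS) (hT : Tm q y h) (hyx : y ≤ q.x) (hs : 0 < q.s2)
    (hl : 288 * q.x ^ 2 * k ^ 2 * n ≤ 1)
    (hFn : Fn k SkS (uu q.x q.s2 S.F) (S.mu q.s2) Γ) (l : ℝ) :
    EwG q (GTwo q y h S.F S.D) S.F (fun w => ∑ b, bM (Yb S y h b (P0 q w))
        (fun i j => l * H364.Cb S q.s2 (k3 q) b w i j - l * S.A q.s2 (P3 q w) i j)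
        fun i j => l * H364.Cb S q.s2 (k3 q) b w i j - l * S.A q.s2 (P3 q w) i j) ≤
      l ^ 2 * (18 * q.s2 * (2 * H693.eQ S q.s2 (m3 q y) (s3 q h) 3 (√q.t0) +
        √(2 * q.t0 * EnD S q.s2 (m3 q y) (s3 q h) 3 (√q.t0)) *
        √(10 * (k * Γ) ^ 2 * n * (2 * √Nb * H693.eB S q.s2 (m3 q y) (s3 q h) 3 (√q.t0) +
          (n : ℝ) ^ 6 * k ^ 2 * H693.eP S q.s2 (m3 q y) (s3 q h) 3 (√q.t0) Nb))) +
      (H95.R2.nA S (H693.tw q y h) + √(2 * q.t0 * EnD S q.s2 (m3 q y) (s3 q h) 3 (√q.t0)) *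
        √(nB S q.s2 (m3 q y) (s3 q h) 3 (√q.t0)) +
      16 / 7 * (EwG q (GTwo q y h S.F S.D) S.F (fun w => (∑ b, Yd S y h (P0 q w) b b) *
        fro (S.A q.s2 (P3 q w))) + √(2 * q.t0 * EnD S q.s2 (m3 q y) (s3 q h) 3 (√q.t0)) *
        √(EwG q (GTwo q y h S.F S.D) S.F fun w => fro (S.A q.s2 (P3 q w)) ^ 3)))) := by
  have hlf := fun b => lf_two (S := S) hq hT hyx b
  have hl' : 16 * (√(18 * q.x ^ 2 * k ^ 2 * (n : ℝ))) ^ 2 ≤ 1 := hl_row hl
  set φ := densG q (GTwo q y h S.F S.D) S.F with hφd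
  have hφ : ∀ w, φ w = Real.exp (psiG q (GTwo q y h S.F S.D) S.F w) := fun w => rfl
  have e1 : EG φ := eg_densG S.c11 S.x0 (GTwo_ok S.c11 S.x0 hT.hy h)
  have p0 : ∀ w, 0 ≤ φ w := fun w => densG_nonneg w
  have va : vr (k3 q) = q.s2 := vr_k3 hq
  have eA : ∀ i j, EG fun w : K4 (Pair n) → ℝ => S.A q.s2 (P3 q w) i j := fun i j =>
    eg_P3 (S.eg_A q.s2 i j)
  have eY' : ∀ b i j, EG fun w : K4 (Pair n) → ℝ => Yb S y h b (P0 q w) i j := fun b i j =>
    eg_P0 (H693.eg_Yb hT b i j)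
  have eY : ∀ i j, EG fun w : K4 (Pair n) → ℝ => Yd S y h (P0 q w) i j := fun i j =>
    eg_P0 (H693.eg_Yd hT i j)
  have iY' : ∀ b, Ifz b (fun (w : K4 (Pair n) → ℝ) i j => Yb S y h b (P0 q w) i j) := by
    intro b i j w w'
    show Yb S y h b (P0 q (H712.sw (lf (row b)) w w')) i j = Yb S y h b (P0 q w) i j
    rw [P0_sw]
    exact H693.ind_Yb b i j _ _
  have efA : EG fun w : K4 (Pair n) → ℝ => fro (S.A q.s2 (P3 q w)) := eg_fro fun i j => eA i j
  have efD : ∀ b, EG fun w : K4 (Pair n) → ℝ =>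
      fro (fun i j => Yb S y h b (P0 q w) i j - Yd S y h (P0 q w) i j) := fun b =>
    eg_fro fun i j => (eY' b i j).sub (eY i j)
  have eu : ∀ b, EG fun w : K4 (Pair n) → ℝ => ∑ i, S.A q.s2 (P3 q w) i b ^ 2 := fun b =>
    EG.sum _ fun i _ => (eA i b).pow 2
  -- the touch, row by row
  have T : ∀ b, Im φ (fun w => tq (Yb S y h b (P0 q w)) fun i l =>
      S.A q.s2 (P3 q w) i l - H364.Cb S q.s2 (k3 q) b w i l) ≤
      18 * q.s2 * Im φ (fun w => ∑ e ∈ row b, tq (Yb S y h b (P0 q w))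
        (S.DA q.s2 e (P3 q w))) +
      (Im φ (fun w => bY (Yb S y h b (P0 q w)) (fun i => S.A q.s2 (P3 q w) i b)
        fun i => S.A q.s2 (P3 q w) i b) +
      16 / 7 * Im φ (fun w => Yb S y h b (P0 q w) b b * ∑ i, S.A q.s2 (P3 q w) i b ^ 2)) := by
    intro b
    have := tch_Cb2 (S := S) (s := q.s2) (a := k3 q) (hlf b) hl' hφ
      (Y := fun w i j => Yb S y h b (P0 q w) i j) (eY' b) (iY' b) fun w => pf_Yb hT b (P0 q w)
    rw [va] at this
    simpa only [← P3_lp] using this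
  have T2 := sum_le_sum fun b (_ : b ∈ (univ : Finset (Fin n))) => T b
  rw [sum_add_distrib, sum_add_distrib, ← mul_sum, ← mul_sum] at T2
  -- the left side
  have L : Im φ (fun w => ∑ b, bM (Yb S y h b (P0 q w))
        (fun i j => l * H364.Cb S q.s2 (k3 q) b w i j - l * S.A q.s2 (P3 q w) i j)
        fun i j => l * H364.Cb S q.s2 (k3 q) b w i j - l * S.A q.s2 (P3 q w) i j) =
      l ^ 2 * ∑ b, Im φ (fun w => tq (Yb S y h b (P0 q w)) fun i l =>
      S.A q.s2 (P3 q w) i l - H364.Cb S q.s2 (k3 q) b w i l) := by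
    have eT : ∀ b, EG fun w : K4 (Pair n) → ℝ => tq (Yb S y h b (P0 q w)) fun i l =>
        S.A q.s2 (P3 q w) i l - H364.Cb S q.s2 (k3 q) b w i l := fun b =>
      EG.sum _ fun i _ => EG.sum _ fun j _ => (eY' b i j).mul (EG.sum _ fun l _ =>
        ((eA i l).sub (H364.eg_Cb i l)).mul ((eA j l).sub (H364.eg_Cb j l)))
    rw [← Im_sum e1 _ fun b _ => eT b, ← Im_const_mul]
    refine Im_congr fun w => ?_
    rw [mul_sum]
    refine sum_congr rfl fun b _ => ?_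
    have e9 : tq (Yb S y h b (P0 q w)) (fun i l => S.A q.s2 (P3 q w) i l -
        H364.Cb S q.s2 (k3 q) b w i l) = bM (Yb S y h b (P0 q w)) (fun i l =>
        S.A q.s2 (P3 q w) i l - H364.Cb S q.s2 (k3 q) b w i l) (fun i l =>
        S.A q.s2 (P3 q w) i l - H364.Cb S q.s2 (k3 q) b w i l) := tq_eq_bM _ _
    rw [e9]
    unfold bM bY
    simp only [mul_sum]
    refine sum_congr rfl fun j _ => sum_congr rfl fun i _ => sum_congr rfl fun m _ => ?_
    ring
  -- the energy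
  have E : ∑ b, Im φ (fun w => ∑ e ∈ row b, tq (Yb S y h b (P0 q w)) (S.DA q.s2 e (P3 q w))) =
      EwG q (GTwo q y h S.F S.D) S.F (fun w => ∑ b, ∑ i, ∑ j, Yb S y h b (P0 q w) i j *
        H693.Xr S q.s2 b i j (P3 q w)) := by
    have eT : ∀ b, EG fun w : K4 (Pair n) → ℝ => ∑ e ∈ row b, tq (Yb S y h b (P0 q w))
        (S.DA q.s2 e (P3 q w)) := fun b =>
      EG.sum _ fun e _ => EG.sum _ fun i _ => EG.sum _ fun j _ => (eY' b i j).mul
        (EG.sum _ fun l _ => (eg_P3 (S.eg_DA q.s2 e i l)).mul (eg_P3 (S.eg_DA q.s2 e j l)))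
    rw [← Im_sum e1 _ fun b _ => eT b]
    show Im φ _ = Im φ _
    refine Im_congr fun w => ?_
    refine sum_congr rfl fun b _ => ?_
    have h1 := H693.form_Xr (S := S) q.s2 b (fun i j => Yb S y h b (P0 q w) i j) (P3 q w)
    refine Eq.trans ?_ h1.symm
    exact sum_congr rfl fun e _ => tq_eq_bM _ _
  have E2 := H693.DMb_le (S := S) (Nb := Nb) hT hs hFn
  rw [← E] at E2
  -- the columns
  have C : ∑ b, Im φ (fun w => bY (Yb S y h b (P0 q w)) (fun i => S.A q.s2 (P3 q w) i b)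
        fun i => S.A q.s2 (P3 q w) i b) ≤ H95.R2.nA S (H693.tw q y h) +
        √(2 * q.t0 * EnD S q.s2 (m3 q y) (s3 q h) 3 (√q.t0)) *
        √(nB S q.s2 (m3 q y) (s3 q h) 3 (√q.t0)) := by
    have h1 := (le_abs_self _).trans (H693.T1_le (S := S) hT)
    rw [H693.nA_eq hT]
    refine le_trans (le_of_eq ?_) (add_le_add le_rfl h1)
    have eB : ∀ b, EG fun w : K4 (Pair n) → ℝ => bY (Yb S y h b (P0 q w))
        (fun i => S.A q.s2 (P3 q w) i b) fun i => S.A q.s2 (P3 q w) i b := fun b =>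
      EG.sum _ fun i _ => EG.sum _ fun j _ => (eY' b i j).mul ((eA i b).mul (eA j b))
    have eN : EG (H693.nA S y h) := EG.sum _ fun i _ => EG.sum _ fun j _ =>
      (eY i j).mul (EG.sum _ fun l _ => (eA i l).mul (eA l j))
    have eD : EG fun w : K4 (Pair n) → ℝ => ∑ b, ∑ i, ∑ j, Db S y h b (P0 q w) i j *
        (S.A q.s2 (P3 q w) i b * S.A q.s2 (P3 q w) j b) :=
      EG.sum _ fun b _ => EG.sum _ fun i _ => EG.sum _ fun j _ =>
        ((eY' b i j).sub (eY i j)).mul ((eA i b).mul (eA j b))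
    rw [← Im_sum e1 _ fun b _ => eB b]
    show _ = Im φ _ + Im φ _
    rw [← Im_add e1 eN eD]
    refine Im_congr fun w => ?_
    have h2 : H693.nA S y h w = ∑ b, ∑ i, ∑ j, Yd S y h (P0 q w) i j *
        (S.A q.s2 (P3 q w) i b * S.A q.s2 (P3 q w) j b) := by
      unfold H693.nA
      rw [sum_comm (s := (univ : Finset (Fin n))) (t := (univ : Finset (Fin n)))]
      simp only [H693.A2, mul_sum]
      rw [sum_comm]
      have h3 : ∀ i : Fin n, ∑ j, ∑ b, Yd S y h (P0 q w) i j * (S.A q.s2 (P3 q w) i b *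
          S.A q.s2 (P3 q w) b j) = ∑ b, ∑ j, Yd S y h (P0 q w) i j *
          (S.A q.s2 (P3 q w) i b * S.A q.s2 (P3 q w) j b) := by
        intro i
        rw [sum_comm]
        exact sum_congr rfl fun b _ => sum_congr rfl fun j _ => by rw [S.A_comm q.s2 _ b j]
      simp only [h3]
      rw [sum_comm]
    rw [h2, ← sum_add_distrib]
    refine sum_congr rfl fun b _ => ?_
    unfold bY
    rw [← sum_add_distrib]
    refine sum_congr rfl fun i _ => ?_
    rw [← sum_add_distrib]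
    refine sum_congr rfl fun j _ => ?_
    unfold Db
    ring
  -- the diagonal
  have DD : Im φ (fun w => ∑ b, fro (fun i j => Yb S y h b (P0 q w) i j -
      Yd S y h (P0 q w) i j) ^ 2) ≤ 2 * q.t0 * EnD S q.s2 (m3 q y) (s3 q h) 3 (√q.t0) := by
    refine le_trans (le_of_eq ?_) (H693.TY_le (S := S) hT)
    have eb : ∀ b, EG fun z : Pair n → ℝ => ∑ i, ∑ j, Db S y h b z i j ^ 2 := fun b =>
      EG.sum _ fun i _ => EG.sum _ fun j _ => (H693.eg_Db hT b i j).pow 2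
    rw [Im_sum e1 _ fun b _ => (efD b).pow 2]
    refine sum_congr rfl fun b _ => ?_
    rw [← EwG_P0 (S := S) hT (eb b)]
    show Im φ _ = Im φ _
    refine Im_congr fun w => ?_
    rw [fro_sq]
    rfl
  have K : ∑ b, Im φ (fun w => Yb S y h b (P0 q w) b b * ∑ i, S.A q.s2 (P3 q w) i b ^ 2) ≤
      EwG q (GTwo q y h S.F S.D) S.F (fun w => (∑ b, Yd S y h (P0 q w) b b) *
        fro (S.A q.s2 (P3 q w))) + √(2 * q.t0 * EnD S q.s2 (m3 q y) (s3 q h) 3 (√q.t0)) *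
        √(EwG q (GTwo q y h S.F S.D) S.F fun w => fro (S.A q.s2 (P3 q w)) ^ 3) := by
    have c3 : Im φ (fun w => ∑ b, fro (fun i j => Yb S y h b (P0 q w) i j -
        Yd S y h (P0 q w) i j) * ∑ i, S.A q.s2 (P3 q w) i b ^ 2) ≤
        √(2 * q.t0 * EnD S q.s2 (m3 q y) (s3 q h) 3 (√q.t0)) *
        √(Im φ fun w => fro (S.A q.s2 (P3 q w)) ^ 3) := by
      refine (Im_cs p0 e1 efD eu).trans (mul_le_mul (Real.sqrt_le_sqrt DD) (Real.sqrt_le_sqrt ?_)
        (Real.sqrt_nonneg _) (Real.sqrt_nonneg _))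
      refine Im_mono p0 e1 (EG.sum _ fun b _ => (eu b).pow 2) (efA.pow 3) fun w => ?_
      have := col4_le (S := S) (s := q.s2) (a := k3 q) w
      simpa only [← P3_lp] using this
    refine le_trans ?_ (add_le_add le_rfl c3)
    have eG : ∀ b, EG fun w : K4 (Pair n) → ℝ => Yb S y h b (P0 q w) b b *
        ∑ i, S.A q.s2 (P3 q w) i b ^ 2 := fun b => (eY' b b b).mul (eu b)
    have eS : EG fun w : K4 (Pair n) → ℝ => (∑ b, Yd S y h (P0 q w) b b) *
        fro (S.A q.s2 (P3 q w)) := (EG.sum _ fun b _ => eY b b).mul efA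
    rw [← Im_sum e1 _ fun b _ => eG b]
    show _ ≤ Im φ _ + _
    rw [← Im_add e1 eS (EG.sum _ fun b _ => (efD b).mul (eu b))]
    refine Im_mono p0 e1 (EG.sum _ fun b _ => eG b) (eS.add
      (EG.sum _ fun b _ => (efD b).mul (eu b))) fun w => ?_
    rw [sum_mul, ← sum_add_distrib]
    refine sum_le_sum fun b _ => ?_
    have g0 : 0 ≤ ∑ i, S.A q.s2 (P3 q w) i b ^ 2 := sum_nonneg fun i _ => sq_nonneg _
    have g1 := abs_diag_le (fun i j => Yb S y h b (P0 q w) i j - Yd S y h (P0 q w) i j) b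
    have g2 : Yb S y h b (P0 q w) b b - Yd S y h (P0 q w) b b ≤
        fro (fun i j => Yb S y h b (P0 q w) i j - Yd S y h (P0 q w) i j) :=
      (le_abs_self _).trans g1
    have g3 := mul_le_mul_of_nonneg_right g2 g0
    have g4 : 0 ≤ Yd S y h (P0 q w) b b := diag_nonneg (pf_Yd (S := S) hT (P0 q w)) b
    have g5 := mul_le_mul_of_nonneg_left
      (col_le (S := S) (s := q.s2) (a := k3 q) b w) g4
    rw [← P3_lp] at g5
    linarith
  have hl2 : 0 ≤ l ^ 2 := sq_nonneg l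
  show Im φ _ ≤ _
  rw [L]
  refine mul_le_mul_of_nonneg_left ?_ hl2
  have hq2 : (0 : ℝ) ≤ 18 * q.s2 := by positivity
  have E3 := mul_le_mul_of_nonneg_left E2 hq2
  linarith

end Vale.Agent.P146.H350
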