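import Vale.Agent.P146.H350.ZQ

/-! P146, R2, row F1Y: `zQ` with the size of `C` cut at `Nb` (the bad mass is 693's `eP`). -/

set_option linter.all false

open MeasureTheory ProbabilityTheory Finset

namespace Vale.Agent.P146.H350

open Vale.Agent.P157.Lv Vale.Agent.P146.H425 Vale.Agent.P146.H325 Vale.Agent.P146.H332
  Vale.Agent.P146.H712 Vale.Agent.P146.R1 Vale.Agent.P146.R1C Vale.Agent.P146.H706
  Vale.Agent.P146.R1S Vale.Agent.P146.H191
open Vale.Agent.P146.Cum (Fn)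
open Vale.Agent.P146.H693 (Tm Yd Yb Db Tl EnD nB m3 s3 Pm pm3)
open Vale.Agent.P146.H946.En2 (bd eg_bd bd_nonneg)

variable {n : ℕ} {k : ℝ} {q : Par} {S : CS n k q.x} {y h l Γ Nb : ℝ}

/-- the bad mass in the law of the last position -/
lemma EwG_bd (hT : Tm q y h) (Nb : ℝ) :
    EwG q (GTwo q y h S.F S.D) S.F (fun w => bd S Nb q.s2 (P3 q w)) =
      H693.eP S q.s2 (m3 q y) (s3 q h) 3 (√q.t0) Nb := by
  have key := H693.EwG_deep (S := S) hT (univ : Finset Unit) (α := fun _ _ => 1)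
    (δ := fun _ => bd S Nb q.s2) (fun _ _ => EG.const 1) fun _ _ => eg_bd S Nb q.s2
  unfold H693.eP
  simpa only [univ_unique, sum_singleton, one_mul] using key

/-- the total mass -/
lemma EwG_one (hT : Tm q y h) :
    EwG q (GTwo q y h S.F S.D) S.F (fun _ => 1) = 1 := by
  have := EwG_P0 (S := S) hT (f := fun _ => 1) (EG.const 1)
  rw [this]
  simp

lemma fro_le_cut (hNb : 0 ≤ Nb) (u : Pair n → ℝ) :
    fro (S.A q.s2 u) ≤ √Nb + n * bd S Nb q.s2 u := by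
  have h0 : fro (S.A q.s2 u) ≤ n := by
    unfold fro
    rw [Real.sqrt_le_left (Nat.cast_nonneg n)]
    calc ∑ i, ∑ j, S.A q.s2 u i j ^ 2 ≤ ∑ _i : Fin n, ∑ _j : Fin n, (1 : ℝ) := by
          refine sum_le_sum fun i _ => sum_le_sum fun j _ => ?_
          rw [← sq_abs]
          exact pow_le_one₀ (abs_nonneg _) (S.abs_A q.s2 u i j)
      _ = (n : ℝ) ^ 2 := by simp; ring
  unfold bd
  split_ifs with hc
  · rw [mul_zero, add_zero]
    exact Real.sqrt_le_sqrt hc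
  · rw [mul_one]
    linarith [Real.sqrt_nonneg Nb]

/-- `E tr Y |C| ≤ √Nb E tr Y + n³ (bad mass)` -/
theorem nT_le (hT : Tm q y h) (hNb : 0 ≤ Nb) :
    EwG q (GTwo q y h S.F S.D) S.F (fun w => (∑ b, Yd S y h (P0 q w) b b) *
        fro (S.A q.s2 (P3 q w))) ≤
      √Nb * EwG q (GTwo q y h S.F S.D) S.F (fun w => ∑ b, Yd S y h (P0 q w) b b) +
      (n : ℝ) ^ 3 * H693.eP S q.s2 (m3 q y) (s3 q h) 3 (√q.t0) Nb := by
  rw [← EwG_bd hT Nb]
  have e1 : EG (densG q (GTwo q y h S.F S.D) S.F) :=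
    eg_densG S.c11 S.x0 (GTwo_ok S.c11 S.x0 hT.hy h)
  have eY : EG fun w : K4 (Pair n) → ℝ => ∑ b, Yd S y h (P0 q w) b b :=
    EG.sum _ fun b _ => eg_P0 (H693.eg_Yd hT b b)
  have eb : EG fun w : K4 (Pair n) → ℝ => bd S Nb q.s2 (P3 q w) := eg_P3 (eg_bd S Nb q.s2)
  have efA : EG fun w : K4 (Pair n) → ℝ => fro (S.A q.s2 (P3 q w)) :=
    eg_fro fun i j => eg_P3 (S.eg_A q.s2 i j)
  show Im _ _ ≤ √Nb * Im _ _ + (n : ℝ) ^ 3 * Im _ _
  rw [← Im_const_mul, ← Im_const_mul, ← Im_add e1 (eY.const_mul _) (eb.const_mul _)]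
  refine Im_mono (fun w => densG_nonneg w) e1 (eY.mul efA)
    ((eY.const_mul _).add (eb.const_mul _)) fun w => ?_
  have h0 : 0 ≤ ∑ b, Yd S y h (P0 q w) b b :=
    sum_nonneg fun b _ => diag_nonneg (pf_Yd (S := S) hT (P0 q w)) b
  have h1 : ∑ b, Yd S y h (P0 q w) b b ≤ (n : ℝ) ^ 2 := by
    calc ∑ b, Yd S y h (P0 q w) b b ≤ ∑ _b : Fin n, (n : ℝ) := by
          refine sum_le_sum fun b _ => (le_abs_self _).trans ?_
          exact H693.abs_QR 3 (pm3 (q := q) S.x0 hT.hy) (P0 q w) b b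
      _ = (n : ℝ) ^ 2 := by simp; ring
  have h2 := fro_le_cut (S := S) hNb (P3 q w)
  have h3 := mul_le_mul_of_nonneg_left h2 h0
  have h4 : 0 ≤ (n : ℝ) * bd S Nb q.s2 (P3 q w) :=
    mul_nonneg (Nat.cast_nonneg n) (bd_nonneg _ _ _)
  have h5 := mul_le_mul_of_nonneg_right h1 h4
  nlinarith

/-- `E |C|³ ≤ Nb √Nb + n³ (bad mass)` -/
theorem n3_le (hT : Tm q y h) (hNb : 0 ≤ Nb) :
    EwG q (GTwo q y h S.F S.D) S.F (fun w => fro (S.A q.s2 (P3 q w)) ^ 3) ≤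
      √Nb ^ 3 + (n : ℝ) ^ 3 * H693.eP S q.s2 (m3 q y) (s3 q h) 3 (√q.t0) Nb := by
  rw [← EwG_bd hT Nb]
  have e1 : EG (densG q (GTwo q y h S.F S.D) S.F) :=
    eg_densG S.c11 S.x0 (GTwo_ok S.c11 S.x0 hT.hy h)
  have eb : EG fun w : K4 (Pair n) → ℝ => bd S Nb q.s2 (P3 q w) := eg_P3 (eg_bd S Nb q.s2)
  have efA : EG fun w : K4 (Pair n) → ℝ => fro (S.A q.s2 (P3 q w)) :=
    eg_fro fun i j => eg_P3 (S.eg_A q.s2 i j)
  have h0 : √Nb ^ 3 = EwG q (GTwo q y h S.F S.D) S.F (fun _ => √Nb ^ 3 * 1) := by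
    show _ = Im _ _
    rw [Im_const_mul]
    show _ = _ * EwG q (GTwo q y h S.F S.D) S.F (fun _ => 1)
    rw [EwG_one hT, mul_one]
  rw [h0]
  show Im _ _ ≤ Im _ _ + (n : ℝ) ^ 3 * Im _ _
  rw [← Im_const_mul, ← Im_add e1 (EG.const _) (eb.const_mul _)]
  refine Im_mono (fun w => densG_nonneg w) e1 (efA.pow 3)
    ((EG.const _).add (eb.const_mul _)) fun w => ?_
  have h4 : fro (S.A q.s2 (P3 q w)) ≤ n := by
    unfold fro
    rw [Real.sqrt_le_left (Nat.cast_nonneg n)]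
    calc ∑ i, ∑ j, S.A q.s2 (P3 q w) i j ^ 2 ≤ ∑ _i : Fin n, ∑ _j : Fin n, (1 : ℝ) := by
          refine sum_le_sum fun i _ => sum_le_sum fun j _ => ?_
          rw [← sq_abs]
          exact pow_le_one₀ (abs_nonneg _) (S.abs_A q.s2 _ i j)
      _ = (n : ℝ) ^ 2 := by simp; ring
  unfold bd
  split_ifs with hc
  · rw [mul_zero, add_zero, mul_one]
    exact pow_le_pow_left₀ (fro_nonneg _) (Real.sqrt_le_sqrt hc) 3
  · rw [mul_one, mul_one]
    have h5 := pow_le_pow_left₀ (fro_nonneg (S.A q.s2 (P3 q w))) h4 3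
    have h6 : 0 ≤ √Nb ^ 3 := by positivity
    linarith

end Vale.Agent.P146.H350
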