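import Vale.Agent.P146.H350.ZQ

/-! P146, R2, row F1Y: the number `zQ`, sharper diagonal term. -/

set_option linter.all false

open MeasureTheory ProbabilityTheory Finset

namespace Vale.Agent.P146.H350

open Vale.Agent.P157.Lv Vale.Agent.P146.H425 Vale.Agent.P146.H325 Vale.Agent.P146.H332
  Vale.Agent.P146.H712 Vale.Agent.P146.R1 Vale.Agent.P146.R1C Vale.Agent.P146.H706
  Vale.Agent.P146.R1S Vale.Agent.P146.H191
open Vale.Agent.P146.Cum (Fn)
open Vale.Agent.P146.H693 (Tm Yd Yb Db Tl EnD nB m3 s3 Pm pm3)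

variable {n : ℕ} {k : ℝ} {q : Par} {S : CS n k q.x} {y h l Γ Nb : ℝ}

/-- **the number `zQ` at the two-layer law**, the diagonal by the deep mean -/
theorem zQ_le2 (hq : q.OkS) (hT : Tm q y h) (hyx : y ≤ q.x) (hs : 0 < q.s2)
    (hl : 288 * q.x ^ 2 * k ^ 2 * n ≤ 1)
    (hFn : Fn k SkS (uu q.x q.s2 S.F) (S.mu q.s2) Γ) (l : ℝ) :
    EwG q (GTwo q y h S.F S.D) S.F (fun w => ∑ b, bM (Yb S y h b (P0 q w))
        (fun i j => l * H364.Cb S q.s2 (k3 q) b w i j - l * S.A q.s2 (P3 q w) i j)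
        fun i j => l * H364.Cb S q.s2 (k3 q) b w i j - l * S.A q.s2 (P3 q w) i j) ≤
      l ^ 2 * (18 * q.s2 * (2 * H693.eQ S q.s2 (m3 q y) (s3 q h) 3 (√q.t0) +
        √(2 * q.t0 * EnD S q.s2 (m3 q y) (s3 q h) 3 (√q.t0)) *
        √(10 * (k * Γ) ^ 2 * n * (2 * √Nb * H693.eB S q.s2 (m3 q y) (s3 q h) 3 (√q.t0) +
          (n : ℝ) ^ 6 * k ^ 2 * H693.eP S q.s2 (m3 q y) (s3 q h) 3 (√q.t0) Nb))) +
      (H95.R2.nA S (H693.tw q y h) + √(2 * q.t0 * EnD S q.s2 (m3 q y) (s3 q h) 3 (√q.t0)) *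
        √(nB S q.s2 (m3 q y) (s3 q h) 3 (√q.t0)) +
      16 / 7 * H95.R2.nA S (H693.tw q y h))) := by
  have hlf := fun b => lf_two (S := S) hq hT hyx b
  have hl' : 16 * (√(18 * q.x ^ 2 * k ^ 2 * (n : ℝ))) ^ 2 ≤ 1 := hl_row hl
  set φ := densG q (GTwo q y h S.F S.D) S.F with hφd
  have hφ : ∀ w, φ w = Real.exp (psiG q (GTwo q y h S.F S.D) S.F w) := fun w => rfl
  have e1 : EG φ := eg_densG S.c11 S.x0 (GTwo_ok S.c11 S.x0 hT.hy h)
  have p0 : ∀ w, 0 ≤ φ w := fun w => densG_nonneg w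
  have va : vr (k3 q) = q.s2 := vr_k3 hq
  have eA : ∀ i j, EG fun w : K4 (Pair n) → ℝ => S.A q.s2 (P3 q w) i j := fun i j =>
    eg_P3 (S.eg_A q.s2 i j)
  have eY' : ∀ b i j, EG fun w : K4 (Pair n) → ℝ => Yb S y h b (P0 q w) i j := fun b i j =>
    eg_P0 (H693.eg_Yb hT b i j)
  have eY : ∀ i j, EG fun w : K4 (Pair n) → ℝ => Yd S y h (P0 q w) i j := fun i j =>
    eg_P0 (H693.eg_Yd hT i j)
  have iY' : ∀ b, Ifz b (fun (w : K4 (Pair n) → ℝ) i j => Yb S y h b (P0 q w) i j) := by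
    intro b i j w w'
    show Yb S y h b (P0 q (H712.sw (lf (row b)) w w')) i j = Yb S y h b (P0 q w) i j
    rw [P0_sw]
    exact H693.ind_Yb b i j _ _
  have efA : EG fun w : K4 (Pair n) → ℝ => fro (S.A q.s2 (P3 q w)) := eg_fro fun i j => eA i j
  have efD : ∀ b, EG fun w : K4 (Pair n) → ℝ =>
      fro (fun i j => Yb S y h b (P0 q w) i j - Yd S y h (P0 q w) i j) := fun b =>
    eg_fro fun i j => (eY' b i j).sub (eY i j)
  have eu : ∀ b, EG fun w : K4 (Pair n) → ℝ => ∑ i, S.A q.s2 (P3 q w) i b ^ 2 := fun b =>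
    EG.sum _ fun i _ => (eA i b).pow 2
  -- the touch, row by row
  have T : ∀ b, Im φ (fun w => tq (Yb S y h b (P0 q w)) fun i l =>
      S.A q.s2 (P3 q w) i l - H364.Cb S q.s2 (k3 q) b w i l) ≤
      18 * q.s2 * Im φ (fun w => ∑ e ∈ row b, tq (Yb S y h b (P0 q w))
        (S.DA q.s2 e (P3 q w))) +
      (Im φ (fun w => bY (Yb S y h b (P0 q w)) (fun i => S.A q.s2 (P3 q w) i b)
        fun i => S.A q.s2 (P3 q w) i b) +
      16 / 7 * Im φ (fun w => Yb S y h b (P0 q w) b b * ∑ i, S.A q.s2 (P3 q w) i b ^ 2)) := by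
    intro b
    have := tch_Cb2 (S := S) (s := q.s2) (a := k3 q) (hlf b) hl' hφ
      (Y := fun w i j => Yb S y h b (P0 q w) i j) (eY' b) (iY' b) fun w => pf_Yb hT b (P0 q w)
    rw [va] at this
    simpa only [← P3_lp] using this
  have T2 := sum_le_sum fun b (_ : b ∈ (univ : Finset (Fin n))) => T b
  rw [sum_add_distrib, sum_add_distrib, ← mul_sum, ← mul_sum] at T2
  -- the left side
  have L : Im φ (fun w => ∑ b, bM (Yb S y h b (P0 q w))
        (fun i j => l * H364.Cb S q.s2 (k3 q) b w i j - l * S.A q.s2 (P3 q w) i j)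
        fun i j => l * H364.Cb S q.s2 (k3 q) b w i j - l * S.A q.s2 (P3 q w) i j) =
      l ^ 2 * ∑ b, Im φ (fun w => tq (Yb S y h b (P0 q w)) fun i l =>
      S.A q.s2 (P3 q w) i l - H364.Cb S q.s2 (k3 q) b w i l) := by
    have eT : ∀ b, EG fun w : K4 (Pair n) → ℝ => tq (Yb S y h b (P0 q w)) fun i l =>
        S.A q.s2 (P3 q w) i l - H364.Cb S q.s2 (k3 q) b w i l := fun b =>
      EG.sum _ fun i _ => EG.sum _ fun j _ => (eY' b i j).mul (EG.sum _ fun l _ =>
        ((eA i l).sub (H364.eg_Cb i l)).mul ((eA j l).sub (H364.eg_Cb j l)))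
    rw [← Im_sum e1 _ fun b _ => eT b, ← Im_const_mul]
    refine Im_congr fun w => ?_
    rw [mul_sum]
    refine sum_congr rfl fun b _ => ?_
    have e9 : tq (Yb S y h b (P0 q w)) (fun i l => S.A q.s2 (P3 q w) i l -
        H364.Cb S q.s2 (k3 q) b w i l) = bM (Yb S y h b (P0 q w)) (fun i l =>
        S.A q.s2 (P3 q w) i l - H364.Cb S q.s2 (k3 q) b w i l) (fun i l =>
        S.A q.s2 (P3 q w) i l - H364.Cb S q.s2 (k3 q) b w i l) := tq_eq_bM _ _
    rw [e9]
    unfold bM bY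
    simp only [mul_sum]
    refine sum_congr rfl fun j _ => sum_congr rfl fun i _ => sum_congr rfl fun m _ => ?_
    ring
  -- the energy
  have E : ∑ b, Im φ (fun w => ∑ e ∈ row b, tq (Yb S y h b (P0 q w)) (S.DA q.s2 e (P3 q w))) =
      EwG q (GTwo q y h S.F S.D) S.F (fun w => ∑ b, ∑ i, ∑ j, Yb S y h b (P0 q w) i j *
        H693.Xr S q.s2 b i j (P3 q w)) := by
    have eT : ∀ b, EG fun w : K4 (Pair n) → ℝ => ∑ e ∈ row b, tq (Yb S y h b (P0 q w))
        (S.DA q.s2 e (P3 q w)) := fun b =>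
      EG.sum _ fun e _ => EG.sum _ fun i _ => EG.sum _ fun j _ => (eY' b i j).mul
        (EG.sum _ fun l _ => (eg_P3 (S.eg_DA q.s2 e i l)).mul (eg_P3 (S.eg_DA q.s2 e j l)))
    rw [← Im_sum e1 _ fun b _ => eT b]
    show Im φ _ = Im φ _
    refine Im_congr fun w => ?_
    refine sum_congr rfl fun b _ => ?_
    have h1 := H693.form_Xr (S := S) q.s2 b (fun i j => Yb S y h b (P0 q w) i j) (P3 q w)
    refine Eq.trans ?_ h1.symm
    exact sum_congr rfl fun e _ => tq_eq_bM _ _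
  have E2 := H693.DMb_le (S := S) (Nb := Nb) hT hs hFn
  rw [← E] at E2
  -- the columns
  have C : ∑ b, Im φ (fun w => bY (Yb S y h b (P0 q w)) (fun i => S.A q.s2 (P3 q w) i b)
        fun i => S.A q.s2 (P3 q w) i b) ≤ H95.R2.nA S (H693.tw q y h) +
        √(2 * q.t0 * EnD S q.s2 (m3 q y) (s3 q h) 3 (√q.t0)) *
        √(nB S q.s2 (m3 q y) (s3 q h) 3 (√q.t0)) := by
    have h1 := (le_abs_self _).trans (H693.T1_le (S := S) hT)
    rw [H693.nA_eq hT]
    refine le_trans (le_of_eq ?_) (add_le_add le_rfl h1)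
    have eB : ∀ b, EG fun w : K4 (Pair n) → ℝ => bY (Yb S y h b (P0 q w))
        (fun i => S.A q.s2 (P3 q w) i b) fun i => S.A q.s2 (P3 q w) i b := fun b =>
      EG.sum _ fun i _ => EG.sum _ fun j _ => (eY' b i j).mul ((eA i b).mul (eA j b))
    have eN : EG (H693.nA S y h) := EG.sum _ fun i _ => EG.sum _ fun j _ =>
      (eY i j).mul (EG.sum _ fun l _ => (eA i l).mul (eA l j))
    have eD : EG fun w : K4 (Pair n) → ℝ => ∑ b, ∑ i, ∑ j, Db S y h b (P0 q w) i j *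
        (S.A q.s2 (P3 q w) i b * S.A q.s2 (P3 q w) j b) :=
      EG.sum _ fun b _ => EG.sum _ fun i _ => EG.sum _ fun j _ =>
        ((eY' b i j).sub (eY i j)).mul ((eA i b).mul (eA j b))
    rw [← Im_sum e1 _ fun b _ => eB b]
    show _ = Im φ _ + Im φ _
    rw [← Im_add e1 eN eD]
    refine Im_congr fun w => ?_
    have h2 : H693.nA S y h w = ∑ b, ∑ i, ∑ j, Yd S y h (P0 q w) i j *
        (S.A q.s2 (P3 q w) i b * S.A q.s2 (P3 q w) j b) := by
      unfold H693.nA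
      rw [sum_comm (s := (univ : Finset (Fin n))) (t := (univ : Finset (Fin n)))]
      simp only [H693.A2, mul_sum]
      rw [sum_comm]
      have h3 : ∀ i : Fin n, ∑ j, ∑ b, Yd S y h (P0 q w) i j * (S.A q.s2 (P3 q w) i b *
          S.A q.s2 (P3 q w) b j) = ∑ b, ∑ j, Yd S y h (P0 q w) i j *
          (S.A q.s2 (P3 q w) i b * S.A q.s2 (P3 q w) j b) := by
        intro i
        rw [sum_comm]
        exact sum_congr rfl fun b _ => sum_congr rfl fun j _ => by rw [S.A_comm q.s2 _ b j]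
      simp only [h3]
      rw [sum_comm]
    rw [h2, ← sum_add_distrib]
    refine sum_congr rfl fun b _ => ?_
    unfold bY
    rw [← sum_add_distrib]
    refine sum_congr rfl fun i _ => ?_
    rw [← sum_add_distrib]
    refine sum_congr rfl fun j _ => ?_
    unfold Db
    ring
  -- the diagonal
  have K : ∑ b, Im φ (fun w => Yb S y h b (P0 q w) b b * ∑ i, S.A q.s2 (P3 q w) i b ^ 2) ≤
      H95.R2.nA S (H693.tw q y h) := by
    have eG : ∀ b, EG fun w : K4 (Pair n) → ℝ => Yb S y h b (P0 q w) b b *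
        ∑ i, S.A q.s2 (P3 q w) i b ^ 2 := fun b => (eY' b b b).mul (eu b)
    rw [← Im_sum e1 _ fun b _ => eG b]
    have key := H693.EwG_deep (S := S) hT (univ : Finset (Fin n)) (α := fun b z => Yb S y h b z b b)
      (δ := fun b => H693.A2 S q.s2 b b) (fun b _ => H693.eg_Yb hT b b b)
      fun b _ => H693.eg_A2 S q.s2 b b
    have h1 : Im φ (fun w => ∑ b, Yb S y h b (P0 q w) b b * ∑ i, S.A q.s2 (P3 q w) i b ^ 2) =
        ∫ g, ∑ b, Yb S y h b (√q.t0 • g) b b * Yd S y h (√q.t0 • g) b b ∂(gI (Pair n)) := by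
      refine Eq.trans ?_ key
      show Im φ _ = Im φ _
      refine Im_congr fun w => sum_congr rfl fun b _ => ?_
      congr 1
      unfold H693.A2
      refine sum_congr rfl fun i _ => ?_
      rw [S.A_comm q.s2 _ i b]
      ring
    rw [h1, H693.nA_eq hT, H693.num_A hT]
    have eb : ∀ b, EG fun g : Pair n → ℝ => Yb S y h b (√q.t0 • g) b b := fun b =>
      H655.eg_sc (H693.eg_Yb hT b b b) (√q.t0)
    have ed : ∀ i j, EG fun g : Pair n → ℝ => Yd S y h (√q.t0 • g) i j := fun i j =>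
      H655.eg_sc (H693.eg_Yd hT i j) (√q.t0)
    have h2 : ∫ g, ∑ b, Yb S y h b (√q.t0 • g) b b * Yd S y h (√q.t0 • g) b b
        ∂(gI (Pair n)) ≤ 1 / 2 * ∫ g, ∑ b, Yb S y h b (√q.t0 • g) b b ^ 2 ∂(gI (Pair n)) +
        1 / 2 * ∫ g, ∑ b, Yd S y h (√q.t0 • g) b b ^ 2 ∂(gI (Pair n)) := by
      have E1 : EG fun g : Pair n → ℝ => ∑ b, Yb S y h b (√q.t0 • g) b b ^ 2 :=
        EG.sum _ fun b _ => (eb b).pow 2
      have E2 : EG fun g : Pair n → ℝ => ∑ b, Yd S y h (√q.t0 • g) b b ^ 2 :=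
        EG.sum _ fun b _ => (ed b b).pow 2
      rw [← integral_const_mul, ← integral_const_mul,
        ← integral_add (E1.integrable.const_mul _) (E2.integrable.const_mul _)]
      refine integral_mono (EG.sum _ fun b _ => (eb b).mul (ed b b)).integrable
        ((E1.integrable.const_mul _).add (E2.integrable.const_mul _)) fun g => ?_
      simp only [mul_sum, ← sum_add_distrib]
      refine sum_le_sum fun b _ => ?_
      nlinarith [sq_nonneg (Yb S y h b (√q.t0 • g) b b - Yd S y h (√q.t0 • g) b b)]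
    have h3 : ∫ g, ∑ b, Yb S y h b (√q.t0 • g) b b ^ 2 ∂(gI (Pair n)) ≤
        ∫ g, ∑ b, Yd S y h (√q.t0 • g) b b ^ 2 ∂(gI (Pair n)) := by
      rw [integral_finsetSum _ fun b _ => ((eb b).pow 2).integrable,
        integral_finsetSum _ fun b _ => ((ed b b).pow 2).integrable]
      exact sum_le_sum fun b _ => H693.AvP_contr (H693.eg_Yd hT b b) q.t0 (row b)
    have h4 : ∫ g, ∑ b, Yd S y h (√q.t0 • g) b b ^ 2 ∂(gI (Pair n)) ≤
        ∫ g, fr (Yd S y h (√q.t0 • g)) ∂(gI (Pair n)) := by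
      refine integral_mono (EG.sum _ fun b _ => (ed b b).pow 2).integrable
        (EG.sum _ fun i _ => EG.sum _ fun j _ => (ed i j).pow 2).integrable fun g => ?_
      show ∑ b, Yd S y h (√q.t0 • g) b b ^ 2 ≤ ∑ i, ∑ j, Yd S y h (√q.t0 • g) i j ^ 2
      refine sum_le_sum fun b _ => ?_
      exact single_le_sum (f := fun j => Yd S y h (√q.t0 • g) b j ^ 2)
        (fun j _ => sq_nonneg _) (mem_univ b)
    linarith
  have hl2 : 0 ≤ l ^ 2 := sq_nonneg l
  show Im φ _ ≤ _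
  rw [L]
  refine mul_le_mul_of_nonneg_left ?_ hl2
  have hq2 : (0 : ℝ) ≤ 18 * q.s2 := by positivity
  have E3 := mul_le_mul_of_nonneg_left E2 hq2
  linarith

end Vale.Agent.P146.H350
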