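import Mathlib

/-! P146, R2, row F1Y: the number `zQ` against `R`, pure reals. -/

namespace Vale.Agent.P146.H350

open Real

/-- `zQ β² λ h ≤ 900 (1 + β) a² R` -/
theorem zQ_real {β a L h A B R TY Eq Eb t Nb s2 l Z : ℝ} (hβ : 0 < β) (hl : l * β = 1)
    (ha : 1 ≤ a) (hL : 1 ≤ L) (h0 : 0 < h) (h1 : h ≤ 1) (hs : 0 ≤ s2) (hs1 : s2 ≤ 1)
    (hA : 0 ≤ A) (hB : 0 ≤ B) (hTY0 : 0 ≤ TY) (hEq0 : 0 ≤ Eq) (hEb0 : 0 ≤ Eb) (ht0 : 0 ≤ t)
    (hQ : h * Eq ≤ a * A) (hEb : h * Eb ≤ a * B) (hTY : h * TY ≤ a * A) (hN : √Nb ≤ a * L)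
    (ht : t ≤ L * B) (hAR : L * A ≤ 2 * R) (hBR : L ^ 2 * B ≤ 2 * R)
    (hZ : Z ≤ l ^ 2 * (18 * s2 * (2 * Eq + √TY * √(160 * β ^ 2 * (2 * √Nb * Eb + t))) +
      (A + √TY * √B + 16 / 7 * A))) :
    Z * β ^ 2 * L * h ≤ 900 * (1 + β) * a ^ 2 * R := by
  have hR : 0 ≤ R := by
    have : 0 ≤ L * A := by positivity
    linarith
  have hLp : 0 < L := by linarith
  have hap : 0 < a := by linarith
  have hl2 : l ^ 2 * β ^ 2 = 1 := by
    rw [← mul_pow, hl, one_pow]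
  have oa2 : (1 : ℝ) ≤ a ^ 2 := one_le_pow₀ ha
  have a1 : a ≤ a ^ 2 := by rw [pow_two]; exact le_mul_of_one_le_left hap.le ha
  have hN0 : 0 ≤ √Nb := Real.sqrt_nonneg _
  -- the inner number
  set X := 2 * √Nb * Eb + t with hX
  have hX0 : 0 ≤ X := by positivity
  have hXh : h * X ≤ 3 * a ^ 2 * L * B := by
    have e1 : √Nb * (h * Eb) ≤ (a * L) * (a * B) :=
      mul_le_mul hN hEb (by positivity) (by positivity)
    have e2 : h * t ≤ 1 * (L * B) := mul_le_mul h1 ht ht0 zero_le_one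
    have e3 : L * B ≤ a ^ 2 * (L * B) := le_mul_of_one_le_left (by positivity) oa2
    have e4 : h * X = 2 * (√Nb * (h * Eb)) + h * t := by rw [hX]; ring
    rw [e4]
    linarith [show 3 * a ^ 2 * L * B = 2 * ((a * L) * (a * B)) + a ^ 2 * (L * B) by ring]
  -- the term with the energy of the deep position
  have hS : √(160 * β ^ 2 * X) ≤ 13 * β * √X := by
    have e1 : √(160 * β ^ 2 * X) ≤ √((13 * β) ^ 2 * X) := by
      apply Real.sqrt_le_sqrt
      have := mul_nonneg (sq_nonneg β) hX0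
      linarith [show (13 * β) ^ 2 * X = 169 * (β ^ 2 * X) by ring,
        show 160 * β ^ 2 * X = 160 * (β ^ 2 * X) by ring]
    rwa [Real.sqrt_mul (sq_nonneg _), Real.sqrt_sq (by positivity)] at e1
  have hP : √TY * √X * (L * h) ≤ 2 * √3 * a ^ 2 * R := by
    have e0 : 0 ≤ √TY * √X * (L * h) := by positivity
    have e1 : (√TY * √X * (L * h)) ^ 2 ≤ (2 * √3 * a ^ 2 * R) ^ 2 := by
      have s1 : √TY ^ 2 = TY := Real.sq_sqrt hTY0
      have s2' : √X ^ 2 = X := Real.sq_sqrt hX0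
      have s3 : √3 ^ 2 = (3 : ℝ) := Real.sq_sqrt (by norm_num)
      have f1 : (√TY * √X * (L * h)) ^ 2 = (h * TY) * (h * X) * L ^ 2 := by
        calc (√TY * √X * (L * h)) ^ 2 = √TY ^ 2 * √X ^ 2 * (L * h) ^ 2 := by ring
          _ = _ := by rw [s1, s2']; ring
      have f2 : (h * TY) * (h * X) ≤ (a * A) * (3 * a ^ 2 * L * B) :=
        mul_le_mul hTY hXh (by positivity) (by positivity)
      have f3 : (a * A) * (3 * a ^ 2 * L * B) * L ^ 2 = 3 * a ^ 3 * ((L * A) * (L ^ 2 * B)) := by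
        ring
      have f4 : (L * A) * (L ^ 2 * B) ≤ (2 * R) * (2 * R) :=
        mul_le_mul hAR hBR (by positivity) (by positivity)
      have f5 : a ^ 3 ≤ a ^ 4 := pow_le_pow_right₀ ha (by norm_num)
      have f6 : (2 * √3 * a ^ 2 * R) ^ 2 = 3 * a ^ 4 * ((2 * R) * (2 * R)) := by
        calc (2 * √3 * a ^ 2 * R) ^ 2 = √3 ^ 2 * a ^ 4 * ((2 * R) * (2 * R)) := by ring
          _ = _ := by rw [s3]
      rw [f1, f6]
      calc (h * TY) * (h * X) * L ^ 2 ≤ (a * A) * (3 * a ^ 2 * L * B) * L ^ 2 :=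
            mul_le_mul_of_nonneg_right f2 (sq_nonneg _)
        _ = 3 * a ^ 3 * ((L * A) * (L ^ 2 * B)) := f3
        _ ≤ 3 * a ^ 3 * ((2 * R) * (2 * R)) := mul_le_mul_of_nonneg_left f4 (by positivity)
        _ ≤ 3 * a ^ 4 * ((2 * R) * (2 * R)) :=
            mul_le_mul_of_nonneg_right (by linarith) (by positivity)
    exact abs_le_of_sq_le_sq' e1 (by positivity) |>.2
  have hP2 : √TY * √B * (L * h) ≤ 2 * a * R := by
    have e1 : (√TY * √B * (L * h)) ^ 2 ≤ (2 * a * R) ^ 2 := by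
      have s1 : √TY ^ 2 = TY := Real.sq_sqrt hTY0
      have s2' : √B ^ 2 = B := Real.sq_sqrt hB
      have f1 : (√TY * √B * (L * h)) ^ 2 = (h * TY) * h * (B * L ^ 2) := by
        calc (√TY * √B * (L * h)) ^ 2 = √TY ^ 2 * √B ^ 2 * (L * h) ^ 2 := by ring
          _ = _ := by rw [s1, s2']; ring
      have f2 : (h * TY) * h ≤ (a * A) * 1 := mul_le_mul hTY h1 h0.le (by positivity)
      have f3 : A ≤ L * A := le_mul_of_one_le_left hA hL
      have f4 : (a * A) * 1 * (B * L ^ 2) ≤ a * ((2 * R) * (2 * R)) := by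
        have g1 : A * (L ^ 2 * B) ≤ (2 * R) * (2 * R) :=
          mul_le_mul (f3.trans hAR) hBR (by positivity) (by positivity)
        calc (a * A) * 1 * (B * L ^ 2) = a * (A * (L ^ 2 * B)) := by ring
          _ ≤ _ := mul_le_mul_of_nonneg_left g1 hap.le
      have f5 : a * ((2 * R) * (2 * R)) ≤ (2 * a * R) ^ 2 := by
        have g2 : 0 ≤ (2 * R) * (2 * R) := by positivity
        calc a * ((2 * R) * (2 * R)) ≤ a ^ 2 * ((2 * R) * (2 * R)) :=
              mul_le_mul_of_nonneg_right a1 g2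
          _ = _ := by ring
      rw [f1]
      exact ((mul_le_mul_of_nonneg_right f2 (by positivity)).trans f4).trans f5
    exact abs_le_of_sq_le_sq' e1 (by positivity) |>.2
  have h3 : √3 ≤ (1.75 : ℝ) := by
    rw [Real.sqrt_le_left (by norm_num)]; norm_num
  -- the sum
  have hLh : 0 ≤ L * h := by positivity
  have hsum : Z * β ^ 2 * L * h ≤ (18 * s2 * (2 * Eq + √TY * √(160 * β ^ 2 * X)) +
      (A + √TY * √B + 16 / 7 * A)) * (L * h) := by
    have e1 := mul_le_mul_of_nonneg_right hZ (show 0 ≤ β ^ 2 * (L * h) by positivity)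
    calc Z * β ^ 2 * L * h = Z * (β ^ 2 * (L * h)) := by ring
      _ ≤ _ := e1
      _ = (l ^ 2 * β ^ 2) * ((18 * s2 * (2 * Eq + √TY * √(160 * β ^ 2 * X)) +
      (A + √TY * √B + 16 / 7 * A)) * (L * h)) := by ring
      _ = _ := by rw [hl2, one_mul]
  have t1 : Eq * (L * h) ≤ 2 * a * R := by
    calc Eq * (L * h) = L * (h * Eq) := by ring
      _ ≤ L * (a * A) := mul_le_mul_of_nonneg_left hQ hLp.le
      _ = a * (L * A) := by ring
      _ ≤ a * (2 * R) := mul_le_mul_of_nonneg_left hAR hap.le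
      _ = _ := by ring
  have t2 : √TY * √(160 * β ^ 2 * X) * (L * h) ≤ 13 * β * (2 * √3 * a ^ 2 * R) := by
    calc √TY * √(160 * β ^ 2 * X) * (L * h) ≤ √TY * (13 * β * √X) * (L * h) :=
          mul_le_mul_of_nonneg_right (mul_le_mul_of_nonneg_left hS (Real.sqrt_nonneg _)) hLh
      _ = 13 * β * (√TY * √X * (L * h)) := by ring
      _ ≤ _ := mul_le_mul_of_nonneg_left hP (by positivity)
  have t3 : A * (L * h) ≤ 2 * R := by
    calc A * (L * h) = (L * A) * h := by ring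
      _ ≤ (L * A) * 1 := mul_le_mul_of_nonneg_left h1 (by positivity)
      _ ≤ _ := by linarith
  have aR : a * R ≤ a ^ 2 * R := mul_le_mul_of_nonneg_right a1 hR
  have R1 : R ≤ a ^ 2 * R := le_mul_of_one_le_left hR oa2
  have u1 : 18 * s2 * (2 * Eq + √TY * √(160 * β ^ 2 * X)) * (L * h) ≤
      18 * (2 * (2 * a * R) + 13 * β * (2 * √3 * a ^ 2 * R)) := by
    have g1 : (2 * Eq + √TY * √(160 * β ^ 2 * X)) * (L * h) ≤
        2 * (2 * a * R) + 13 * β * (2 * √3 * a ^ 2 * R) := by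
      have : (2 * Eq + √TY * √(160 * β ^ 2 * X)) * (L * h) =
        2 * (Eq * (L * h)) + √TY * √(160 * β ^ 2 * X) * (L * h) := by ring
      rw [this]; linarith
    have g0 : 0 ≤ (2 * Eq + √TY * √(160 * β ^ 2 * X)) * (L * h) := by positivity
    calc 18 * s2 * (2 * Eq + √TY * √(160 * β ^ 2 * X)) * (L * h) =
          s2 * (18 * ((2 * Eq + √TY * √(160 * β ^ 2 * X)) * (L * h))) := by ring
      _ ≤ 1 * (18 * ((2 * Eq + √TY * √(160 * β ^ 2 * X)) * (L * h))) :=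
          mul_le_mul_of_nonneg_right hs1 (by positivity)
      _ ≤ _ := by linarith
  have bR : 0 ≤ β * (a ^ 2 * R) := by positivity
  have u2 : 13 * β * (2 * √3 * a ^ 2 * R) ≤ 45.5 * (β * (a ^ 2 * R)) := by
    calc 13 * β * (2 * √3 * a ^ 2 * R) = 26 * √3 * (β * (a ^ 2 * R)) := by ring
      _ ≤ 26 * 1.75 * (β * (a ^ 2 * R)) := mul_le_mul_of_nonneg_right (by linarith) bR
      _ = _ := by ring
  have v : (18 * s2 * (2 * Eq + √TY * √(160 * β ^ 2 * X)) +
      (A + √TY * √B + 16 / 7 * A)) * (L * h) =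
      18 * s2 * (2 * Eq + √TY * √(160 * β ^ 2 * X)) * (L * h) +
      (A * (L * h) + √TY * √B * (L * h) + 16 / 7 * (A * (L * h))) := by ring
  rw [v] at hsum
  have aR2 : 0 ≤ a ^ 2 * R := by positivity
  have w : 900 * (1 + β) * a ^ 2 * R = 900 * (a ^ 2 * R) + 900 * (β * (a ^ 2 * R)) := by ring
  rw [w]
  linarith

end Vale.Agent.P146.H350
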